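import Vale.Agent.P073Z.Sm.Sk

/-!
# P073, smoothing half, block ST: structure of conical maps
-/

open Set Metric MeasureTheory Topology Filter
open scoped RealInnerProductSpace

noncomputable section

namespace Vale.Agent.P073Z.Sm

namespace ST

variable {g g' G G' : E → E} {x y w c : E}

/-- global cone with apex `x` -/
def Cone (G : E → E) (x : E) : Prop :=
  ∀ y : E, ∀ t : ℝ, 0 ≤ t → G (x + t • (y - x)) = G x + t • (G y - G x)

/-- global translation direction -/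
def Tr (G : E → E) (w c : E) : Prop := ∀ (y : E) (t : ℝ), G (y + t • w) = G y + t • c

theorem exists_pos {P : ℝ → Prop} (h : ∀ᶠ s in 𝓝 (0 : ℝ), P s) : ∃ s, 0 < s ∧ P s := by
  have h1 : ∀ᶠ s in 𝓝[>] (0 : ℝ), P s := h.filter_mono nhdsWithin_le_nhds
  obtain ⟨s, h2, h3⟩ := (h1.and self_mem_nhdsWithin).exists
  exact ⟨s, h3, h2⟩

theorem tendsto_hom (x y : E) : Tendsto (fun s : ℝ => x + s • (y - x)) (𝓝 0) (𝓝 x) := by
  have : Continuous fun s : ℝ => x + s • (y - x) := by fun_prop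
  simpa using this.tendsto 0

theorem tendsto_line (x w : E) : Tendsto (fun s : ℝ => x + s • w) (𝓝 0) (𝓝 x) := by
  have : Continuous fun s : ℝ => x + s • w := by fun_prop
  simpa using this.tendsto 0

theorem tendsto_add (x w : E) :
    Tendsto (fun q : E × ℝ => q.1 + q.2 • w) (𝓝 (x, (0 : ℝ))) (𝓝 x) := by
  have : Continuous fun q : E × ℝ => q.1 + q.2 • w := by fun_prop
  simpa using this.tendsto (x, (0 : ℝ))

theorem tendsto_fst' (x : E) : Tendsto (fun q : E × ℝ => q.1) (𝓝 (x, (0 : ℝ))) (𝓝 x) :=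
  continuous_fst.tendsto (x, (0 : ℝ))

theorem exists_tan (h : ConeAt g x) : ∃ G, IsTan g x G := by
  obtain ⟨r, hr, h⟩ := h
  refine ⟨fun y => g x + (‖y - x‖ / r) • (g (x + (r / ‖y - x‖) • (y - x)) - g x), ?_, ?_⟩
  · filter_upwards [closedBall_mem_nhds x hr] with y hy
    rw [mem_closedBall, dist_eq_norm] at hy
    by_cases h0 : y - x = 0
    · rw [h0, norm_zero, zero_div, zero_smul, add_zero, sub_eq_zero.1 h0]
    · have hn : 0 < ‖y - x‖ := norm_pos_iff.2 h0
      have h1 := h ((r / ‖y - x‖) • (y - x)) (by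
        rw [norm_smul, Real.norm_eq_abs, abs_of_pos (div_pos hr hn), div_mul_cancel₀ _ hn.ne'])
        (‖y - x‖ / r) ⟨(div_pos hn hr).le, (div_le_one hr).2 hy⟩
      rw [smul_smul, show ‖y - x‖ / r * (r / ‖y - x‖) = 1 by field_simp, one_smul,
        add_sub_cancel] at h1
      exact h1.symm
  · intro y t ht
    simp only [add_sub_cancel_left, sub_self, norm_zero, zero_div, zero_smul, add_zero]
    rcases ht.eq_or_lt with rfl | ht
    · simp
    · have h1 : (r / ‖t • (y - x)‖) • t • (y - x) = (r / ‖y - x‖) • (y - x) := by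
        rw [smul_smul, norm_smul, Real.norm_eq_abs, abs_of_pos ht]
        congr 1
        by_cases h0 : ‖y - x‖ = 0
        · simp [h0]
        · field_simp
      rw [h1, norm_smul, Real.norm_eq_abs, abs_of_pos ht, smul_smul, mul_div_assoc]

theorem isTan (h : ConeAt g x) : IsTan g x (tanM g x) := Classical.epsilon_spec (exists_tan h)

theorem cone_tan (h : ConeAt g x) : Cone (tanM g x) x := (isTan h).2

theorem ev_tan (h : ConeAt g x) : tanM g x =ᶠ[𝓝 x] g := (isTan h).1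

theorem tan_self (h : ConeAt g x) : tanM g x x = g x := (ev_tan h).self_of_nhds

theorem cone_ext (h : Cone G x) (h' : Cone G' x) (e : G =ᶠ[𝓝 x] G') : G = G' := by
  funext y
  obtain ⟨s, hs, h1⟩ := exists_pos ((tendsto_hom x y).eventually e)
  have h0 : G x = G' x := e.self_of_nhds
  have h2 : G (x + s • (y - x)) = G' (x + s • (y - x)) := h1
  rw [h y s hs.le, h' y s hs.le, h0, add_right_inj] at h2
  exact sub_left_injective (smul_right_injective E hs.ne' h2)

theorem uniq (h : IsTan g x G) (h' : IsTan g x G') : G = G' :=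
  cone_ext h.2 h'.2 (EventuallyEq.trans h.1 (EventuallyEq.symm h'.1))

theorem germ_tan (e : g =ᶠ[𝓝 x] g') : tanM g x = tanM g' x := by
  have : IsTan g x = IsTan g' x := by
    funext G
    exact propext ⟨fun h => ⟨EventuallyEq.trans h.1 e, h.2⟩,
      fun h => ⟨EventuallyEq.trans h.1 e.symm, h.2⟩⟩
  rw [tanM, tanM, this]

theorem germ_ev (e : g =ᶠ[𝓝 x] g')
    (h : ∀ᶠ q : E × ℝ in 𝓝 (x, (0 : ℝ)), g (q.1 + q.2 • w) = g q.1 + q.2 • c) :
    ∀ᶠ q : E × ℝ in 𝓝 (x, (0 : ℝ)), g' (q.1 + q.2 • w) = g' q.1 + q.2 • c := by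
  filter_upwards [h, (tendsto_add x w).eventually e, (tendsto_fst' x).eventually e] with q h1 h2 h3
  rw [← h2, ← h3, h1]

theorem germ_lin (e : g =ᶠ[𝓝 x] g') : Lin g x = Lin g' x := by
  ext w
  exact ⟨fun ⟨c, h⟩ => ⟨c, germ_ev e h⟩, fun ⟨c, h⟩ => ⟨c, germ_ev e.symm h⟩⟩

theorem germ_lab (e : g =ᶠ[𝓝 x] g') : lab g x = lab g' x := by
  rw [lab, lab, germ_tan e, germ_lin e]

theorem germ_cone (e : g =ᶠ[𝓝 x] g') (h : ConeAt g x) : ConeAt g' x := by
  obtain ⟨r, hr, h⟩ := h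
  obtain ⟨ε, hε, h1⟩ := Metric.nhds_basis_closedBall.eventually_iff.1 e
  refine ⟨min r ε, lt_min hr hε, fun v hv t ht => ?_⟩
  have h2 : ‖v‖ ≤ ε := hv.trans (min_le_right _ _)
  have h3 : x + t • v ∈ closedBall x ε := by
    rw [mem_closedBall, dist_eq_norm, add_sub_cancel_left, norm_smul, Real.norm_eq_abs,
      abs_of_nonneg ht.1]
    nlinarith [ht.1, ht.2, norm_nonneg v]
  have h4 : x + v ∈ closedBall x ε := by
    rw [mem_closedBall, dist_eq_norm, add_sub_cancel_left]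
    exact h2
  rw [← h1 h3, ← h1 h4, ← h1 (mem_closedBall_self hε.le)]
  exact h v (hv.trans (min_le_left _ _)) t ht

theorem Cone.coneAt (h : Cone G x) : ConeAt G x :=
  ⟨1, one_pos, fun v _ t ht => by
    have := h (x + v) t ht.1
    rwa [add_sub_cancel_left] at this⟩

theorem Cone.of_ev (h : Cone G x) (e : G =ᶠ[𝓝 x] g) : ConeAt g x ∧ tanM g x = G :=
  ⟨germ_cone e h.coneAt, uniq (isTan (germ_cone e h.coneAt)) ⟨e, h⟩⟩

theorem Cone.tr (h : Cone G x)
    (e : ∀ᶠ q : E × ℝ in 𝓝 (x, (0 : ℝ)), G (q.1 + q.2 • w) = G q.1 + q.2 • c) : Tr G w c := by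
  intro y t
  have h1 : Tendsto (fun s : ℝ => (x + s • (y - x), s * t)) (𝓝 0) (𝓝 (x, (0 : ℝ))) := by
    have : Continuous fun s : ℝ => (x + s • (y - x), s * t) := by fun_prop
    simpa using this.tendsto 0
  obtain ⟨s, hs, h2⟩ := exists_pos (h1.eventually e)
  have h3 : x + s • (y - x) + (s * t) • w = x + s • (y + t • w - x) := by module
  simp only at h2
  rw [h3, h _ s hs.le, h _ s hs.le] at h2
  refine smul_right_injective E hs.ne' ?_
  simp only
  linear_combination (norm := module) h2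

theorem tr_tan (h : ConeAt g x)
    (e : ∀ᶠ q : E × ℝ in 𝓝 (x, (0 : ℝ)), g (q.1 + q.2 • w) = g q.1 + q.2 • c) :
    Tr (tanM g x) w c := (cone_tan h).tr (germ_ev (ev_tan h).symm e)

theorem Tr.ev (h : Tr G w c) (y : E) :
    ∀ᶠ q : E × ℝ in 𝓝 (y, (0 : ℝ)), G (q.1 + q.2 • w) = G q.1 + q.2 • c :=
  Eventually.of_forall fun q => h q.1 q.2

theorem Tr.mem (h : Tr G w c) (y : E) : w ∈ Lin G y := ⟨c, h.ev y⟩

theorem Tr.one (h : Tr G w c) (y : E) : G (y + w) = G y + c := by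
  have := h y 1
  rwa [one_smul, one_smul] at this

theorem lin_iff (h : ConeAt g x) : w ∈ Lin g x ↔ ∃ c, Tr (tanM g x) w c := by
  constructor
  · rintro ⟨c, hc⟩
    exact ⟨c, tr_tan h hc⟩
  · rintro ⟨c, hc⟩
    rw [← germ_lin (ev_tan h)]
    exact hc.mem x

theorem lin_of_tan (h : ConeAt g x) (h' : ConeAt g' y) (e : tanM g x = tanM g' y) :
    Lin g x = Lin g' y := by
  ext w
  rw [lin_iff h, lin_iff h', e]

theorem Cone.shift (h : Cone G x) (ht : Tr G w c) (t : ℝ) : Cone G (x + t • w) := by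
  intro y s hs
  have h1 : x + t • w + s • (y - (x + t • w)) = x + s • (y - x) + ((1 - s) * t) • w := by module
  rw [h1, ht, h y s hs, ht]
  module

theorem transl (h : ConeAt g x)
    (e : ∀ᶠ q : E × ℝ in 𝓝 (x, (0 : ℝ)), g (q.1 + q.2 • w) = g q.1 + q.2 • c) :
    ∀ᶠ t : ℝ in 𝓝 0, ConeAt g (x + t • w) ∧ tanM g (x + t • w) = tanM g x := by
  filter_upwards [(tendsto_line x w).eventually (ev_tan h).eventuallyEq_nhds] with t ht
  exact ((cone_tan h).shift (tr_tan h e) t).of_ev ht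

/-- a global cone which is conical near its apex is conical everywhere -/
theorem Cone.coneAt_all (h : Cone G x) (hc : ∀ᶠ y in 𝓝 x, ConeAt G y) (y : E) : ConeAt G y := by
  obtain ⟨s, hs, r, hr, h1⟩ := exists_pos ((tendsto_hom x y).eventually hc)
  refine ⟨r / s, div_pos hr hs, fun v hv t ht => ?_⟩
  have h2 := h1 (s • v) (by
    rw [norm_smul, Real.norm_eq_abs, abs_of_pos hs]
    rwa [le_div_iff₀' hs] at hv) t ht
  have e1 : x + s • (y - x) + t • s • v = x + s • (y + t • v - x) := by module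
  have e2 : x + s • (y - x) + s • v = x + s • (y + v - x) := by module
  rw [e1, e2, h _ s hs.le, h _ s hs.le, h _ s hs.le] at h2
  refine smul_right_injective E hs.ne' ?_
  simp only
  linear_combination (norm := module) h2

/-- the radial direction is a translation direction -/
theorem Cone.radial (h : Cone G x) (hy : ConeAt G y) : Tr (tanM G y) (y - x) (G y - G x) := by
  refine tr_tan hy ?_
  have h1 : Tendsto (fun q : E × ℝ => y + (1 + q.2)⁻¹ • (q.1 - y)) (𝓝 (y, (0 : ℝ))) (𝓝 y) := by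
    have h2 : ContinuousAt (fun q : E × ℝ => y + (1 + q.2)⁻¹ • (q.1 - y)) (y, (0 : ℝ)) :=
      continuousAt_const.add (((continuousAt_const.add continuousAt_snd).inv₀ (by simp)).smul
        (continuousAt_fst.sub continuousAt_const))
    simpa using h2.tendsto
  have h3 : ∀ᶠ q : E × ℝ in 𝓝 (y, (0 : ℝ)), 0 < 1 + q.2 := by
    have : ContinuousAt (fun q : E × ℝ => 1 + q.2) (y, (0 : ℝ)) := by fun_prop
    exact this.eventually (lt_mem_nhds (by simp))
  filter_upwards [h1.eventually (ev_tan hy), (tendsto_fst' y).eventually (ev_tan hy), h3]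
    with q e1 e2 e3
  have e4 : q.1 + q.2 • (y - x) = x + (1 + q.2) • (y + (1 + q.2)⁻¹ • (q.1 - y) - x) := by
    rw [add_sub_right_comm, smul_add, smul_smul, mul_inv_cancel₀ e3.ne']
    module
  rw [e4, h _ _ e3.le, ← e1, cone_tan hy _ _ (inv_pos.2 e3).le, e2, tan_self hy,
    add_sub_right_comm, smul_add, smul_smul, mul_inv_cancel₀ e3.ne']
  module

theorem Cone.tan_apex (h : Cone G x) (hy : ConeAt G y) : tanM G y x = G x := by
  have h1 := h.radial hy y (-1)
  rw [show y + (-1 : ℝ) • (y - x) = x by module, tan_self hy] at h1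
  rw [h1]
  module

theorem Cone.move (h : Cone G x) (hy : ConeAt G y) (hw : Tr G w c) {t : ℝ} (ht : 0 < t) :
    ConeAt G (x + t • (y - x) + w) ∧ tanM G (x + t • (y - x) + w) = tanM G y := by
  have h1 := h.radial hy
  have h2 : Tr (tanM G y) w c := tr_tan hy (hw.ev y)
  have h3 : Cone (tanM G y) x := by
    have := (cone_tan hy).shift h1 (-1)
    rwa [show y + (-1 : ℝ) • (y - x) = x by module] at this
  have h4 : Cone (tanM G y) (x + t • (y - x) + w) := by
    have := (h3.shift h1 t).shift h2 1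
    rwa [one_smul] at this
  refine h4.of_ev ?_
  have h5 : Tendsto (fun z : E => x + t⁻¹ • (z - w - x)) (𝓝 (x + t • (y - x) + w)) (𝓝 y) := by
    have h6 : Continuous fun z : E => x + t⁻¹ • (z - w - x) := by fun_prop
    have h7 := h6.tendsto (x + t • (y - x) + w)
    rwa [add_sub_cancel_right, add_sub_cancel_left, smul_smul, inv_mul_cancel₀ ht.ne', one_smul,
      add_sub_cancel] at h7
  filter_upwards [h5.eventually (ev_tan hy)] with z hz
  have e1 : z = x + t • (x + t⁻¹ • (z - w - x) - x) + w := by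
    rw [add_sub_cancel_left, smul_smul, mul_inv_cancel₀ ht.ne']
    module
  rw [e1, h2.one, hw.one, h3 _ _ ht.le, h _ _ ht.le, hz, h.tan_apex hy]

theorem lab_eq (h1 : tanM g x = tanM g' y) (h2 : Lin g x = Lin g' y) (h3 : x - y ∈ Lin g' y) :
    lab g x = lab g' y := by
  rw [lab, lab, h1, h2]
  congr 1
  ext z
  simp only [mem_ofPred_eq]
  constructor
  · intro h
    have := add_mem h h3
    rwa [sub_add_sub_cancel] at this
  · intro h
    have := sub_mem h h3
    rwa [sub_sub_sub_cancel_right] at this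

theorem coneAt_tan (h : ∀ᶠ y in 𝓝 x, ConeAt g y) (y : E) : ConeAt (tanM g x) y := by
  have hx : ConeAt g x := h.self_of_nhds
  refine (cone_tan hx).coneAt_all ?_ y
  filter_upwards [h, (ev_tan hx).eventuallyEq_nhds] with z h1 h2 using germ_cone h2.symm h1

theorem glob (h : ∀ᶠ y in 𝓝 x, ConeAt g y) (y : E) :
    ConeAt (tanM g x) y ∧ Lin g x ≤ Lin (tanM g x) y ∧ y - x ∈ Lin (tanM g x) y ∧
      ∀ (t : ℝ) (w : E), 0 < t → w ∈ Lin g x →
        Lin (tanM g x) (x + t • (y - x) + w) = Lin (tanM g x) y ∧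
          lab (tanM g x) (x + t • (y - x) + w) = lab (tanM g x) y := by
  have hx : ConeAt g x := h.self_of_nhds
  have hy := coneAt_tan h y
  have h1 : Lin g x ≤ Lin (tanM g x) y := fun w hw => by
    obtain ⟨c, hc⟩ := (lin_iff hx).1 hw
    exact hc.mem y
  have h2 : y - x ∈ Lin (tanM g x) y := (lin_iff hy).2 ⟨_, (cone_tan hx).radial hy⟩
  refine ⟨hy, h1, h2, fun t w ht hw => ?_⟩
  obtain ⟨c, hc⟩ := (lin_iff hx).1 hw
  obtain ⟨h3, h4⟩ := (cone_tan hx).move hy hc ht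
  have h5 := lin_of_tan h3 hy h4
  refine ⟨h5, lab_eq h4 h5 ?_⟩
  rw [show x + t • (y - x) + w - y = (t - 1) • (y - x) + w by module]
  exact add_mem (Submodule.smul_mem _ _ h2) (h1 hw)

theorem near (h : ∀ᶠ y in 𝓝 x, ConeAt g y) : ∀ᶠ y in 𝓝 x,
    Lin g x ≤ Lin g y ∧ y - x ∈ Lin g y ∧ tanM g y x = g x ∧
      (y - x ∈ Lin g x → lab g y = lab g x ∧ Lin g y = Lin g x) := by
  have hx : ConeAt g x := h.self_of_nhds
  filter_upwards [(ev_tan hx).eventuallyEq_nhds] with y e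
  obtain ⟨h1, h2, h3, -⟩ := glob h y
  rw [← germ_lin e, ← germ_tan e, ← germ_lab e]
  refine ⟨h2, h3, ((cone_tan hx).tan_apex h1).trans (tan_self hx), fun hw => ?_⟩
  obtain ⟨h4, h5⟩ := (glob h x).2.2.2 1 (y - x) one_pos hw
  rw [sub_self, smul_zero, add_zero, add_sub_cancel] at h4 h5
  exact ⟨h5.trans (germ_lab (ev_tan hx)), h4.trans (germ_lin (ev_tan hx))⟩

theorem inj {V : Set E} (h : ConeAt g x) (hV : V ∈ 𝓝 x) (hi : InjOn g V) :
    Function.Injective (tanM g x) := by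
  intro y y' e
  have h1 : ∀ᶠ z in 𝓝 x, z ∈ V ∧ tanM g x z = g z := (show ∀ᶠ z in 𝓝 x, z ∈ V from hV).and (ev_tan h)
  obtain ⟨s, hs, ⟨a1, a2⟩, b1, b2⟩ :=
    exists_pos (((tendsto_hom x y).eventually h1).and ((tendsto_hom x y').eventually h1))
  have h2 : x + s • (y - x) = x + s • (y' - x) := by
    refine hi a1 b1 ?_
    rw [← a2, ← b2, cone_tan h _ _ hs.le, cone_tan h _ _ hs.le, e]
  exact sub_left_injective (smul_right_injective E hs.ne' (add_left_cancel h2))

theorem surj (h : ConeAt g x) (ho : ∀ V ∈ 𝓝 x, g '' V ∈ 𝓝 (g x)) :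
    Function.Surjective (tanM g x) := by
  intro u
  have h1 : ∀ᶠ v in 𝓝 (g x), v ∈ g '' {z | tanM g x z = g z} := ho _ (ev_tan h)
  obtain ⟨s, hs, z, hz, e⟩ := exists_pos ((tendsto_hom (g x) u).eventually h1)
  refine ⟨x + s⁻¹ • (z - x), ?_⟩
  have hz' : tanM g x z = g z := hz
  rw [cone_tan h _ _ (inv_pos.2 hs).le, hz', e, tan_self h, add_sub_cancel_left, smul_smul,
    inv_mul_cancel₀ hs.ne', one_smul, add_sub_cancel]

theorem tr_of_mem (h : ConeAt g x) (hw : w ∈ Lin g x) :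
    Tr (tanM g x) w (tanM g x (x + w) - g x) := by
  obtain ⟨c, hc⟩ := (lin_iff h).1 hw
  rwa [hc.one, tan_self h, add_sub_cancel_left]

theorem finrank_E : Module.finrank ℝ E = 3 := by simp

theorem lin_top (h : 3 ≤ rk g x) : Lin g x = ⊤ :=
  Submodule.eq_top_of_finrank_eq (le_antisymm (Submodule.finrank_le _) (by rw [finrank_E]; exact h))

/-- an injective endomorphism as a continuous linear equivalence -/
def eqv (L : E →ₗ[ℝ] E) (h : Function.Injective L) : E ≃L[ℝ] E :=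
  (LinearEquiv.ofInjectiveEndo L h).toContinuousLinearEquiv

theorem eqv_apply (L : E →ₗ[ℝ] E) (h : Function.Injective L) (v : E) : eqv L h v = L v := rfl

theorem rk3 {V : Set E} (h : ConeAt g x) (hV : V ∈ 𝓝 x) (hi : InjOn g V) (h3 : 3 ≤ rk g x) :
    ∃ A : E ≃L[ℝ] E, ∀ y, tanM g x y = g x + A (y - x) := by
  have hm : ∀ w, w ∈ Lin g x := fun w => by rw [lin_top h3]; trivial
  let L : E →ₗ[ℝ] E :=
    { toFun := fun w => tanM g x (x + w) - g x
      map_add' := fun v w => by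
        rw [← add_assoc, (tr_of_mem h (hm w)).one]
        module
      map_smul' := fun a w => by
        rw [tr_of_mem h (hm w), tan_self h, add_sub_cancel_left, RingHom.id_apply] }
  have hL : Function.Injective L := fun v w e => by
    have e' : tanM g x (x + v) - g x = tanM g x (x + w) - g x := e
    exact add_left_cancel (inj h hV hi (sub_left_injective e'))
  refine ⟨eqv L hL, fun y => ?_⟩
  rw [eqv_apply]
  change _ = g x + (tanM g x (x + (y - x)) - g x)
  rw [add_sub_cancel, add_sub_cancel]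

theorem exists_normal {W : Submodule ℝ E} (h : Module.finrank ℝ W = 2) :
    ∃ n : E, ‖n‖ = 1 ∧ ∀ w, w ∈ W ↔ ⟪n, w⟫ = 0 := by
  have h1 : Module.finrank ℝ Wᗮ = 1 := by
    have := W.finrank_add_finrank_orthogonal
    rw [finrank_E, h] at this
    omega
  have h2 : Wᗮ ≠ ⊥ := fun h0 => by
    rw [h0, finrank_bot] at h1
    exact zero_ne_one h1
  obtain ⟨v, hv, hv0⟩ := Submodule.exists_mem_ne_zero_of_ne_bot h2
  have hn : ‖v‖ ≠ 0 := norm_ne_zero_iff.2 hv0
  have h3 : ‖‖v‖⁻¹ • v‖ = 1 := by rw [norm_smul, norm_inv, norm_norm, inv_mul_cancel₀ hn]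
  have h4 : ‖v‖⁻¹ • v ≠ 0 := smul_ne_zero (inv_ne_zero hn) hv0
  have h5 : Submodule.span ℝ {‖v‖⁻¹ • v} = Wᗮ :=
    Submodule.eq_of_le_of_finrank_eq
      ((Submodule.span_singleton_le_iff_mem _ _).2 (Submodule.smul_mem _ _ hv))
      (by rw [finrank_span_singleton h4, h1])
  refine ⟨‖v‖⁻¹ • v, h3, fun w => ?_⟩
  rw [← Submodule.mem_orthogonal_singleton_iff_inner_right, h5, Submodule.orthogonal_orthogonal]

theorem rk2 {V : Set E} (h : ConeAt g x) (hV : V ∈ 𝓝 x) (hi : InjOn g V) (h2 : rk g x = 2) :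
    ∃ (A : E ≃L[ℝ] E) (n a : E), ‖n‖ = 1 ∧ 0 < 1 + ⟪n, a⟫ ∧ (∀ w, w ∈ Lin g x ↔ ⟪n, w⟫ = 0) ∧
      ∀ y, tanM g x y = g x + A (y - x + max ⟪n, y - x⟫ 0 • a) := by
  obtain ⟨n, hn, hW⟩ := exists_normal h2
  have hnn : ⟪n, n⟫ = (1 : ℝ) := by rw [real_inner_self_eq_norm_sq, hn, one_pow]
  have hm : ∀ v : E, v - ⟪n, v⟫ • n ∈ Lin g x := fun v => by
    rw [hW, inner_sub_right, inner_smul_right, hnn, mul_one, sub_self]
  have hinj := inj h hV hi
  have htr := fun v => tr_of_mem h (hm v)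
  have hcone := cone_tan h
  have hx := tan_self h
  generalize tanM g x = T at hinj htr hcone hx ⊢
  let L : E →ₗ[ℝ] E :=
    { toFun := fun v => T (x + (v - ⟪n, v⟫ • n)) - g x + ⟪n, v⟫ • (g x - T (x - n))
      map_add' := fun v w => by
        have e1 : x + (v + w - ⟪n, v + w⟫ • n) = x + (v - ⟪n, v⟫ • n) + (w - ⟪n, w⟫ • n) := by
          rw [inner_add_right]
          module
        rw [e1, (htr w).one, inner_add_right]
        module
      map_smul' := fun a w => by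
        have e1 : x + (a • w - ⟪n, a • w⟫ • n) = x + a • (w - ⟪n, w⟫ • n) := by
          rw [inner_smul_right]
          module
        rw [e1, htr w, inner_smul_right, RingHom.id_apply, hx]
        module }
  have hL : ∀ v, L v = T (x + (v - ⟪n, v⟫ • n)) - g x + ⟪n, v⟫ • (g x - T (x - n)) := fun _ => rfl
  have hd : ∀ v, T (x + v) = T (x + ⟪n, v⟫ • n) + (T (x + (v - ⟪n, v⟫ • n)) - g x) := fun v => by
    rw [← (htr v).one]
    congr 1
    module
  have hneg : ∀ v, ⟪n, v⟫ ≤ 0 → T (x + v) = g x + L v := fun v hv => by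
    have e1 := hcone (x - n) (-⟪n, v⟫) (by linarith)
    rw [show x + (-⟪n, v⟫) • (x - n - x) = x + ⟪n, v⟫ • n by module, hx] at e1
    rw [hd, e1, hL]
    module
  have hpos : ∀ v, 0 ≤ ⟪n, v⟫ → T (x + v) =
      g x + L v + ⟪n, v⟫ • (T (x + n) - g x - (g x - T (x - n))) := fun v hv => by
    have e1 := hcone (x + n) ⟪n, v⟫ hv
    rw [add_sub_cancel_left, hx] at e1
    rw [hd, e1, hL]
    module
  have hL0 : ∀ v, ⟪n, v⟫ ≤ 0 → L v = 0 → v = 0 := fun v hv e => by
    have e1 := hneg v hv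
    rw [e, add_zero, ← hx] at e1
    exact add_eq_left.1 (hinj e1)
  have hLi : Function.Injective L := by
    rw [injective_iff_map_eq_zero]
    intro v e
    rcases le_total ⟪n, v⟫ 0 with hv | hv
    · exact hL0 v hv e
    · exact neg_eq_zero.1 (hL0 (-v) (by rw [inner_neg_right]; linarith) (by rw [map_neg, e, neg_zero]))
  have key : ∀ y, T y = g x + eqv L hLi (y - x + max ⟪n, y - x⟫ 0 •
      (eqv L hLi).symm (T (x + n) - g x - (g x - T (x - n)))) := fun y => by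
    rw [map_add, map_smul, ContinuousLinearEquiv.apply_symm_apply, eqv_apply]
    rcases le_total ⟪n, y - x⟫ 0 with hv | hv
    · rw [max_eq_right hv, zero_smul, add_zero, ← hneg _ hv, add_sub_cancel]
    · rw [max_eq_left hv, ← add_assoc, ← hpos _ hv, add_sub_cancel]
  refine ⟨eqv L hLi, n, _, hn, ?_, hW, key⟩
  generalize (eqv L hLi).symm (T (x + n) - g x - (g x - T (x - n))) = a at key
  by_contra h0
  have h1 : ⟪n, n + a⟫ ≤ 0 := by
    rw [inner_add_right, hnn]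
    exact not_lt.1 h0
  have e1 := key (x + (n + a))
  have e2 := key (x + n)
  rw [add_sub_cancel_left] at e1 e2
  rw [max_eq_right h1, zero_smul, add_zero] at e1
  rw [hnn, max_eq_left zero_le_one, one_smul, ← e1] at e2
  have e3 : n = n + a := add_left_cancel (hinj e2)
  rw [← e3, hnn] at h1
  exact absurd h1 (by norm_num)

theorem rk1 (h : rk g x = 1) :
    ∃ e : E, ‖e‖ = 1 ∧ e ∈ Lin g x ∧ ∀ y, y - x ∈ Lin g x ↔ rc x e y = 0 := by
  have h2 : Lin g x ≠ ⊥ := fun h0 => by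
    rw [rk, h0, finrank_bot] at h
    exact zero_ne_one h
  obtain ⟨v, hv, hv0⟩ := Submodule.exists_mem_ne_zero_of_ne_bot h2
  have hn : ‖v‖ ≠ 0 := norm_ne_zero_iff.2 hv0
  have h3 : ‖‖v‖⁻¹ • v‖ = 1 := by rw [norm_smul, norm_inv, norm_norm, inv_mul_cancel₀ hn]
  have h4 : ‖v‖⁻¹ • v ≠ 0 := smul_ne_zero (inv_ne_zero hn) hv0
  have h6 := Submodule.smul_mem _ ‖v‖⁻¹ hv
  generalize ‖v‖⁻¹ • v = e at h3 h4 h6
  have h5 : Submodule.span ℝ {e} = Lin g x :=
    Submodule.eq_of_le_of_finrank_eq ((Submodule.span_singleton_le_iff_mem _ _).2 h6)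
      (by rw [finrank_span_singleton h4]; exact h.symm)
  refine ⟨e, h3, h6, fun y => ?_⟩
  rw [← h5, Submodule.mem_span_singleton, rc, norm_eq_zero, sub_eq_zero, sc]
  constructor
  · rintro ⟨a, ha⟩
    rw [← ha, inner_smul_right, real_inner_self_eq_norm_sq, h3, one_pow, mul_one]
  · intro ha
    exact ⟨_, ha.symm⟩

theorem mem_of_lab (e : lab g x = lab g y) : x - y ∈ Lin g y := by
  have h1 : {z | z - x ∈ Lin g x} = {z | z - y ∈ Lin g y} := congrArg Prod.snd e
  have h2 : x ∈ {z | z - x ∈ Lin g x} := by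
    rw [mem_ofPred_eq, sub_self]
    exact zero_mem _
  rw [h1] at h2
  exact h2

theorem half {r : ℝ} (hc : ∀ z ∈ ball y r, ConeAt g z) (hy : y ∈ ball y r) {n : E}
    (hn : ‖n‖ = 1) (hW : ∀ w, w ∈ Lin g y ↔ ⟪n, w⟫ = 0)
    (hl : ∀ z ∈ ball y r, rk g z ≤ 2 → lab g z = lab g y) {z : E} (hz : z ∈ ball y r)
    (hp : 0 < ⟪n, z - y⟫) : g z = tanM g y z := by
  have hnn : ⟪n, n⟫ = (1 : ℝ) := by rw [real_inner_self_eq_norm_sq, hn, one_pow]
  have hev : ∀ u ∈ ball y r, ∀ᶠ v in 𝓝 u, ConeAt g v := fun u hu =>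
    eventually_of_mem (isOpen_ball.mem_nhds hu) hc
  let S : Set E := ball y r ∩ {u | ⟪n, y⟫ < ⟪n, u⟫}
  have hS : Convex ℝ S := (convex_ball y r).inter
    (convex_halfSpace_gt (f := fun u : E => ⟪n, u⟫) (innerSL ℝ n).toLinearMap.isLinear _)
  have hmem : ∀ u, u ∈ ball y r → 0 < ⟪n, u - y⟫ → u ∈ S := fun u h1 h2 =>
    ⟨h1, by rwa [inner_sub_right, sub_pos] at h2⟩
  have hloc : ∀ u ∈ S, ∀ᶠ v in 𝓝[S] u, tanM g u = tanM g v := fun u hu => by
    have h3 : 3 ≤ rk g u := by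
      by_contra h4
      have h5 := (hW _).1 (mem_of_lab (hl u hu.1 (by omega)))
      rw [inner_sub_right, sub_eq_zero] at h5
      exact absurd hu.2 (by rw [mem_ofPred_eq, h5]; exact lt_irrefl _)
    refine Eventually.filter_mono nhdsWithin_le_nhds ?_
    filter_upwards [near (hev u hu.1)] with v hv
    exact (congrArg Prod.fst (hv.2.2.2 (by rw [lin_top h3]; trivial)).1).symm
  have hyc := hc y hy
  obtain ⟨s, hs, a1, a2⟩ := exists_pos (((tendsto_line y n).eventually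
    (show ∀ᶠ u in 𝓝 y, u ∈ ball y r from isOpen_ball.mem_nhds hy)).and
    ((tendsto_line y n).eventually (ev_tan hyc).eventuallyEq_nhds))
  have a3 : y + s • n ∈ S := hmem _ a1 (by
    rw [add_sub_cancel_left, inner_smul_right, hnn, mul_one]; exact hs)
  have h1 : tanM g z = tanM g (y + s • n) :=
    hS.isPreconnected.induction₂ (fun u v => tanM g u = tanM g v) hloc
      (fun _ _ _ _ _ _ e1 e2 => e1.trans e2) (fun _ _ _ _ e => e.symm) (hmem z hz hp) a3
  have h2 := ((glob (hev y hy) (y + s • n)).2.2.2 (⟪n, z - y⟫ / s) (z - y - ⟪n, z - y⟫ • n)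
    (div_pos hp hs) (by rw [hW, inner_sub_right, inner_smul_right, hnn, mul_one, sub_self])).2
  rw [add_sub_cancel_left, smul_smul, div_mul_cancel₀ _ hs.ne',
    show y + ⟪n, z - y⟫ • n + (z - y - ⟪n, z - y⟫ • n) = z by module] at h2
  have h3 : tanM (tanM g y) z = tanM (tanM g y) (y + s • n) := congrArg Prod.fst h2
  rw [← tan_self (hc z hz), h1, ← germ_tan a2, ← h3, tan_self (coneAt_tan (hev y hy) z)]

theorem ball' {r : ℝ} (hc : ∀ z ∈ ball y r, ConeAt g z) (hg : ContinuousOn g (ball y r))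
    (hi : InjOn g (ball y r)) (h2 : rk g y = 2)
    (hl : ∀ z ∈ ball y r, rk g z ≤ 2 → lab g z = lab g y) :
    ∀ z ∈ ball y r, g z = tanM g y z := by
  intro z hz
  have hy : y ∈ ball y r := mem_ball_self (pos_of_mem_ball hz)
  obtain ⟨A, n, a, hn, -, hW, hT⟩ := rk2 (hc y hy) (isOpen_ball.mem_nhds hy) hi h2
  have hnn : ⟪n, n⟫ = (1 : ℝ) := by rw [real_inner_self_eq_norm_sq, hn, one_pow]
  rcases lt_trichotomy 0 ⟪n, z - y⟫ with hp | hp | hp
  · exact half hc hy hn hW hl hz hp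
  · have hTc : Continuous (tanM g y) := by
      rw [show tanM g y = fun u => g y + A (u - y + max ⟪n, u - y⟫ 0 • a) from funext hT]
      fun_prop
    have h1 : Tendsto (fun s : ℝ => g (z + s • n)) (𝓝[>] 0) (𝓝 (g z)) :=
      ((hg.continuousAt (isOpen_ball.mem_nhds hz)).tendsto.comp (tendsto_line z n)).mono_left
        nhdsWithin_le_nhds
    have h3 : Tendsto (fun s : ℝ => tanM g y (z + s • n)) (𝓝[>] 0) (𝓝 (tanM g y z)) :=
      ((hTc.tendsto z).comp (tendsto_line z n)).mono_left nhdsWithin_le_nhds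
    refine tendsto_nhds_unique_of_eventuallyEq h1 h3 ?_
    have h4 : ∀ᶠ s : ℝ in 𝓝[>] 0, z + s • n ∈ ball y r :=
      ((tendsto_line z n).eventually (show ∀ᶠ u in 𝓝 z, u ∈ ball y r from
        isOpen_ball.mem_nhds hz)).filter_mono nhdsWithin_le_nhds
    filter_upwards [h4, self_mem_nhdsWithin] with s h5 h6
    refine half hc hy hn hW hl h5 ?_
    rw [add_sub_right_comm, inner_add_right, ← hp, inner_smul_right, hnn, mul_one, zero_add]
    exact h6
  · refine half (n := -n) hc hy (by rw [norm_neg, hn]) (fun w => ?_) hl hz ?_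
    · rw [hW, inner_neg_left, neg_eq_zero]
    · rw [inner_neg_left]
      linarith

variable {U : Set E}

theorem near_rk (hU : IsOpen U) (hc : ∀ x ∈ U, ConeAt g x) (hx : x ∈ U) : ∀ᶠ y in 𝓝 x,
    y ∈ U ∧ rk g x ≤ rk g y ∧ y - x ∈ Lin g y ∧ (rk g y ≤ rk g x ↔ y - x ∈ Lin g x) ∧
      (rk g y ≤ rk g x → lab g y = lab g x) := by
  filter_upwards [near (eventually_of_mem (hU.mem_nhds hx) hc), hU.mem_nhds hx] with y h hy
  obtain ⟨h1, h2, -, h3⟩ := h
  have h4 : rk g y ≤ rk g x → y - x ∈ Lin g x := fun h5 => by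
    rw [Submodule.eq_of_le_of_finrank_le h1 h5]
    exact h2
  exact ⟨hy, Submodule.finrank_mono h1, h2, ⟨h4, fun h5 => by rw [rk, rk, (h3 h5).2]⟩,
    fun h5 => (h3 (h4 h5)).1⟩

theorem vert (hU : IsOpen U) (hc : ∀ x ∈ U, ConeAt g x) : LocFin (Sk g U 0) U := by
  refine ⟨fun x hx => hx.1, fun K hK hKU => ?_⟩
  obtain ⟨t, -, ht⟩ := hK.elim_nhds_subcover (fun x => {y | y - x ∈ Lin g y}) fun x hx =>
    (near_rk hU hc (hKU hx)).mono fun y hy => hy.2.2.1
  refine t.finite_toSet.subset fun y hy => ?_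
  obtain ⟨x, hx, hyx⟩ := mem_iUnion₂.1 (ht hy.2)
  have h1 : Lin g y = ⊥ := Submodule.finrank_eq_zero.1 (Nat.le_zero.1 hy.1.2)
  rw [mem_ofPred_eq, h1, Submodule.mem_bot, sub_eq_zero] at hyx
  rw [hyx]
  exact hx

theorem lines (hU : IsOpen U) (hc : ∀ x ∈ U, ConeAt g x) (h1 : ∀ x ∈ U, 1 ≤ rk g x) :
    ∃ x0 e : Lab → E, Lines U (Sk g U 1) (lab g) x0 e := by
  have key : ∀ l : Lab, ∃ x0 e : E, ‖e‖ = 1 ∧ ∀ x, rk g x = 1 → lab g x = l →
      ∀ y, y - x ∈ Lin g x ↔ rc x0 e y = 0 := fun l => by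
    by_cases h : ∃ x, rk g x = 1 ∧ lab g x = l
    · obtain ⟨x', h2, h3⟩ := h
      obtain ⟨e, he, -, h4⟩ := rk1 h2
      refine ⟨x', e, he, fun x _ h5 y => ?_⟩
      have h6 : {z | z - x ∈ Lin g x} = {z | z - x' ∈ Lin g x'} :=
        congrArg Prod.snd (h5.trans h3.symm)
      rw [← h4]
      exact Set.ext_iff.1 h6 y
    · exact ⟨0, EuclideanSpace.single 0 1, by simp, fun x h2 h3 => absurd ⟨x, h2, h3⟩ h⟩
  choose x0 e he hl using key
  refine ⟨x0, e, hU, fun x hx => hx.1, ?_, he, fun x hx => ?_⟩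
  · rw [isOpen_iff_mem_nhds]
    intro x hx
    filter_upwards [near_rk hU hc hx.1] with y hy
    exact ⟨hy.1, fun h => hx.2 ⟨hx.1, hy.2.1.trans h.2⟩⟩
  · have h2 : rk g x = 1 := le_antisymm hx.2 (h1 x hx.1)
    filter_upwards [near_rk hU hc hx.1] with y hy
    obtain ⟨a1, -, -, a2, a3⟩ := hy
    rw [h2] at a2 a3
    refine ⟨?_, fun h => a3 h.2⟩
    rw [← hl (lab g x) x h2 rfl y, ← a2]
    exact ⟨fun h => h.2, fun h => ⟨a1, h⟩⟩

theorem count (hU : IsOpen U) (hc : ∀ x ∈ U, ConeAt g x) : (lab g '' U).Countable := by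
  have key : ∀ k : ℕ, (lab g '' {x | x ∈ U ∧ rk g x = k}).Countable := fun k => by
    obtain ⟨t, -, ht, hs⟩ := TopologicalSpace.countable_cover_nhdsWithin
      (s := {x | x ∈ U ∧ rk g x = k}) (f := fun x => {y | lab g y = lab g x}) fun x hx => by
        filter_upwards [nhdsWithin_le_nhds (near_rk hU hc hx.1), self_mem_nhdsWithin] with y h1 h2
        exact h1.2.2.2.2 (h2.2.trans hx.2.symm).le
    refine (ht.image (lab g)).mono ?_
    rintro _ ⟨y, hy, rfl⟩
    obtain ⟨x, hx, hyx⟩ := mem_iUnion₂.1 (hs hy)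
    exact ⟨x, hx, Eq.symm hyx⟩
  refine (countable_iUnion key).mono ?_
  rintro _ ⟨y, hy, rfl⟩
  exact mem_iUnion.2 ⟨rk g y, y, ⟨hy, rfl⟩, rfl⟩

end ST

theorem blockST : StmtST where
  isTan _ _ h := ST.isTan h
  uniq _ _ _ _ h h' := ST.uniq h h'
  germ _ _ _ e := ⟨ST.germ_tan e, ST.germ_lin e, by rw [rk, rk, ST.germ_lin e], ST.germ_lab e,
    ST.germ_cone e⟩
  transl _ _ _ _ h e := ⟨ST.tr_tan h e, ST.transl h e⟩
  near _ _ h := ST.near h
  glob _ _ h := ST.glob h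
  inj _ _ _ h hV hi := ST.inj h hV hi
  surj _ _ h ho := ST.surj h ho
  rk3 _ _ _ h hV hi h3 := ST.rk3 h hV hi h3
  rk2 _ _ _ h hV hi h2 := ST.rk2 h hV hi h2
  rk1 _ _ h := ST.rk1 h
  ball _ _ _ hc hg hi h2 hl := ST.ball' hc hg hi h2 hl
  vert _ _ hU hc := ST.vert hU hc
  lines _ _ hU hc h1 := ST.lines hU hc h1
  count _ _ hU hc := ST.count hU hc

end Vale.Agent.P073Z.Sm
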