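import Vale.Agent.P073Z.Sm.Sk

/-!
# P073, smoothing half: block EDGE (smoothing along all edges)
-/

open Set Metric MeasureTheory Topology Filter
open scoped ContDiff ENNReal NNReal RealInnerProductSpace

noncomputable section

namespace Vale.Agent.P073Z.Sm

namespace EDGE

theorem cont_sc (x0 e : E) : Continuous (sc x0 e) := by
  unfold sc
  fun_prop

theorem cont_rc (x0 e : E) : Continuous (rc x0 e) := by
  unfold rc sc
  fun_prop

theorem rc_nonneg (x0 e y : E) : 0 ≤ rc x0 e y := norm_nonneg _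

theorem rc_self (x0 e : E) : rc x0 e x0 = 0 := by simp [rc, sc]

theorem eq_of_rc {x0 e y : E} (h : rc x0 e y = 0) : x0 + sc x0 e y • e = y := by
  have h1 : y - x0 - sc x0 e y • e = 0 := norm_eq_zero.1 h
  rw [sub_sub, sub_eq_zero] at h1
  exact h1.symm

theorem rc_scale {x0 e y : E} (h : rc x0 e y = 0) (s : ℝ) (z : E) :
    rc x0 e (y + s • (z - y)) = |s| * rc x0 e z := by
  have h1 : y - x0 - sc x0 e y • e = 0 := norm_eq_zero.1 h
  have h2 : sc x0 e (y + s • (z - y)) = sc x0 e y + s * (sc x0 e z - sc x0 e y) := by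
    have h3 : y + s • (z - y) - x0 = (y - x0) + s • ((z - x0) - (y - x0)) := by module
    rw [sc, sc, sc, h3, inner_add_right, inner_smul_right, inner_sub_right (𝕜 := ℝ) e (z - x0)]
  have h4 : y + s • (z - y) - x0 - sc x0 e (y + s • (z - y)) • e =
      s • (z - x0 - sc x0 e z • e) + (1 - s) • (y - x0 - sc x0 e y • e) := by
    rw [h2]
    module
  rw [rc, h4, h1, smul_zero, add_zero, norm_smul, Real.norm_eq_abs, rc]

/-- two lines which agree near a common point are equal -/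
theorem line_eq {x e y e' : E} (h : rc x e y = 0)
    (hn : ∀ᶠ z in 𝓝 y, rc y e' z = 0 ↔ rc x e z = 0) (z : E) : rc y e' z = 0 ↔ rc x e z = 0 := by
  have h1 : Tendsto (fun s : ℝ => y + s • (z - y)) (𝓝[≠] 0) (𝓝 y) := by
    have h2 : Continuous fun s : ℝ => y + s • (z - y) := by fun_prop
    have h3 := h2.tendsto 0
    rw [zero_smul, add_zero] at h3
    exact h3.mono_left nhdsWithin_le_nhds
  obtain ⟨s, hs, hs0⟩ := ((h1.eventually hn).and self_mem_nhdsWithin).exists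
  have h4 : |s| ≠ 0 := abs_ne_zero.2 hs0
  rw [rc_scale h, rc_scale (rc_self y e'), mul_eq_zero, mul_eq_zero, or_iff_right h4,
    or_iff_right h4] at hs
  exact hs

theorem line_null (x0 e : E) : volume {y | rc x0 e y = 0} = 0 := by
  have h1 : (Submodule.span ℝ {e} : Submodule ℝ E) ≠ ⊤ := by
    intro h
    have h2 := finrank_span_le_card (R := ℝ) ({e} : Set E)
    rw [h] at h2
    simp at h2
  have h3 : AffineSubspace.mk' x0 (Submodule.span ℝ {e} : Submodule ℝ E) ≠ ⊤ := by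
    intro h
    apply h1
    rw [← AffineSubspace.direction_mk' x0 (Submodule.span ℝ {e} : Submodule ℝ E), h,
      AffineSubspace.direction_top]
  refine measure_mono_null (fun y hy => ?_) (Measure.addHaar_affineSubspace volume _ h3)
  rw [SetLike.mem_coe, AffineSubspace.mem_mk', vsub_eq_sub, Submodule.mem_span_singleton]
  refine ⟨sc x0 e y, ?_⟩
  rw [eq_sub_iff_add_eq, add_comm]
  exact eq_of_rc hy

/-- thin neighbourhoods of a line have small measure -/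
theorem thin {U : Set E} (hU : Bornology.IsBounded U) (x0 e : E) {k η : ℝ≥0∞} (hk : k ≠ ⊤)
    (hη : 0 < η) : ∃ δ : ℝ, 0 < δ ∧ k * (volume.restrict U) {y | rc x0 e y ≤ δ} ≤ η := by
  have hm : ∀ r : ℝ, MeasurableSet {y | rc x0 e y ≤ r} := fun r =>
    (isClosed_le (cont_rc x0 e) continuous_const).measurableSet
  have h1 := tendsto_measure_biInter_gt (μ := volume.restrict U) (a := (0 : ℝ))
    (s := fun r : ℝ => {y | rc x0 e y ≤ r}) (fun r _ => (hm r).nullMeasurableSet)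
    (fun i j _ hij y hy => le_trans hy hij)
    ⟨1, one_pos, ne_top_of_le_ne_top hU.measure_lt_top.ne (by
      rw [Measure.restrict_apply (hm 1)]
      exact measure_mono inter_subset_right)⟩
  have h2 : (volume.restrict U) (⋂ r > (0 : ℝ), {y | rc x0 e y ≤ r}) = 0 := by
    refine Measure.absolutelyContinuous_restrict ?_
    refine measure_mono_null (fun y hy => ?_) (line_null x0 e)
    refine le_antisymm (le_of_forall_pos_le_add fun r hr => ?_) (rc_nonneg x0 e y)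
    rw [zero_add]
    exact mem_iInter₂.1 hy r hr
  rw [h2] at h1
  have h3 := ENNReal.Tendsto.const_mul (a := k) h1 (Or.inr hk)
  rw [mul_zero] at h3
  obtain ⟨δ, h4, h5⟩ := ((h3.eventually (ge_mem_nhds hη)).and self_mem_nhdsWithin).exists
  exact ⟨δ, h5, h4⟩

/-- the conclusion of the edge model -/
def Model (G : E → E) (x0 e : E) (κ C : ℝ≥0) : Prop :=
  Function.Bijective G ∧ LipschitzWith C G ∧ ∀ ρ : ℝ → ℝ, LipschitzWith κ ρ → (∀ s, 0 ≤ ρ s) →
    ContDiffOn ℝ ∞ ρ {s | 0 < ρ s} →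
    ∃ H : E → E, Function.Bijective H ∧ LipschitzWith C H ∧
      (∀ y, ρ (sc x0 e y) ≤ rc x0 e y → H y = G y) ∧ (∀ y, 0 < ρ (sc x0 e y) → LD H y) ∧
      ∀ y, ‖H y - G y‖ ≤ C * ρ (sc x0 e y)

theorem tube_mono {x0 e : E} {ρ : ℝ → ℝ} : tube x0 e ρ 1 ⊆ tube x0 e ρ 4 := fun _ hy =>
  ⟨hy.1, hy.2.trans (mul_le_mul_of_nonneg_right (by norm_num) hy.1.le)⟩

section glue

variable {ι : Type} {U S : Set E} {cls : E → ι} {x0 e : ι → E} {κ : ι → ℝ≥0} {O : ι → Set E}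
  {ρ : ι → ℝ → ℝ}

theorem off_tubes (hT : Tubes U S cls x0 e κ O ρ) {y : E} (hy : y ∈ U)
    (h : ∀ i, y ∉ tube (x0 i) (e i) (ρ i) 1) : ∀ᶠ z in 𝓝 y, ∀ i, z ∉ tube (x0 i) (e i) (ρ i) 1 := by
  obtain ⟨V, hV, hfin⟩ := hT.fin y hy
  have h1 : ∀ i, ∀ᶠ z in 𝓝 y, z ∉ tube (x0 i) (e i) (ρ i) 1 := by
    intro i
    by_contra h2
    have h3 : y ∈ closure (tube (x0 i) (e i) (ρ i) 1) := by
      rw [mem_closure_iff_frequently]
      simpa only [not_eventually, not_not] using h2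
    refine h i ⟨hT.clos i y hy (closure_mono tube_mono h3), ?_⟩
    have h4 : IsClosed {z | rc (x0 i) (e i) z ≤ 1 * ρ i (sc (x0 i) (e i) z)} :=
      isClosed_le (cont_rc _ _)
        (continuous_const.mul ((hT.lip i).continuous.comp (cont_sc _ _)))
    exact h4.closure_subset_iff.2 (fun z hz => hz.2) h3
  filter_upwards [hV, (eventually_all_finite hfin).2 fun i _ => h1 i] with z hz h2 i h3
  exact h2 i ⟨z, hz, tube_mono h3⟩ h3

theorem mem_cls (hT : Tubes U S cls x0 e κ O ρ) {i : ι} {y : E}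
    (hy : y ∈ tube (x0 i) (e i) (ρ i) 1) : i ∈ cls '' S :=
  ⟨_, ((hT.pos i _).1 hy.1).1, ((hT.pos i _).1 hy.1).2⟩

theorem mem_tube (hL : Lines U S cls x0 e) (hT : Tubes U S cls x0 e κ O ρ) {y : E} (hy : y ∈ S) :
    y ∈ tube (x0 (cls y)) (e (cls y)) (ρ (cls y)) 1 := by
  have h1 : rc (x0 (cls y)) (e (cls y)) y = 0 := (hL.loc y hy).self_of_nhds.1.1 hy
  have h2 : 0 < ρ (cls y) (sc (x0 (cls y)) (e (cls y)) y) := by
    rw [hT.pos, eq_of_rc h1]
    exact ⟨hy, rfl⟩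
  refine ⟨h2, ?_⟩
  rw [h1, one_mul]
  exact h2.le

theorem glue (hT : StmtT) (hP : StmtPATCH) {p : ℝ} {h : E → E} {γ : E → ℝ} {ε : ℝ≥0∞}
    (hp : 1 ≤ p) (hL : Lines U S cls x0 e) (hU : Bornology.IsBounded U) (hinj : InjOn h U)
    (hld : ∀ x ∈ U \ S, LD h x) (G : ι → E → E) (hG : ∀ x ∈ S, h =ᶠ[𝓝 x] G (cls x))
    (hM : ∀ i ∈ cls '' S, ∃ κ C : ℝ≥0, 0 < κ ∧ Model (G i) (x0 i) (e i) κ C)
    (hγ : LipschitzWith 1 γ) (hγ0 : ∀ x ∈ U, 0 < γ x) (hε : 0 < ε) :
    ∃ h' : E → E, (∀ x, x ∉ U → h' x = h x) ∧ (∀ x ∈ U, LD h' x) ∧ BijOn h' U (h '' U) ∧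
      (∀ x ∈ U, ‖h' x - h x‖ ≤ γ x) ∧ DE p U h' h ≤ ε := by
  classical
  obtain ⟨hc, -, hT⟩ := hT ι U S cls x0 e hL hU
  have hM1 : ∀ i, ∃ κ C : ℝ≥0, 0 < κ ∧ (i ∈ cls '' S → Model (G i) (x0 i) (e i) κ C) := by
    intro i
    by_cases hi : i ∈ cls '' S
    · obtain ⟨κ, C, h1, h2⟩ := hM i hi
      exact ⟨κ, C, h1, fun _ => h2⟩
    · exact ⟨1, 1, one_pos, fun h1 => absurd h1 hi⟩
  choose κ C hκ hM2 using hM1
  have : Countable (cls '' S) := hc.to_subtype
  obtain ⟨η, hη0, hη⟩ := ENNReal.exists_pos_sum_of_countable' hε.ne' (cls '' S)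
  let k : ι → ℝ≥0∞ := fun i => ((C i + C i : ℝ≥0) : ℝ≥0∞) ^ p
  have hk : ∀ i, k i ≠ ⊤ := fun i =>
    ENNReal.rpow_ne_top_of_nonneg (zero_le_one.trans hp) ENNReal.coe_ne_top
  have hδ1 : ∀ i, ∃ δ : ℝ, 0 < δ ∧ ∀ hi : i ∈ cls '' S,
      k i * (volume.restrict U) {y | rc (x0 i) (e i) y ≤ δ} ≤ η ⟨i, hi⟩ := by
    intro i
    by_cases hi : i ∈ cls '' S
    · obtain ⟨δ, h1, h2⟩ := thin hU (x0 i) (e i) (hk i) (hη0 ⟨i, hi⟩)
      exact ⟨δ, h1, fun _ => h2⟩
    · exact ⟨1, one_pos, fun h1 => absurd h1 hi⟩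
  choose δ hδ0 hδ using hδ1
  have hC1 : ∀ i, (0 : ℝ) < C i + 1 := fun i => by positivity
  obtain ⟨ρ, hρ, hβ⟩ := hT κ (fun i => {y | h =ᶠ[𝓝 y] G i})
    (fun i y => min (δ i) (γ y / (C i + 1))) hκ (fun i => isOpen_setOfPred_eventually_nhds) hG
    (fun i => (continuous_const.min (hγ.continuous.div_const _)).continuousOn)
    (fun i x hx => lt_min (hδ0 i) (div_pos (hγ0 x hx) (hC1 i)))
  have hH1 : ∀ i, ∃ H : E → E, i ∈ cls '' S → Function.Bijective H ∧ LipschitzWith (C i) H ∧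
      (∀ y, ρ i (sc (x0 i) (e i) y) ≤ rc (x0 i) (e i) y → H y = G i y) ∧
      (∀ y, 0 < ρ i (sc (x0 i) (e i) y) → LD H y) ∧
      ∀ y, ‖H y - G i y‖ ≤ C i * ρ i (sc (x0 i) (e i) y) := by
    intro i
    by_cases hi : i ∈ cls '' S
    · obtain ⟨H, h1⟩ := (hM2 i hi).2.2 (ρ i) (hρ.lip i) (hρ.nonneg i) (hρ.smooth i)
      exact ⟨H, fun _ => h1⟩
    · exact ⟨id, fun h1 => absurd h1 hi⟩
  choose H hH using hH1
  let L : ι → Set E := fun i => tube (x0 i) (e i) (ρ i) 1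
  have hdisj : Pairwise fun i j => Disjoint (L i) (L j) := fun i j hij =>
    (hρ.disj hij).mono tube_mono tube_mono
  let h' : E → E := fun y => if hy : ∃ i, y ∈ L i then H hy.choose y else h y
  have hin : ∀ i, ∀ y ∈ L i, h' y = H i y := by
    intro i y hy
    have h1 : ∃ i, y ∈ L i := ⟨i, hy⟩
    have h2 : h1.choose = i := by
      by_contra h3
      exact disjoint_left.1 (hdisj h3) h1.choose_spec hy
    simp only [h', dif_pos h1, h2]
  have hout : ∀ y, (∀ i, y ∉ L i) → h' y = h y := fun y hy =>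
    dif_neg fun h1 => hy _ h1.choose_spec
  have hLU : ∀ i, L i ⊆ U := fun i y hy => (hρ.sub i (tube_mono hy)).2
  have hLG : ∀ i, ∀ y ∈ tube (x0 i) (e i) (ρ i) 4, h =ᶠ[𝓝 y] G i := fun i y hy =>
    (hρ.sub i hy).1
  have hHG : ∀ i ∈ cls '' S, ∀ y, y ∉ L i → H i y = G i y := by
    intro i hi y hy
    refine (hH i hi).2.2.1 y ?_
    by_contra h1
    have h2 := not_le.1 h1
    exact hy ⟨(rc_nonneg _ _ _).trans_lt h2, by rw [one_mul]; exact h2.le⟩
  have hnear : ∀ i, ∀ y ∈ L i, h' =ᶠ[𝓝 y] H i := by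
    intro i y hy
    have hc1 : Continuous fun z => ρ i (sc (x0 i) (e i) z) :=
      (hρ.lip i).continuous.comp (cont_sc _ _)
    have h1 : ∀ᶠ z in 𝓝 y, 0 < ρ i (sc (x0 i) (e i) z) :=
      (isOpen_lt continuous_const hc1).mem_nhds hy.1
    have h2 : ∀ᶠ z in 𝓝 y, rc (x0 i) (e i) z < 4 * ρ i (sc (x0 i) (e i) z) := by
      refine (isOpen_lt (cont_rc _ _) (continuous_const.mul hc1)).mem_nhds ?_
      have h3 := hy.1
      have h4 := hy.2
      change rc (x0 i) (e i) y < 4 * ρ i (sc (x0 i) (e i) y)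
      linarith
    filter_upwards [h1, h2] with z h3 h4
    by_cases h5 : z ∈ L i
    · exact hin i z h5
    · have h6 : z ∈ tube (x0 i) (e i) (ρ i) 4 := ⟨h3, h4.le⟩
      rw [hHG i (mem_cls hρ hy) z h5, ← (hLG i z h6).self_of_nhds]
      refine hout z fun j hj => ?_
      by_cases hij : i = j
      · exact h5 (hij ▸ hj)
      · exact disjoint_left.1 (hρ.disj hij) h6 (tube_mono hj)
  have hfar : ∀ y ∈ U, (∀ i, y ∉ L i) → h' =ᶠ[𝓝 y] h := fun y hy h1 =>
    (off_tubes hρ hy h1).mono hout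
  have hρβ : ∀ i, ∀ y ∈ L i, rc (x0 i) (e i) y ≤ δ i ∧ C i * ρ i (sc (x0 i) (e i) y) ≤ γ y := by
    intro i y hy
    have h1 := hβ i _ hy.1
    have h2 := hy.2
    rw [one_mul] at h2
    refine ⟨h2.trans (h1.trans (min_le_left _ _)), ?_⟩
    have h3 := (le_div_iff₀ (hC1 i)).1 (h1.trans (min_le_right _ _))
    have h4 := hγ.dist_le_mul y (x0 i + sc (x0 i) (e i) y • e i)
    rw [Real.dist_eq, dist_eq_norm, ← sub_sub, NNReal.coe_one, one_mul] at h4
    have h5 : γ (x0 i + sc (x0 i) (e i) y • e i) - γ y ≤ rc (x0 i) (e i) y :=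
      le_trans (by rw [abs_sub_comm]; exact le_abs_self _) h4
    linarith
  refine ⟨h', fun x hx => hout x fun i hi => hx (hLU i hi), fun x hx => ?_, ?_, fun x hx => ?_, ?_⟩
  · by_cases h1 : ∃ i, x ∈ L i
    · obtain ⟨i, hi⟩ := h1
      exact ((hH i (mem_cls hρ hi)).2.2.2.1 x hi.1).congr (hnear i x hi)
    · have h2 : ∀ i, x ∉ L i := not_exists.1 h1
      exact (hld x ⟨hx, fun h3 => h2 _ (mem_tube hL hρ h3)⟩).congr (hfar x hx h2)
  · refine hP ι U L G H h h' hdisj hLU (fun i hi => ?_) (fun i x hx => ?_) hout hinj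
    · obtain ⟨y, hy⟩ := hi
      have h1 := mem_cls hρ hy
      exact ⟨(hM2 i h1).1, (hH i h1).1, hHG i h1⟩
    · exact ⟨(hLG i x (tube_mono hx)).self_of_nhds, hin i x hx⟩
  · by_cases h1 : ∃ i, x ∈ L i
    · obtain ⟨i, hi⟩ := h1
      rw [hin i x hi, (hLG i x (tube_mono hi)).self_of_nhds]
      exact ((hH i (mem_cls hρ hi)).2.2.2.2 x).trans (hρβ i x hi).2
    · rw [hout x (not_exists.1 h1), sub_self, norm_zero]
      exact (hγ0 x hx).le
  · have hm : ∀ i, MeasurableSet {y | rc (x0 i) (e i) y ≤ δ i} := fun i =>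
      (isClosed_le (cont_rc _ _) continuous_const).measurableSet
    have h1 : ∀ x ∈ U, ‖fderiv ℝ h' x - fderiv ℝ h x‖ₑ ^ p ≤
        ∑' i : cls '' S, {y | rc (x0 i) (e i) y ≤ δ i}.indicator (fun _ => k i) x := by
      intro x hx
      by_cases h1 : ∃ i, x ∈ L i
      · obtain ⟨i, hi⟩ := h1
        have h2 := mem_cls hρ hi
        refine le_trans ?_ (ENNReal.le_tsum (⟨i, h2⟩ : cls '' S))
        have h3 : x ∈ {y | rc (x0 i) (e i) y ≤ δ i} := (hρβ i x hi).1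
        rw [indicator_of_mem h3, (hnear i x hi).fderiv_eq,
          (hLG i x (tube_mono hi)).fderiv_eq]
        refine ENNReal.rpow_le_rpow ?_ (zero_le_one.trans hp)
        rw [enorm_eq_nnnorm, ENNReal.coe_le_coe, ← NNReal.coe_le_coe, coe_nnnorm, NNReal.coe_add]
        exact (norm_sub_le _ _).trans (add_le_add (norm_fderiv_le_of_lipschitz ℝ (hH i h2).2.1)
          (norm_fderiv_le_of_lipschitz ℝ (hM2 i h2).2.1))
      · rw [(hfar x hx (not_exists.1 h1)).fderiv_eq, sub_self, enorm_eq_nnnorm, nnnorm_zero,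
          ENNReal.coe_zero, ENNReal.zero_rpow_of_pos (one_pos.trans_le hp)]
        exact zero_le
    refine (setLIntegral_mono' hL.opn.measurableSet h1).trans ?_
    rw [lintegral_tsum fun i : cls '' S => (measurable_const.indicator (hm i)).aemeasurable]
    refine le_trans (ENNReal.tsum_le_tsum fun i => ?_) hη.le
    rw [lintegral_indicator_const (hm i)]
    exact hδ i i.2

end glue

/-- the tangent cone map is a local diffeomorphism off the line -/
theorem ld_tan {h G : E → E} {U S : Set E} {x e : E} (hU : U ∈ 𝓝 x) (hG : IsTan h x G)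
    (hS : ∀ᶠ y in 𝓝 x, y ∈ S ↔ rc x e y = 0) (hld : ∀ y ∈ U \ S, LD h y) {y : E}
    (hy : rc x e y ≠ 0) : LD G y := by
  have h1 : Tendsto (fun s : ℝ => x + s • (y - x)) (𝓝[>] 0) (𝓝 x) := by
    have h2 : Continuous fun s : ℝ => x + s • (y - x) := by fun_prop
    have h3 := h2.tendsto 0
    rw [zero_smul, add_zero] at h3
    exact h3.mono_left nhdsWithin_le_nhds
  obtain ⟨t, ⟨⟨h2, h3⟩, h4⟩, ht⟩ := ((h1.eventually ((hG.1.eventually_nhds.and hS).and hU)).and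
    self_mem_nhdsWithin).exists
  have ht0 : (0 : ℝ) < t := ht
  have h5 : LD G (x + t • (y - x)) := by
    refine (hld _ ⟨h4, fun h6 => ?_⟩).congr h2
    have h7 := h3.1 h6
    rw [rc_scale (rc_self x e)] at h7
    exact mul_ne_zero (abs_ne_zero.2 ht0.ne') hy h7
  have hs : ∀ s : ℝ, s ≠ 0 → Function.Injective (s • ContinuousLinearMap.id ℝ E) :=
    fun s hs a b hab => smul_right_injective E hs hab
  have h6 : LD (fun z => x + t • (z - x)) y := LD.affine _ (hs t ht0.ne') x x y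
  have h7 : LD (fun u => G x + t⁻¹ • (u - G x)) (G (x + t • (y - x))) :=
    LD.affine _ (hs t⁻¹ (inv_ne_zero ht0.ne')) (G x) (G x) _
  refine (LD.comp (F := fun z => G (x + t • (z - x))) h7
    (LD.comp (F := fun z => x + t • (z - x)) h5 h6)).congr (Eventually.of_forall fun z => ?_)
  change G z = G x + t⁻¹ • (G (x + t • (z - x)) - G x)
  rw [hG.2 z t ht0.le, add_sub_cancel_left, smul_smul, inv_mul_cancel₀ ht0.ne', one_smul,
    add_sub_cancel]

end EDGE

open EDGE in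
theorem blockEDGE (hST : StmtST) (hT : StmtT) (hEM : StmtEM) (hP : StmtPATCH) : StmtEDGE := by
  classical
  intro p h U Λ S γ ε hp hU hUb hh hSU hS hld hE hγ hγ0 hε
  have hE1 : ∀ x, ∃ e c : E, ‖e‖ = 1 ∧ (x ∈ S → ConeAt h x ∧
      (∀ᶠ y in 𝓝 x, y ∈ S ↔ rc x e y = 0) ∧
      (∀ᶠ q : E × ℝ in 𝓝 (x, (0 : ℝ)), h (q.1 + q.2 • e) = h q.1 + q.2 • c) ∧
      ∀ V ∈ 𝓝 x, ∃ W : Set E, IsOpen W ∧ W.Nonempty ∧ W ⊆ V ∧
        ∃ (A : E →L[ℝ] E) (b : E), ∀ y ∈ W, h y = b + A y) := by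
    intro x
    by_cases hx : x ∈ S
    · obtain ⟨e, c, h1, h2⟩ := hE x hx
      exact ⟨e, c, h1, fun _ => h2⟩
    · exact ⟨EuclideanSpace.single 0 1, 0, by simp, fun h1 => absurd h1 hx⟩
  choose e c he hE2 using hE1
  let cls : E → Lab := fun x => (tanM h x, {y | rc x (e x) y = 0})
  let x0 : Lab → E := fun i => if hi : i ∈ cls '' S then hi.choose else 0
  have hx0 : ∀ i ∈ cls '' S, x0 i ∈ S ∧ cls (x0 i) = i := by
    intro i hi
    simp only [x0, dif_pos hi]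
    exact hi.choose_spec
  have hL : Lines U S cls x0 fun i => e (x0 i) := by
    refine ⟨hU, hSU, hS, fun i => he _, fun x hx => ?_⟩
    obtain ⟨h1, h2, h3, -⟩ := hE2 x hx
    have h4 : {y | rc (x0 (cls x)) (e (x0 (cls x))) y = 0} = {y | rc x (e x) y = 0} :=
      congrArg Prod.snd (hx0 (cls x) ⟨x, hx, rfl⟩).2
    have h5 : Tendsto (sc x (e x)) (𝓝 x) (𝓝 0) := by
      have h6 := (cont_sc x (e x)).tendsto x
      rwa [show sc x (e x) x = 0 by simp [sc]] at h6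
    filter_upwards [h2.eventually_nhds, h5.eventually (hST.transl h x (e x) (c x) h1 h3).2]
      with y h6 h7
    refine ⟨h6.self_of_nhds.trans (Set.ext_iff.1 h4 y).symm, fun hy => ?_⟩
    have h8 := h6.self_of_nhds.1 hy
    rw [eq_of_rc h8] at h7
    refine Prod.ext h7.2 (Set.ext fun z => line_eq h8 ?_ z)
    filter_upwards [h6, (hE2 y hy).2.1] with w h9 h10
    exact h10.symm.trans h9
  refine glue hT hP hp hL hUb hh.bij.injOn hld Prod.fst
    (fun x hx => ((hST.isTan h x (hE2 x hx).1).1.mono fun y hy => hy.symm)) (fun i hi => ?_)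
    hγ hγ0 hε
  obtain ⟨hx, hi2⟩ := hx0 i hi
  have hi3 : i.1 = tanM h (x0 i) := (congrArg Prod.fst hi2).symm
  rw [hi3]
  generalize x0 i = x at hx
  obtain ⟨h1, h2, h3, h4⟩ := hE2 x hx
  have hxU : U ∈ 𝓝 x := hU.mem_nhds (hSU hx)
  have htan := hST.isTan h x h1
  have hbij : Function.Bijective (tanM h x) := by
    refine ⟨hST.inj h x U h1 hxU hh.bij.injOn, hST.surj h x h1 fun V hV => ?_⟩
    obtain ⟨V', h5, h6, h7⟩ := _root_.mem_nhds_iff.1 (inter_mem hV hxU)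
    exact mem_of_superset ((hh.opn V' h6 fun y hy => (h5 hy).2).mem_nhds ⟨x, h7, rfl⟩)
      (image_mono fun y hy => (h5 hy).1)
  obtain ⟨W, hW, hWn, hWV, A, b, hA⟩ := h4 _ htan.1
  obtain ⟨κ, C, h5, h6, h7⟩ := hEM (tanM h x) x (e x) (c x) W A b (he x) htan.2
    (hST.transl h x (e x) (c x) h1 h3).1 hbij (fun y hy => ld_tan hxU htan h2 hld hy) hW hWn
    fun y hy => (hWV hy).trans (hA y hy)
  exact ⟨κ, C, h5, hbij, h6, h7⟩

end Vale.Agent.P073Z.Sm
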