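import Vale.Agent.P073Z.Sm.Sk

/-!
# P073, smoothing half: block MIN
-/

open Set Metric MeasureTheory Topology Filter Function
open scoped ContDiff ENNReal NNReal

noncomputable section

namespace Vale.Agent.P073Z.Sm

namespace MIN

variable {X : Type} [NormedAddCommGroup X] [NormedSpace ℝ X] [FiniteDimensional ℝ X]

theorem exists_seq {V : Set X} (hV : IsOpen V) :
    ∃ g : ℕ → X → ℝ, (∀ n, tsupport (g n) ⊆ V ∧ HasCompactSupport (g n) ∧ ContDiff ℝ ∞ (g n) ∧
      range (g n) ⊆ Icc 0 1) ∧ ∀ x ∈ V, ∃ n, g n x ≠ 0 := by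
  let S : Set (X → ℝ) :=
    {f | tsupport f ⊆ V ∧ HasCompactSupport f ∧ ContDiff ℝ ∞ f ∧ range f ⊆ Icc 0 1}
  have h0 : (fun _ => 0 : X → ℝ) ∈ S := by
    refine ⟨?_, HasCompactSupport.zero, contDiff_const, ?_⟩
    · rw [tsupport_fun_zero]
      exact empty_subset _
    · rintro _ ⟨x, rfl⟩
      exact ⟨le_rfl, zero_le_one⟩
  obtain ⟨T, hTc, hT⟩ := TopologicalSpace.isOpen_iUnion_countable (fun f : S => support (f : X → ℝ))
    fun f => f.2.2.2.1.continuous.isOpen_support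
  obtain ⟨g, hg⟩ := (hTc.insert ⟨_, h0⟩).exists_eq_range (insert_nonempty _ _)
  refine ⟨fun n => (g n).1, fun n => (g n).2, fun x hx => ?_⟩
  obtain ⟨f, hf⟩ := exists_contDiff_tsupport_subset (n := ⊤) (hV.mem_nhds hx)
  have h1 : x ∈ ⋃ f : S, support (f : X → ℝ) :=
    mem_iUnion.mpr ⟨⟨f, hf.1, hf.2.1, hf.2.2.1, hf.2.2.2.1⟩,
      fun h => one_ne_zero (hf.2.2.2.2.symm.trans h)⟩
  rw [← hT] at h1
  obtain ⟨i, hi, hxi⟩ := mem_iUnion₂.mp h1
  have h2 : i ∈ range g := hg ▸ mem_insert_of_mem _ hi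
  obtain ⟨n, rfl⟩ := h2
  exact ⟨n, hxi⟩

omit [FiniteDimensional ℝ X] in
theorem exists_scale {g : X → ℝ} (hc : HasCompactSupport g) (hg : ContDiff ℝ ∞ g) (n : ℕ)
    {a b : ℝ} (ha : 0 < a) (hb : 0 < b) :
    ∃ r : ℝ, 0 < r ∧ r ≤ a ∧ ∀ i ≤ n, ∀ x, ‖iteratedFDeriv ℝ i (r • g) x‖ ≤ b := by
  have h1 : ∀ i, ∃ R, ∀ x, ‖iteratedFDeriv ℝ i g x‖ ≤ R := fun i =>
    (hc.iteratedFDeriv i).exists_bound_of_continuous
      (hg.continuous_iteratedFDeriv (by exact_mod_cast le_top))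
  choose R hR using h1
  obtain ⟨M, hM⟩ := (finite_Iic n).image R |>.bddAbove
  have hM1 : 0 < max M 1 := lt_of_lt_of_le one_pos (le_max_right _ _)
  refine ⟨min a (b / max M 1), lt_min ha (div_pos hb hM1), min_le_left _ _, fun i hi x => ?_⟩
  have hr : 0 < min a (b / max M 1) := lt_min ha (div_pos hb hM1)
  rw [iteratedFDeriv_const_smul_apply (hg.contDiffAt.of_le (by exact_mod_cast le_top)),
    norm_smul, Real.norm_of_nonneg hr.le]
  have h2 : ‖iteratedFDeriv ℝ i g x‖ ≤ max M 1 :=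
    ((hR i x).trans (hM (mem_image_of_mem R hi))).trans (le_max_left _ _)
  calc min a (b / max M 1) * ‖iteratedFDeriv ℝ i g x‖ ≤ b / max M 1 * max M 1 :=
        mul_le_mul (min_le_right _ _) h2 (norm_nonneg _) (div_pos hb hM1).le
    _ = b := div_mul_cancel₀ b hM1.ne'

end MIN

theorem blockMIN : StmtMIN := by
  intro X _ _ _ V γ κ hV hκ hγ
  obtain ⟨g, hg, hgV⟩ := MIN.exists_seq hV
  have hκ' : (0 : ℝ) < κ := hκ
  choose c hc0 hc using fun n => hγ (tsupport (g n)) (hg n).2.1 (hg n).1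
  have hu : ∀ (a : ℝ) (n : ℕ), 0 < a → 0 < a / 2 / 2 ^ n := fun a n ha => by positivity
  choose r hr0 hr1 hr2 using fun n => MIN.exists_scale (hg n).2.1 (hg n).2.2.1 (n + 1)
    (hu (c n) n (hc0 n)) (hu κ n hκ')
  have g0 : ∀ n x, 0 ≤ g n x := fun n x => ((hg n).2.2.2 (mem_range_self x)).1
  have g1 : ∀ n x, g n x ≤ 1 := fun n x => ((hg n).2.2.2 (mem_range_self x)).2
  have hs : ∀ n, ContDiff ℝ ∞ (r n • g n) := fun n => (hg n).2.2.1.const_smul (r n)
  have hS : ∀ x, Summable fun n => (r n • g n) x := fun x => by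
    refine .of_norm_bounded (hasSum_geometric_two' (κ : ℝ)).summable fun n => ?_
    have h := hr2 n 0 (Nat.zero_le _) x
    rwa [norm_iteratedFDeriv_zero] at h
  have hnn : ∀ n x, 0 ≤ (r n • g n) x := fun n x => mul_nonneg (hr0 n).le (g0 n x)
  refine ⟨fun x => ∑' n, (r n • g n) x, ?_, ?_, fun x => tsum_nonneg fun n => hnn n x,
    fun x => ⟨fun hx => ?_, fun hx => ?_⟩, fun x hx => ?_⟩
  · refine contDiff_tsum_of_eventually hs
      (fun _ _ => (hasSum_geometric_two' (κ : ℝ)).summable) fun i _ => ?_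
    rw [Nat.cofinite_eq_atTop, eventually_atTop]
    exact ⟨i, fun n hn x => hr2 n i (hn.trans (Nat.le_succ n)) x⟩
  · refine LipschitzWith.of_dist_le_mul fun x y => ?_
    rw [dist_eq_norm, ← (hS x).tsum_sub (hS y)]
    refine tsum_of_norm_bounded ((hasSum_geometric_two' (κ : ℝ)).mul_right (dist x y)) fun n => ?_
    rw [dist_eq_norm]
    refine convex_univ.norm_image_sub_le_of_norm_fderiv_le (𝕜 := ℝ)
      (fun z _ => (hs n).differentiable (by simp) z) (fun z _ => ?_) (mem_univ y) (mem_univ x)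
    rw [← norm_iteratedFDeriv_one]
    exact hr2 n 1 (Nat.le_add_left 1 n) z
  · by_contra hxV
    have h1 : ∀ n, (r n • g n) x = 0 := fun n => by
      have h2 : g n x = 0 := image_eq_zero_of_notMem_tsupport fun h => hxV ((hg n).1 h)
      rw [Pi.smul_apply, h2, smul_zero]
    simp only [h1, tsum_zero] at hx
    exact lt_irrefl _ hx
  · obtain ⟨n, hn⟩ := hgV x hx
    exact (hS x).tsum_pos (fun i => hnn i x) n (mul_pos (hr0 n) (lt_of_le_of_ne (g0 n x) hn.symm))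
  · obtain ⟨c', hc', hx'⟩ := hγ {x} isCompact_singleton (singleton_subset_iff.mpr hx)
    have hγ0 : 0 < γ x := hc'.trans_le (hx' x rfl)
    rw [← (hasSum_geometric_two' (γ x)).tsum_eq]
    refine (hS x).tsum_le_tsum (fun n => ?_) (hasSum_geometric_two' (γ x)).summable
    by_cases h : x ∈ tsupport (g n)
    · calc (r n • g n) x = r n * g n x := rfl
        _ ≤ r n * 1 := mul_le_mul_of_nonneg_left (g1 n x) (hr0 n).le
        _ ≤ c n / 2 / 2 ^ n := by rw [mul_one]; exact hr1 n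
        _ ≤ γ x / 2 / 2 ^ n := by gcongr; exact hc n x h
    · rw [Pi.smul_apply, image_eq_zero_of_notMem_tsupport h, smul_zero]
      exact (hu _ n hγ0).le

end Vale.Agent.P073Z.Sm
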