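import Vale.Agent.P073Z.Sm.Sk

/-!
# P073, smoothing half: block PATCH
-/

open Set Metric MeasureTheory Topology Filter
open scoped ContDiff ENNReal NNReal RealInnerProductSpace

noncomputable section

namespace Vale.Agent.P073Z.Sm

namespace PATCH

theorem img {G H : E → E} {L : Set E} (hG : Function.Surjective G) (hH : Function.Injective H)
    (he : ∀ x, x ∉ L → H x = G x) {x : E} (hx : x ∈ L) : ∃ y ∈ L, G y = H x := by
  obtain ⟨y, hy⟩ := hG (H x)
  refine ⟨y, ?_, hy⟩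
  by_contra hyL
  rw [← he y hyL] at hy
  exact hyL (hH hy ▸ hx)

end PATCH

theorem blockPATCH : StmtPATCH := by
  intro ι U L G H g h hd hL hb he ho hg
  have key : ∀ x ∈ U, ∃ y ∈ U, g y = h x ∧ (∀ i, x ∈ L i → y ∈ L i) ∧
      ((∀ i, x ∉ L i) → y = x) := by
    intro x hx
    by_cases h1 : ∃ i, x ∈ L i
    · obtain ⟨i, hi⟩ := h1
      obtain ⟨h2, h3, h4⟩ := hb i ⟨x, hi⟩
      obtain ⟨y, hy, h5⟩ := PATCH.img h2.2 h3.1 h4 hi
      refine ⟨y, hL i hy, by rw [(he i y hy).1, (he i x hi).2, h5], fun j hj => ?_,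
        fun h6 => absurd hi (h6 i)⟩
      by_cases hij : i = j
      · exact hij ▸ hy
      · exact absurd hj (Set.disjoint_left.mp (hd hij) hi)
    · push Not at h1
      exact ⟨x, hx, (ho x h1).symm, fun _ h2 => h2, fun _ => rfl⟩
  refine ⟨fun x hx => ?_, fun x hx x' hx' hxx => ?_, ?_⟩
  · obtain ⟨y, hy, h1, -⟩ := key x hx
    exact ⟨y, hy, h1⟩
  · obtain ⟨y, hy, h1, h2, h3⟩ := key x hx
    obtain ⟨y', hy', h1', h2', h3'⟩ := key x' hx'
    have h4 : y = y' := hg hy hy' (by rw [h1, h1', hxx])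
    subst h4
    by_cases h5 : ∃ i, x ∈ L i
    · obtain ⟨i, hi⟩ := h5
      by_cases h6 : ∃ j, x' ∈ L j
      · obtain ⟨j, hj⟩ := h6
        have hij : i = j := by
          by_contra hij
          exact Set.disjoint_left.mp (hd hij) (h2 i hi) (h2' j hj)
        subst hij
        rw [(he i x hi).2, (he i x' hj).2] at hxx
        exact (hb i ⟨x, hi⟩).2.1.1 hxx
      · push Not at h6
        exact absurd (h3' h6 ▸ h2 i hi) (h6 i)
    · push Not at h5
      by_cases h6 : ∃ j, x' ∈ L j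
      · obtain ⟨j, hj⟩ := h6
        exact absurd (h3 h5 ▸ h2' j hj) (h5 j)
      · push Not at h6
        exact (h3 h5).symm.trans (h3' h6)
  · rintro _ ⟨y, hy, rfl⟩
    by_cases h1 : ∃ i, y ∈ L i
    · obtain ⟨i, hi⟩ := h1
      obtain ⟨h2, h3, h4⟩ := hb i ⟨y, hi⟩
      obtain ⟨x, hx, h5⟩ := PATCH.img h3.2 h2.1 (fun x hx => (h4 x hx).symm) hi
      exact ⟨x, hL i hx, by rw [(he i y hi).1, (he i x hx).2, h5]⟩
    · push Not at h1
      exact ⟨y, hy, ho y h1⟩

end Vale.Agent.P073Z.Sm
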