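import Vale.Agent.P073Z.Sm.Sk

/-!
# P073, smoothing half: block T, thin tubes around lines
-/

open Set Metric MeasureTheory Topology Filter
open scoped ContDiff ENNReal NNReal RealInnerProductSpace

noncomputable section

namespace Vale.Agent.P073Z.Sm

namespace T

/-- the foot of `y` on the line -/
def ft (x0 e y : E) : E := x0 + sc x0 e y • e

theorem dist_ft (x0 e y : E) : dist y (ft x0 e y) = rc x0 e y := by
  rw [dist_eq_norm, ft, rc, sub_add_eq_sub_sub]

theorem sc_ax {e : E} (he : ‖e‖ = 1) (x0 : E) (s : ℝ) : sc x0 e (x0 + s • e) = s := by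
  rw [sc, add_sub_cancel_left, real_inner_smul_right, real_inner_self_eq_norm_sq, he]
  ring

theorem rc_ax {e : E} (he : ‖e‖ = 1) (x0 : E) (s : ℝ) : rc x0 e (x0 + s • e) = 0 := by
  rw [rc, sc_ax he, add_sub_cancel_left, sub_self, norm_zero]

theorem ft_eq {x0 e y : E} (h : rc x0 e y = 0) : ft x0 e y = y := by
  rw [← dist_ft, dist_eq_zero] at h
  exact h.symm

theorem continuous_sc (x0 e : E) : Continuous (sc x0 e) :=
  continuous_const.inner (continuous_id.sub continuous_const)

theorem continuous_ft (x0 e : E) : Continuous (ft x0 e) :=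
  continuous_const.add ((continuous_sc x0 e).smul continuous_const)

theorem continuous_rc (x0 e : E) : Continuous (rc x0 e) :=
  ((continuous_id.sub continuous_const).sub ((continuous_sc x0 e).smul continuous_const)).norm

theorem null_line (x0 : E) {e : E} (he : ‖e‖ = 1) : volume {y | rc x0 e y = 0} = 0 := by
  have h0 : e ≠ 0 := by
    rintro rfl
    rw [norm_zero] at he
    exact zero_ne_one he
  have h1 : (Submodule.span ℝ {e} : Submodule ℝ E) ≠ ⊤ := by
    intro h
    have h2 := finrank_span_singleton (K := ℝ) h0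
    rw [h, finrank_top, finrank_euclideanSpace_fin] at h2
    omega
  have h2 : volume ((fun y => y + -x0) ⁻¹' (Submodule.span ℝ {e} : Submodule ℝ E)) = 0 := by
    rw [measure_preimage_add_right]
    exact Measure.addHaar_submodule _ _ h1
  refine measure_mono_null (fun y hy => ?_) h2
  have h3 : y - x0 - sc x0 e y • e = 0 := norm_eq_zero.1 hy
  exact Submodule.mem_span_singleton.2
    ⟨sc x0 e y, (sub_eq_zero.1 h3).symm.trans (sub_eq_add_neg _ _)⟩

variable {ι : Type} {U S : Set E} {cls : E → ι} {x0 e : ι → E}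

theorem rc_cls (h : Lines U S cls x0 e) {x : E} (hx : x ∈ S) :
    rc (x0 (cls x)) (e (cls x)) x = 0 := (h.loc x hx).self_of_nhds.1.1 hx

theorem countable_cls (h : Lines U S cls x0 e) : (cls '' S).Countable := by
  obtain ⟨t, -, ht, hS⟩ := TopologicalSpace.countable_cover_nhdsWithin
    (f := fun x => {y | y ∈ S → cls y = cls x}) (s := S)
    fun x hx => mem_nhdsWithin_of_mem_nhds ((h.loc x hx).mono fun y hy => hy.2)
  refine (ht.image cls).mono ?_
  rintro _ ⟨y, hy, rfl⟩
  obtain ⟨x, hx, hyx⟩ := mem_iUnion₂.1 (hS hy)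
  exact ⟨x, hx, (hyx hy).symm⟩

theorem null_S (h : Lines U S cls x0 e) : volume S = 0 := by
  have h1 : S ⊆ ⋃ i ∈ cls '' S, {y | rc (x0 i) (e i) y = 0} := fun x hx =>
    mem_iUnion₂.2 ⟨cls x, ⟨x, hx, rfl⟩, rc_cls h hx⟩
  refine measure_mono_null h1 ?_
  rw [measure_biUnion_null_iff (countable_cls h)]
  exact fun i _ => null_line _ (h.unit i)

theorem open_V (h : Lines U S cls x0 e) (i : ι) :
    IsOpen {s : ℝ | x0 i + s • e i ∈ S ∧ cls (x0 i + s • e i) = i} := by
  refine isOpen_iff_mem_nhds.2 fun s hs => ?_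
  have hc : Continuous fun s : ℝ => x0 i + s • e i :=
    continuous_const.add (continuous_id.smul continuous_const)
  filter_upwards [hc.continuousAt.eventually (h.loc _ hs.1)] with s' hs'
  rw [hs.2] at hs'
  have h1 := hs'.1.2 (rc_ax (h.unit i) _ _)
  exact ⟨h1, hs'.2 h1⟩

/-- the set which the tube number `i` has to avoid -/
def ZZ (U S : Set E) (cls : E → ι) (O : ι → Set E) (i : ι) : Set E :=
  {y | y ∈ S ∧ cls y ≠ i} ∪ (O i ∩ U)ᶜ

theorem infDist_pos (h : Lines U S cls x0 e) (hU : Bornology.IsBounded U) {O : ι → Set E}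
    (hO : ∀ i, IsOpen (O i)) (hSO : ∀ x ∈ S, x ∈ O (cls x)) {x : E} (hx : x ∈ S) :
    0 < infDist x (ZZ U S cls O (cls x)) := by
  have hne : (ZZ U S cls O (cls x)).Nonempty := by
    by_contra hn
    refine NormedSpace.unbounded_univ ℝ E (hU.subset fun y _ => ?_)
    by_contra hy
    exact hn ⟨y, Or.inr fun h2 => hy h2.2⟩
  rw [← infDist_pos_iff_notMem_closure hne, mem_closure_iff_frequently, not_frequently]
  filter_upwards [h.loc x hx, ((hO (cls x)).inter h.opn).mem_nhds ⟨hSO x hx, h.sub hx⟩]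
    with y h1 h2
  rintro (h3 | h3)
  · exact h3.2 (h1.2 h3.1)
  · exact h3 h2

end T

open T in
theorem blockT (hMIN : StmtMIN) : StmtT := by
  intro ι U S cls x0 e h hU
  refine ⟨countable_cls h, null_S h, fun κ O β hκ hO hSO hβ hβ0 => ?_⟩
  obtain ⟨idx, hidx⟩ := countable_iff_exists_injOn.1 (countable_cls h)
  have hex : ∀ i, ∃ ρ : ℝ → ℝ, ContDiff ℝ ∞ ρ ∧ LipschitzWith (κ i) ρ ∧ (∀ s, 0 ≤ ρ s) ∧
      (∀ s, 0 < ρ s ↔ s ∈ {s : ℝ | x0 i + s • e i ∈ S ∧ cls (x0 i + s • e i) = i}) ∧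
      ∀ s ∈ {s : ℝ | x0 i + s • e i ∈ S ∧ cls (x0 i + s • e i) = i},
        ρ s ≤ min (1 / ((idx i : ℝ) + 1))
          (min (β i (x0 i + s • e i)) (infDist (x0 i + s • e i) (ZZ U S cls O i) / 12)) := by
    intro i
    refine hMIN ℝ _ _ (κ i) (open_V h i) (hκ i) fun K hK hKV => ?_
    have hc : Continuous fun s : ℝ => x0 i + s • e i :=
      continuous_const.add (continuous_id.smul continuous_const)
    have h1 : ContinuousOn (fun s : ℝ => min (1 / ((idx i : ℝ) + 1))
        (min (β i (x0 i + s • e i)) (infDist (x0 i + s • e i) (ZZ U S cls O i) / 12))) K :=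
      ContinuousOn.inf continuousOn_const (ContinuousOn.inf
        ((hβ i).comp hc.continuousOn fun s hs => h.sub (hKV hs).1)
        (((continuous_infDist_pt _).comp hc).div_const _).continuousOn)
    rcases K.eq_empty_or_nonempty with rfl | hne
    · exact ⟨1, one_pos, fun s hs => absurd hs (notMem_empty s)⟩
    obtain ⟨s₀, hs₀, hmin⟩ := hK.exists_isMinOn hne h1
    refine ⟨_, ?_, fun s hs => hmin hs⟩
    have h2 := infDist_pos h hU hO hSO (hKV hs₀).1
    rw [(hKV hs₀).2] at h2
    exact lt_min Nat.one_div_pos_of_nat (lt_min (hβ0 i _ (h.sub (hKV hs₀).1)) (by positivity))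
  choose ρ hsm hlip hnn hpos hle using hex
  -- the basic estimates for a point of a tube
  have key : ∀ i, ∀ y ∈ tube (x0 i) (e i) (ρ i) 4, ft (x0 i) (e i) y ∈ S ∧
      cls (ft (x0 i) (e i) y) = i ∧ dist y (ft (x0 i) (e i) y) ≤ 4 * (1 / ((idx i : ℝ) + 1)) ∧
      ∀ z ∈ ZZ U S cls O i, dist y (ft (x0 i) (e i) y) ≤ dist (ft (x0 i) (e i) y) z / 3 := by
    intro i y hy
    have h1 := (hpos i _).1 hy.1
    have h2 := hle i _ h1
    have h3 : dist y (ft (x0 i) (e i) y) ≤ 4 * ρ i (sc (x0 i) (e i) y) := by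
      rw [dist_ft]
      exact hy.2
    have h4 := h2.trans (min_le_left _ _)
    have h5 := (h2.trans (min_le_right _ _)).trans (min_le_right _ _)
    refine ⟨h1.1, h1.2, by linarith, fun z hz => ?_⟩
    have h6 : infDist (x0 i + sc (x0 i) (e i) y • e i) (ZZ U S cls O i) ≤
      dist (ft (x0 i) (e i) y) z := infDist_le_dist_of_mem hz
    linarith
  have hZ : ∀ i, ∀ y ∈ tube (x0 i) (e i) (ρ i) 4, y ∉ ZZ U S cls O i := by
    intro i y hy hz
    obtain ⟨h1, h2, -, h3⟩ := key i y hy
    have h4 := h3 y hz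
    have h5 := infDist_pos h hU hO hSO h1
    rw [h2] at h5
    have h6 := infDist_le_dist_of_mem (x := ft (x0 i) (e i) y) hz
    rw [dist_comm] at h4
    linarith
  refine ⟨ρ, ⟨hlip, hnn, fun i s => ?_, fun i => (hsm i).contDiffOn, hpos, fun i y hy => ?_,
    fun i j hij => ?_, fun i y hy hyS => ?_, fun y hy => ?_, fun i y hyU hy => ?_⟩,
    fun i s hs => ((hle i s ((hpos i s).1 hs)).trans (min_le_right _ _)).trans (min_le_left _ _)⟩
  · rcases (hnn i s).eq_or_lt with h1 | h1
    · rw [← h1]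
      exact zero_le_one
    · refine ((hle i s ((hpos i s).1 h1)).trans (min_le_left _ _)).trans ?_
      rw [div_le_one (by positivity)]
      linarith [Nat.cast_nonneg (α := ℝ) (idx i)]
  · by_contra h1
    exact hZ i y hy (Or.inr h1)
  · refine Set.disjoint_left.2 fun y hi hj => ?_
    obtain ⟨a1, a2, -, a3⟩ := key i y hi
    obtain ⟨b1, b2, -, b3⟩ := key j y hj
    have h1 := a3 _ (Or.inl ⟨b1, by rw [b2]; exact hij.symm⟩)
    have h2 := b3 _ (Or.inl ⟨a1, by rw [a2]; exact hij⟩)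
    have h3 := dist_triangle_left (ft (x0 i) (e i) y) (ft (x0 j) (e j) y) y
    rw [dist_comm (ft (x0 j) (e j) y)] at h2
    have h4 : dist (ft (x0 i) (e i) y) (ft (x0 j) (e j) y) = 0 :=
      le_antisymm (by linarith) dist_nonneg
    rw [dist_eq_zero] at h4
    exact hij (by rw [← a2, h4, b2])
  · have h1 : cls y = i := by
      by_contra h1
      exact hZ i y hy (Or.inl ⟨hyS, h1⟩)
    exact ⟨h1 ▸ rc_cls h hyS, h1⟩
  · by_cases hyS : y ∈ S
    · obtain ⟨r, hr, hb⟩ := Metric.eventually_nhds_iff.1 (h.loc y hyS)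
      refine ⟨ball y (r / 2), ball_mem_nhds y (by positivity),
        (finite_singleton (cls y)).subset ?_⟩
      rintro j ⟨w, hw, hwj⟩
      by_contra hj
      obtain ⟨b1, b2, -, b3⟩ := key j w hwj
      have h1 := b3 y (Or.inl ⟨hyS, fun h2 => hj h2.symm⟩)
      have h2 := dist_triangle_left (ft (x0 j) (e j) w) y w
      have h3 : dist w y < r / 2 := hw
      have h4 := (hb (y := ft (x0 j) (e j) w) (by linarith)).2 b1
      exact hj (b2.symm.trans h4)
    · obtain ⟨r, hr, hb⟩ := Metric.isOpen_iff.1 h.cl y ⟨hy, hyS⟩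
      obtain ⟨N, hN⟩ := exists_nat_one_div_lt (show 0 < r / 8 by positivity)
      refine ⟨ball y (r / 2), ball_mem_nhds y (by positivity), ?_⟩
      refine Finite.of_finite_image (f := idx) ((finite_le_nat N).subset ?_) (hidx.mono ?_)
      · rintro _ ⟨j, ⟨w, hw, hwj⟩, rfl⟩
        obtain ⟨b1, -, b2, -⟩ := key j w hwj
        have h1 : r ≤ dist (ft (x0 j) (e j) w) y := not_lt.1 fun h1 => (hb h1).2 b1
        have h2 := dist_triangle_left (ft (x0 j) (e j) w) y w
        have h3 : dist w y < r / 2 := hw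
        have h4 : 1 / ((N : ℝ) + 1) < 1 / ((idx j : ℝ) + 1) := by linarith
        have h5 := lt_of_one_div_lt_one_div (by positivity) h4
        have h6 : (idx j : ℝ) < N := by linarith
        exact (Nat.cast_lt.1 h6).le
      · rintro j ⟨w, -, hwj⟩
        obtain ⟨b1, b2, -⟩ := key j w hwj
        exact ⟨_, b1, b2⟩
  · by_contra h0
    have h1 : ρ i (sc (x0 i) (e i) y) = 0 := le_antisymm (not_lt.1 h0) (hnn i _)
    have h2 : rc (x0 i) (e i) y ≤ 4 * ρ i (sc (x0 i) (e i) y) :=
      closure_minimal (t := {w | rc (x0 i) (e i) w ≤ 4 * ρ i (sc (x0 i) (e i) w)})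
        (fun w hw => hw.2) (isClosed_le (continuous_rc _ _)
          (continuous_const.mul ((hsm i).continuous.comp (continuous_sc _ _)))) hy
    rw [h1, mul_zero] at h2
    have h3 : ft (x0 i) (e i) y = y := ft_eq (le_antisymm h2 (norm_nonneg _))
    have h4 : y ∈ closure {w | w ∈ S ∧ cls w = i} := by
      rw [← h3]
      exact map_mem_closure (continuous_ft _ _) hy fun w hw => ⟨(key i w hw).1, (key i w hw).2.1⟩
    have h5 : y ∈ S := by
      by_contra h5
      obtain ⟨w, hw1, hw2⟩ := mem_closure_iff.1 h4 _ h.cl ⟨hyU, h5⟩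
      exact hw1.2 hw2.1
    obtain ⟨w, hw1, hw2⟩ := ((mem_closure_iff_frequently.1 h4).and_eventually (h.loc y h5)).exists
    have h6 : cls y = i := (hw2.2 hw1.1).symm.trans hw1.2
    refine h0 ((hpos i _).2 ?_)
    show ft (x0 i) (e i) y ∈ S ∧ cls (ft (x0 i) (e i) y) = i
    rw [h3]
    exact ⟨h5, h6⟩

end Vale.Agent.P073Z.Sm
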