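import Vale.Agent.P073Z.Sm.Sk

/-!
# P073, smoothing half: the edge model

Reduction of the edge model to the edge model in coordinates.
-/

open Set Metric MeasureTheory Topology Filter
open scoped ContDiff ENNReal NNReal RealInnerProductSpace

noncomputable section

namespace Vale.Agent.P073Z.Sm

namespace EM

/-- An orthonormal pair is part of an orthonormal basis. -/
theorem exists_basis (e u : E) (he : ‖e‖ = 1) (hu : ‖u‖ = 1) (heu : ⟪e, u⟫ = 0) :
    ∃ bs : OrthonormalBasis (Fin 3) ℝ E, bs 0 = e ∧ bs 1 = u := by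
  have hv : Orthonormal ℝ (({0, 1} : Set (Fin 3)).domRestrict ![e, u, 0]) := by
    rw [orthonormal_iff_ite]
    rintro ⟨i, hi⟩ ⟨j, hj⟩
    have hue : ⟪u, e⟫ = 0 := by rw [real_inner_comm]; exact heu
    rcases hi with rfl | rfl <;> rcases hj with rfl | rfl <;>
      simp [Set.domRestrict, he, hu, heu, hue, Subtype.ext_iff]
  obtain ⟨bs, hb⟩ := hv.exists_orthonormalBasis_extension_of_card_eq (by simp)
  exact ⟨bs, by simpa using hb 0 (by simp), by simpa using hb 1 (by simp)⟩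

/-- A unit vector has an orthogonal unit vector. -/
theorem exists_orth (e : E) (he : ‖e‖ = 1) : ∃ u : E, ‖u‖ = 1 ∧ ⟪e, u⟫ = 0 := by
  have hv : Orthonormal ℝ (({0} : Set (Fin 3)).domRestrict ![e, 0, 0]) := by
    rw [orthonormal_iff_ite]
    rintro ⟨i, hi⟩ ⟨j, hj⟩
    rcases hi with rfl
    rcases hj with rfl
    simp [Set.domRestrict, he]
  obtain ⟨bs, hb⟩ := hv.exists_orthonormalBasis_extension_of_card_eq (by simp)
  have h0 : bs 0 = e := by simpa using hb 0 (by simp)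
  refine ⟨bs 1, bs.orthonormal.1 1, ?_⟩
  rw [← h0]
  exact bs.orthonormal.2 (by decide)

/-- An open set is not contained in a line. -/
theorem exists_off (x0 e : E) (he : ‖e‖ = 1) (W : Set E) (hW : IsOpen W) (hne : W.Nonempty) :
    ∃ y ∈ W, rc x0 e y ≠ 0 := by
  obtain ⟨y, hy⟩ := hne
  by_cases h : rc x0 e y = 0
  swap
  · exact ⟨y, hy, h⟩
  obtain ⟨u, hu, heu⟩ := exists_orth e he
  have hc : Continuous fun t : ℝ => y + t • u := by fun_prop
  have h1 : ∀ᶠ t : ℝ in 𝓝 0, y + t • u ∈ W := by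
    refine hc.continuousAt.preimage_mem_nhds ?_
    simpa using hW.mem_nhds hy
  obtain ⟨t, ht, ht0⟩ := ((h1.filter_mono nhdsWithin_le_nhds).and
    (self_mem_nhdsWithin : ({0}ᶜ : Set ℝ) ∈ 𝓝[≠] (0 : ℝ))).exists
  refine ⟨_, ht, ?_⟩
  have h2 : y - x0 - sc x0 e y • e = 0 := norm_eq_zero.1 h
  have h3 : sc x0 e (y + t • u) = sc x0 e y := by
    unfold sc
    rw [add_sub_right_comm, inner_add_right, inner_smul_right, heu]
    simp
  have h4 : y + t • u - x0 - sc x0 e (y + t • u) • e = t • u := by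
    rw [h3]
    have : y + t • u - x0 - sc x0 e y • e = (y - x0 - sc x0 e y • e) + t • u := by abel
    rw [this, h2, zero_add]
  unfold rc
  rw [h4, norm_smul, hu, mul_one]
  simpa using ht0

/-- Coordinates adapted to an orthonormal pair. -/
theorem exists_coord (e u : E) (he : ‖e‖ = 1) (hu : ‖u‖ = 1) (heu : ⟪e, u⟫ = 0) :
    ∃ L : (ℝ × ℂ) ≃L[ℝ] E, L (1, 0) = e ∧ L (0, 1) = u ∧ (∀ y, ⟪e, y⟫ = (L.symm y).1) ∧
      ∀ y, ‖y - ⟪e, y⟫ • e‖ = ‖(L.symm y).2‖ := by
  obtain ⟨bs, h0, h1⟩ := exists_basis e u he hu heu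
  have o := orthonormal_iff_ite.1 bs.orthonormal
  let L0 : (ℝ × ℂ) ≃ₗ[ℝ] E :=
    { toFun := fun q => q.1 • bs 0 + q.2.re • bs 1 + q.2.im • bs 2
      invFun := fun y => (⟪bs 0, y⟫, ⟨⟪bs 1, y⟫, ⟪bs 2, y⟫⟩)
      map_add' := fun q q' => by
        simp only [Prod.fst_add, Prod.snd_add, Complex.add_re, Complex.add_im, add_smul]
        abel
      map_smul' := fun t q => by
        simp only [Prod.smul_fst, Prod.smul_snd, smul_eq_mul, Complex.smul_re, Complex.smul_im,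
          RingHom.id_apply, smul_add, mul_smul]
      left_inv := fun q => by
        refine Prod.ext ?_ (Complex.ext ?_ ?_) <;>
          simp only [inner_add_right, inner_smul_right, o] <;> simp
      right_inv := fun y => by
        have := bs.sum_repr' y
        rw [Fin.sum_univ_three] at this
        exact this }
  refine ⟨L0.toContinuousLinearEquiv, ?_, ?_, fun y => ?_, fun y => ?_⟩
  · change (1 : ℝ) • bs 0 + (0 : ℂ).re • bs 1 + (0 : ℂ).im • bs 2 = e
    simp [h0]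
  · change (0 : ℝ) • bs 0 + (1 : ℂ).re • bs 1 + (1 : ℂ).im • bs 2 = u
    simp [h1]
  · rw [← h0]
    rfl
  · change _ = ‖(⟨⟪bs 1, y⟫, ⟪bs 2, y⟫⟩ : ℂ)‖
    have h2 : y - ⟪e, y⟫ • e = ⟪bs 1, y⟫ • bs 1 + ⟪bs 2, y⟫ • bs 2 := by
      have := bs.sum_repr' y
      rw [Fin.sum_univ_three, h0] at this
      rw [sub_eq_iff_eq_add]
      refine this.symm.trans ?_
      abel
    have h3 : ⟪⟪bs 1, y⟫ • bs 1, ⟪bs 2, y⟫ • bs 2⟫ = 0 := by
      simp only [inner_smul_left, inner_smul_right, o]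
      simp
    rw [h2, ← sq_eq_sq₀ (norm_nonneg _) (norm_nonneg _), sq, norm_add_sq_eq_norm_sq_add_norm_sq_real h3,
      Complex.sq_norm, Complex.normSq_mk, norm_smul, norm_smul, bs.orthonormal.1, bs.orthonormal.1]
    simp

/-- The structure of a map of the product which commutes with the translations. -/
theorem split (G : ℝ × ℂ → ℝ × ℂ) (hh : ∀ (q : ℝ × ℂ) (t : ℝ), 0 ≤ t → G (t • q) = t • G q)
    (ht : ∀ (s : ℝ) (z : ℂ), G (s, z) = G (0, z) + (s, 0)) (hb : Function.Bijective G)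
    (hL : ∀ q : ℝ × ℂ, q.2 ≠ 0 → LD G q) (s1 r : ℝ) (hr : 0 < r)
    (hid : ∀ᶠ q in 𝓝 ((s1, -(r : ℂ)) : ℝ × ℂ), G q = q) :
    ∃ (m : ℂ → ℝ) (Γ : ℂ → ℂ), (∀ q : ℝ × ℂ, G q = (q.1 + m q.2, Γ q.2)) ∧
      (∀ (z : ℂ) (t : ℝ), 0 ≤ t → m (t • z) = t * m z) ∧ (∀ z, z ≠ 0 → ContDiffAt ℝ ∞ m z) ∧
      (∀ (z : ℂ) (t : ℝ), 0 ≤ t → Γ (t • z) = t • Γ z) ∧ Function.Bijective Γ ∧
      (∀ z, z ≠ 0 → LD Γ z) ∧ ∀ᶠ z in 𝓝 (-1 : ℂ), Γ z = z := by
  set m : ℂ → ℝ := fun z => (G (0, z)).1 with hm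
  set Γ : ℂ → ℂ := fun z => (G (0, z)).2 with hΓ
  have hG : ∀ q : ℝ × ℂ, G q = (q.1 + m q.2, Γ q.2) := by
    rintro ⟨s, z⟩
    rw [ht]
    refine Prod.ext ?_ ?_
    · simp [hm, add_comm]
    · simp [hΓ]
  have hh0 : ∀ (z : ℂ) (t : ℝ), 0 ≤ t → G (0, t • z) = t • G (0, z) := fun z t h => by
    rw [← hh _ t h]
    simp
  have hs : ∀ z : ℂ, z ≠ 0 → ContDiffAt ℝ ∞ (fun z : ℂ => G (0, z)) z := fun z hz =>
    (hL (0, z) hz).1.comp z (contDiffAt_const.prodMk contDiffAt_id)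
  have hms : ∀ z, z ≠ 0 → ContDiffAt ℝ ∞ m z := fun z hz => (hs z hz).fst
  have hΓs : ∀ z, z ≠ 0 → ContDiffAt ℝ ∞ Γ z := fun z hz => (hs z hz).snd
  have hΓh : ∀ (z : ℂ) (t : ℝ), 0 ≤ t → Γ (t • z) = t • Γ z := fun z t h => by
    simp only [hΓ, hh0 z t h, Prod.smul_snd]
  refine ⟨m, Γ, hG, fun z t h => ?_, hms, hΓh, ⟨fun z z' h => ?_, fun w => ?_⟩,
    fun z hz => ⟨hΓs z hz, ?_⟩, ?_⟩
  · simp only [hm, hh0 z t h, Prod.smul_fst, smul_eq_mul]
  · have : G (-m z, z) = G (-m z', z') := by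
      rw [hG, hG]
      simp [h]
    exact congrArg Prod.snd (hb.1 this)
  · obtain ⟨q, hq⟩ := hb.2 (0, w)
    rw [hG] at hq
    exact ⟨q.2, congrArg Prod.snd hq⟩
  · have d1 := ((hms z hz).differentiableAt (by simp)).hasFDerivAt
    have d2 := ((hΓs z hz).differentiableAt (by simp)).hasFDerivAt
    have d3 : HasFDerivAt G (((ContinuousLinearMap.fst ℝ ℝ ℂ) +
        (fderiv ℝ m z).comp (ContinuousLinearMap.snd ℝ ℝ ℂ)).prod
        ((fderiv ℝ Γ z).comp (ContinuousLinearMap.snd ℝ ℝ ℂ))) ((0 : ℝ), z) := by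
      have e1 : G = fun q : ℝ × ℂ => (q.1 + m q.2, Γ q.2) := funext hG
      rw [e1]
      have d0 : HasFDerivAt (fun q : ℝ × ℂ => q.2) (ContinuousLinearMap.snd ℝ ℝ ℂ) ((0 : ℝ), z) :=
        hasFDerivAt_snd
      exact (hasFDerivAt_fst.add (HasFDerivAt.comp (g := m) ((0 : ℝ), z) d1 d0)).prodMk
        (HasFDerivAt.comp (g := Γ) ((0 : ℝ), z) d2 d0)
    have hi := (hL (0, z) hz).2
    rw [d3.fderiv] at hi
    rw [injective_iff_map_eq_zero] at hi ⊢
    intro v hv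
    have := hi (-(fderiv ℝ m z v), v) (by simp [hv])
    exact congrArg Prod.snd this
  · have hc : Continuous fun z : ℂ => ((s1, r • z) : ℝ × ℂ) := by fun_prop
    have h1 : Tendsto (fun z : ℂ => ((s1, r • z) : ℝ × ℂ)) (𝓝 (-1)) (𝓝 (s1, -(r : ℂ))) := by
      simpa using hc.tendsto (-1)
    filter_upwards [h1.eventually hid] with z hz
    rw [hG] at hz
    have h2 : Γ (r • z) = r • z := congrArg Prod.snd hz
    rw [hΓh z r hr.le] at h2
    exact smul_right_injective ℂ hr.ne' h2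

theorem ld_inv {X Y : Type} [NormedAddCommGroup X] [NormedSpace ℝ X] [NormedAddCommGroup Y]
    [NormedSpace ℝ Y] (L : X ≃L[ℝ] Y) (x0 x : X) : LD (fun y => L (y - x0)) x := by
  have := LD.affine (L : X →L[ℝ] Y) L.injective 0 x0 x
  simpa using this

theorem ld_add {X Y : Type} [NormedAddCommGroup X] [NormedSpace ℝ X] [NormedAddCommGroup Y]
    [NormedSpace ℝ Y] (L : X ≃L[ℝ] Y) (b : Y) (x : X) : LD (fun y => b + L y) x := by
  have := LD.affine (L : X →L[ℝ] Y) L.injective b 0 x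
  simpa using this

theorem bij_inv {X Y : Type} [NormedAddCommGroup X] [NormedSpace ℝ X] [NormedAddCommGroup Y]
    [NormedSpace ℝ Y] (L : X ≃L[ℝ] Y) (x0 : X) : Function.Bijective fun y => L (y - x0) :=
  L.bijective.comp (Equiv.subRight x0).bijective

theorem bij_add {X Y : Type} [NormedAddCommGroup X] [NormedSpace ℝ X] [NormedAddCommGroup Y]
    [NormedSpace ℝ Y] (L : X ≃L[ℝ] Y) (b : Y) : Function.Bijective fun y => b + L y :=
  (Equiv.addLeft b).bijective.comp L.bijective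

end EM

open EM in
/-- Block EM. -/
theorem blockEM (hEM0 : StmtEM0) : StmtEM := by
  intro G x0 e c W A b he hh ht hb hL hW hne hA
  obtain ⟨y1, hy1, hr1⟩ := exists_off x0 e he W hW hne
  have hWn : W ∈ 𝓝 y1 := hW.mem_nhds hy1
  -- the linear part is invertible
  have hAi : Function.Injective A := by
    have h1 : G =ᶠ[𝓝 y1] fun y => b + A y := by
      filter_upwards [hWn] with y hy using hA y hy
    have h2 : fderiv ℝ G y1 = A := by
      rw [h1.fderiv_eq]
      exact (A.hasFDerivAt.const_add b).fderiv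
    have := (hL y1 hr1).2
    rwa [h2] at this
  let A' : E ≃L[ℝ] E := (LinearEquiv.ofInjectiveEndo (A : E →ₗ[ℝ] E) hAi).toContinuousLinearEquiv
  have hA' : ∀ y, A' y = A y := fun _ => rfl
  have hAe : A e = c := by
    have hc : Continuous fun t : ℝ => y1 + t • e := by fun_prop
    have h1 : ∀ᶠ t : ℝ in 𝓝 0, y1 + t • e ∈ W := by
      refine hc.continuousAt.preimage_mem_nhds ?_
      simpa using hWn
    obtain ⟨t, h2, ht0⟩ := ((h1.filter_mono nhdsWithin_le_nhds).and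
      (self_mem_nhdsWithin : ({0}ᶜ : Set ℝ) ∈ 𝓝[≠] (0 : ℝ))).exists
    have h3 := hA _ h2
    rw [ht, hA _ hy1, map_add, map_smul, add_assoc, add_right_inj, add_right_inj] at h3
    exact (smul_right_injective E (show t ≠ 0 from ht0) h3).symm
  have hx0 : G x0 = b + A x0 := by
    have hc : Continuous fun t : ℝ => x0 + t • (y1 - x0) := by fun_prop
    have h1 : ∀ᶠ t : ℝ in 𝓝 1, x0 + t • (y1 - x0) ∈ W := by
      refine hc.continuousAt.preimage_mem_nhds ?_
      simpa using hWn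
    have h1' : ∀ᶠ t : ℝ in 𝓝 1, 0 < t := lt_mem_nhds one_pos
    obtain ⟨t, ⟨h2, h2'⟩, ht1⟩ := (((h1.and h1').filter_mono nhdsWithin_le_nhds).and
      (self_mem_nhdsWithin : ({1}ᶜ : Set ℝ) ∈ 𝓝[≠] (1 : ℝ))).exists
    have h3 := hA _ h2
    rw [hh y1 t h2'.le, hA _ hy1, map_add, map_smul, map_sub] at h3
    have h4 : (1 - t) • G x0 = (1 - t) • (b + A x0) := by
      have e1 : (1 - t) • G x0 = G x0 + t • (b + A y1 - G x0) - t • (b + A y1) := by module
      rw [e1, h3]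
      module
    exact smul_right_injective E (sub_ne_zero.2 (Ne.symm ht1)) h4
  -- coordinates
  set p : E := y1 - x0 - sc x0 e y1 • e with hp
  have hr : 0 < ‖p‖ := lt_of_le_of_ne (norm_nonneg _) (Ne.symm hr1)
  have hep : ⟪e, p⟫ = 0 := by
    rw [hp, inner_sub_right, inner_smul_right, real_inner_self_eq_norm_sq, he]
    simp [sc]
  obtain ⟨L, L1, L2, L3, L4⟩ := exists_coord e (-(‖p‖⁻¹ • p)) he
    (by rw [norm_neg, norm_smul, norm_inv, norm_norm, inv_mul_cancel₀ hr.ne'])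
    (by rw [inner_neg_right, inner_smul_right, hep]; simp)
  have hsc : ∀ y, sc x0 e y = (L.symm (y - x0)).1 := fun y => L3 _
  have hrc : ∀ y, rc x0 e y = ‖(L.symm (y - x0)).2‖ := fun y => L4 _
  have hy : x0 + L (sc x0 e y1, -((‖p‖ : ℝ) : ℂ)) = y1 := by
    have e1 : ((sc x0 e y1, -((‖p‖ : ℝ) : ℂ)) : ℝ × ℂ) =
        sc x0 e y1 • ((1, 0) : ℝ × ℂ) + (-‖p‖) • ((0, 1) : ℝ × ℂ) := by
      simp
    rw [e1, map_add, map_smul, map_smul, L1, L2, smul_neg, neg_smul, neg_neg, smul_smul,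
      mul_inv_cancel₀ hr.ne', one_smul, hp]
    abel
  let T : (ℝ × ℂ) ≃L[ℝ] E := L.trans A'
  have hT : ∀ q, T q = A (L q) := fun _ => rfl
  let G' : ℝ × ℂ → ℝ × ℂ := fun q => T.symm (G (x0 + L q) - G x0)
  have hGG : ∀ y, G y = G x0 + T (G' (L.symm (y - x0))) := fun y => by simp [G']
  obtain ⟨m, Γ, hG', m1, m2, g1, g2, g3, g4⟩ := split G'
    (fun q t h => by
      have := hh (x0 + L q) t h
      rw [add_sub_cancel_left] at this
      simp only [G', map_smul, this, add_sub_cancel_left])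
    (fun s z => by
      have e1 : ((s, z) : ℝ × ℂ) = (0, z) + s • ((1, 0) : ℝ × ℂ) := by simp
      have e2 : T.symm c = (1, 0) := by
        rw [T.symm_apply_eq, hT, L1, hAe]
      have e3 : ((s, 0) : ℝ × ℂ) = s • T.symm c := by simp [e2]
      simp only [G']
      rw [e3, e1, map_add, map_smul, L1, ← add_assoc, ht, ← map_smul, ← map_add,
        add_sub_right_comm])
    ((bij_inv T.symm (G x0)).comp (hb.comp (bij_add L x0)))
    (fun q hq => by
      have h1 : LD G (x0 + L q) := hL _ (by rw [hrc]; simpa using hq)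
      exact LD.comp (G := fun y => T.symm (y - G x0)) (F := fun q => G (x0 + L q))
        (ld_inv _ _ _) (LD.comp (F := fun q => x0 + L q) h1 (ld_add _ _ _)))
    (sc x0 e y1) ‖p‖ hr
    (by
      have hc : Continuous fun q : ℝ × ℂ => x0 + L q := by fun_prop
      have h1 : ∀ᶠ q : ℝ × ℂ in 𝓝 (sc x0 e y1, -((‖p‖ : ℝ) : ℂ)), x0 + L q ∈ W := by
        refine hc.continuousAt.preimage_mem_nhds ?_
        rw [hy]
        exact hWn
      filter_upwards [h1] with q hq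
      simp only [G']
      rw [T.symm_apply_eq, hA _ hq, hx0, hT, map_add]
      abel)
  obtain ⟨κ, C, hκ, hH⟩ := hEM0 m Γ m1 m2 g1 g2 g3 g4
  set nT : ℝ≥0 := ‖(T : (ℝ × ℂ) →L[ℝ] E)‖₊ with hnT
  set nL : ℝ≥0 := ‖(L.symm : E →L[ℝ] (ℝ × ℂ))‖₊ with hnL
  have key : ∀ ρ : ℝ → ℝ, LipschitzWith κ ρ → (∀ s, 0 ≤ ρ s) → ContDiffOn ℝ ∞ ρ {s | 0 < ρ s} →
      ∃ H : E → E, Function.Bijective H ∧ LipschitzWith (nT * C * nL + nT * C) H ∧
        (∀ y, ρ (sc x0 e y) ≤ rc x0 e y → H y = G y) ∧ (∀ y, 0 < ρ (sc x0 e y) → LD H y) ∧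
        ∀ y, ‖H y - G y‖ ≤ (nT * C * nL + nT * C : ℝ≥0) * ρ (sc x0 e y) := by
    intro ρ r1 r2 r3
    obtain ⟨H, H1, H2, H3, H4, H5⟩ := hH ρ r1 r2 r3
    refine ⟨fun y => G x0 + T (H (L.symm (y - x0))),
      (bij_add T (G x0)).comp (H1.comp (bij_inv L.symm x0)), ?_, fun y h => ?_, fun y h => ?_,
      fun y => ?_⟩
    · refine LipschitzWith.weaken (K := nT * C * nL) ?_ le_self_add
      refine LipschitzWith.of_dist_le_mul fun y y' => ?_
      rw [dist_add_left]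
      have a1 := (T : (ℝ × ℂ) →L[ℝ] E).lipschitz.dist_le_mul (H (L.symm (y - x0)))
        (H (L.symm (y' - x0)))
      have a2 := H2.dist_le_mul (L.symm (y - x0)) (L.symm (y' - x0))
      have a3 := (L.symm : E →L[ℝ] (ℝ × ℂ)).lipschitz.dist_le_mul (y - x0) (y' - x0)
      rw [dist_sub_right] at a3
      calc dist (T (H (L.symm (y - x0)))) (T (H (L.symm (y' - x0))))
          ≤ nT * dist (H (L.symm (y - x0))) (H (L.symm (y' - x0))) := a1
        _ ≤ nT * (C * (nL * dist y y')) := by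
          gcongr
          exact a2.trans (by gcongr; exact a3)
        _ = _ := by push_cast; ring
    · rw [hsc, hrc] at h
      beta_reduce
      rw [H3 _ h, hGG y, hG']
    · rw [hsc] at h
      exact LD.comp (G := fun q => G x0 + T q) (F := fun y => H (L.symm (y - x0)))
        (ld_add _ _ _) (LD.comp (F := fun y => L.symm (y - x0)) (H4 _ h) (ld_inv _ _ _))
    · beta_reduce
      rw [hGG y, hG', add_sub_add_left_eq_sub, ← map_sub, hsc]
      have a1 := (T : (ℝ × ℂ) →L[ℝ] E).le_opNorm (H (L.symm (y - x0)) -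
        ((L.symm (y - x0)).1 + m (L.symm (y - x0)).2, Γ (L.symm (y - x0)).2))
      have a2 := H5 (L.symm (y - x0))
      have a3 := r2 (L.symm (y - x0)).1
      refine a1.trans ?_
      calc _ ≤ (nT : ℝ) * (C * ρ (L.symm (y - x0)).1) := by
            rw [hnT, coe_nnnorm]
            gcongr
        _ ≤ _ := by
            push_cast
            have : 0 ≤ (nT : ℝ) * C * nL * ρ (L.symm (y - x0)).1 := by positivity
            nlinarith
  refine ⟨κ, nT * C * nL + nT * C, hκ, ?_, key⟩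
  obtain ⟨H, -, H2, H3, -⟩ := key (fun _ => 0) ((LipschitzWith.const 0).weaken zero_le)
    (fun _ => le_rfl) contDiffOn_const
  have : H = G := funext fun y => H3 y (norm_nonneg _)
  rwa [this] at H2

end Vale.Agent.P073Z.Sm
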