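import Vale.Agent.P073Z.Sm.Sk

/-!
# P073, smoothing half: the edge model in coordinates
-/

open Set Metric Topology Filter
open scoped ContDiff NNReal

noncomputable section

namespace Vale.Agent.P073Z.Sm

namespace EM0

variable {Y : Type} [NormedAddCommGroup Y] [NormedSpace ℝ Y]

/-- the difference of a smooth map and a Lipschitz map which agree off the unit disc -/
theorem lip_diff (F G : ℂ → Y) (hF : ∀ z, ContDiffAt ℝ ∞ F z) {C : ℝ≥0} (hG : LipschitzWith C G)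
    (h0 : ∀ w, 1 ≤ ‖w‖ → F w = G w) :
    ∃ L : ℝ≥0, LipschitzWith L (fun w => F w - G w) ∧ ∀ w, ‖F w - G w‖ ≤ L := by
  have hF1 : ContDiff ℝ 1 F := contDiff_iff_contDiffAt.2 fun z => (hF z).of_le (by simp)
  obtain ⟨K, hK⟩ := (hF1.locallyLipschitz.locallyLipschitzOn
    (s := closedBall (0 : ℂ) 2)).exists_lipschitzOnWith_of_compact (isCompact_closedBall _ _)
  have hj : ∀ x ∈ closedBall (0 : ℂ) 2, ∀ y ∈ closedBall (0 : ℂ) 2,
      ‖(F x - G x) - (F y - G y)‖ ≤ (K + C : ℝ) * ‖x - y‖ := by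
    intro x hx y hy
    have h1 := hK.dist_le_mul x hx y hy
    have h2 := hG.dist_le_mul x y
    rw [dist_eq_norm, dist_eq_norm] at h1 h2
    have h3 : (F x - G x) - (F y - G y) = (F x - F y) - (G x - G y) := by abel
    rw [h3]
    have h4 := norm_sub_le (F x - F y) (G x - G y)
    linarith
  have hKC : (0 : ℝ) ≤ K + C := by positivity
  have hb : ∀ w, ‖F w - G w‖ ≤ 2 * (K + C : ℝ) := by
    intro w
    by_cases hw : 1 ≤ ‖w‖
    · rw [h0 w hw, sub_self, norm_zero]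
      positivity
    · have h1 : (1 : ℂ) ∈ closedBall (0 : ℂ) 2 := by simp
      have h2 : w ∈ closedBall (0 : ℂ) 2 := by
        rw [mem_closedBall, dist_zero_right]
        linarith
      have h3 := hj w h2 1 h1
      rw [h0 1 (by simp), sub_self, sub_zero] at h3
      have h4 : ‖w - 1‖ ≤ 2 := by
        have := norm_sub_le w 1
        rw [norm_one] at this
        linarith
      nlinarith
  have key : ∀ x y, ‖x‖ < 1 →
      ‖(F x - G x) - (F y - G y)‖ ≤ 2 * (K + C : ℝ) * ‖x - y‖ := by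
    intro x y hx
    have hn := norm_nonneg (x - y)
    by_cases hy : ‖y‖ ≤ 2
    · have h3 := hj x (by rw [mem_closedBall, dist_zero_right]; linarith) y
        (by rw [mem_closedBall, dist_zero_right]; exact hy)
      nlinarith
    · rw [h0 y (by linarith), sub_self, sub_zero]
      have h4 : 1 ≤ ‖x - y‖ := by
        have := norm_sub_norm_le y x
        rw [norm_sub_rev y x] at this
        linarith
      have h5 := hb x
      nlinarith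
  refine ⟨2 * (K + C), LipschitzWith.of_dist_le_mul fun x y => ?_, fun w => ?_⟩
  · rw [dist_eq_norm, dist_eq_norm]
    push_cast
    by_cases hx : ‖x‖ < 1
    · exact key x y hx
    · by_cases hy : ‖y‖ < 1
      · rw [norm_sub_rev, norm_sub_rev x y]
        exact key y x hy
      · rw [h0 x (not_lt.1 hx), h0 y (not_lt.1 hy), sub_self, sub_self, sub_self, norm_zero]
        positivity
  · push_cast
    exact hb w

theorem persp_zero {j : ℂ → Y} (h0 : ∀ w, 1 ≤ ‖w‖ → j w = 0) {z : ℂ} {r : ℝ} (h : r ≤ ‖z‖) :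
    persp j z r = 0 := by
  unfold persp
  split_ifs with hr
  · rw [h0, smul_zero]
    rw [norm_smul, norm_inv, Real.norm_eq_abs, abs_of_pos hr, inv_mul_eq_div, le_div_iff₀ hr]
    linarith
  · rfl

theorem persp_le {j : ℂ → Y} {L : ℝ≥0} (hb : ∀ w, ‖j w‖ ≤ L) (z : ℂ) {r : ℝ} (h : 0 ≤ r) :
    ‖persp j z r‖ ≤ L * r := by
  unfold persp
  split_ifs with hr
  · rw [norm_smul, Real.norm_eq_abs, abs_of_pos hr, mul_comm]
    exact mul_le_mul_of_nonneg_right (hb _) h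
  · rw [norm_zero]
    positivity

theorem persp_hom {F G : ℂ → Y} (hG : ∀ (z : ℂ) (t : ℝ), 0 ≤ t → G (t • z) = t • G z) (z : ℂ)
    {r : ℝ} (hr : 0 < r) : G z + persp (fun w => F w - G w) z r = r • F (r⁻¹ • z) := by
  unfold persp
  rw [if_pos hr, smul_sub, hG z r⁻¹ (inv_nonneg.2 hr.le), smul_smul, mul_inv_cancel₀ hr.ne',
    one_smul]
  abel

/-- the rescaled map is smooth where the scale is smooth and positive -/
theorem smooth_scale {F G : ℂ → Y} (hG : ∀ (z : ℂ) (t : ℝ), 0 ≤ t → G (t • z) = t • G z)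
    (hF : ∀ z, ContDiffAt ℝ ∞ F z) {r : ℝ → ℝ} {q : ℝ × ℂ} (hr : ContDiffAt ℝ ∞ r q.1)
    (h0 : 0 < r q.1) :
    ContDiffAt ℝ ∞ (fun p : ℝ × ℂ => G p.2 + persp (fun w => F w - G w) p.2 (r p.1)) q := by
  have h1 : ContDiffAt ℝ ∞ (fun p : ℝ × ℂ => r p.1) q := hr.comp q contDiffAt_fst
  have h2 : ContDiffAt ℝ ∞ (fun p : ℝ × ℂ => (r p.1)⁻¹ • p.2) q :=
    (h1.inv h0.ne').smul contDiffAt_snd
  have h3 : ContDiffAt ℝ ∞ (fun p : ℝ × ℂ => r p.1 • F ((r p.1)⁻¹ • p.2)) q :=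
    h1.smul ((hF _).comp q h2)
  refine h3.congr_of_eventuallyEq ?_
  filter_upwards [h1.continuousAt.eventually (lt_mem_nhds h0)] with p hp
  exact persp_hom hG p.2 hp

/-- fibrewise maps -/
theorem ld_fib {F : ℝ × ℂ → ℂ} {q : ℝ × ℂ} (hF : ContDiffAt ℝ ∞ F q)
    (h : LD (fun z => F (q.1, z)) q.2) : LD (fun p : ℝ × ℂ => (p.1, F p)) q := by
  refine ⟨contDiffAt_fst.prodMk hF, ?_⟩
  have hd : HasFDerivAt F (fderiv ℝ F q) q := (hF.differentiableAt (by simp)).hasFDerivAt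
  have h1 : HasFDerivAt (fun p : ℝ × ℂ => (p.1, F p))
      ((ContinuousLinearMap.fst ℝ ℝ ℂ).prod (fderiv ℝ F q)) q := hasFDerivAt_fst.prodMk hd
  have h2 : HasFDerivAt (fun z => F (q.1, z))
      ((fderiv ℝ F q).comp (ContinuousLinearMap.inr ℝ ℝ ℂ)) q.2 :=
    HasFDerivAt.comp q.2 (f := fun z : ℂ => (q.1, z)) hd (hasFDerivAt_prodMk_right q.1 q.2)
  have h3 := h.2
  rw [h2.fderiv] at h3
  rw [h1.fderiv, injective_iff_map_eq_zero]
  rintro ⟨a, b⟩ hv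
  have ha : a = 0 := congrArg Prod.fst hv
  have hb : fderiv ℝ F q (a, b) = 0 := congrArg Prod.snd hv
  subst ha
  have hb0 : b = 0 := (injective_iff_map_eq_zero _).1 h3 b hb
  rw [hb0]
  rfl

theorem ld_smul {c : ℝ} (hc : c ≠ 0) (z : ℂ) : LD (fun w : ℂ => c • w) z := by
  have h := LD.affine (c • ContinuousLinearMap.id ℝ ℂ)
    (fun x y hxy => smul_right_injective ℂ hc hxy) 0 0 z
  simpa using h

theorem bij_smul {c : ℝ} (hc : c ≠ 0) : Function.Bijective (fun w : ℂ => c • w) :=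
  (MulAction.toPerm (Units.mk0 c hc)).bijective

theorem bij_fib {F : ℝ × ℂ → ℂ} (h : ∀ s, Function.Bijective fun z => F (s, z)) :
    Function.Bijective (fun p : ℝ × ℂ => (p.1, F p)) := by
  constructor
  · rintro ⟨s, z⟩ ⟨s', z'⟩ hv
    have ha : s = s' := congrArg Prod.fst hv
    have hb : F (s, z) = F (s', z') := congrArg Prod.snd hv
    subst ha
    rw [(h s).1 hb]
  · rintro ⟨s, w⟩
    obtain ⟨z, hz⟩ := (h s).2 w
    exact ⟨(s, z), Prod.ext rfl hz⟩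

/-- the Lipschitz bound for a homogeneous map plus a perspective function -/
theorem lip_sum (hP : StmtPERSP) {G j : ℂ → Y} {C L : ℝ≥0} (hG : LipschitzWith C G)
    (hj : LipschitzWith L j) (hb : ∀ w, ‖j w‖ ≤ L) (h0 : ∀ w, 1 ≤ ‖w‖ → j w = 0) {r : ℝ → ℝ}
    (hr : ∀ s s', |r s - r s'| ≤ |s - s'|) :
    LipschitzWith (C + 3 * L) fun p : ℝ × ℂ => G p.2 + persp j p.2 (r p.1) := by
  refine LipschitzWith.of_dist_le_mul fun p p' => ?_
  have h1 := hG.dist_le_mul p.2 p'.2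
  have h2 := hP ℂ Y j L hj hb h0 p.2 p'.2 (r p.1) (r p'.1)
  have h3 := hr p.1 p'.1
  rw [dist_eq_norm, dist_eq_norm] at h1
  rw [dist_eq_norm, dist_eq_norm]
  have h4 : ‖p.2 - p'.2‖ ≤ ‖p - p'‖ := norm_snd_le (p - p')
  have h5 : |p.1 - p'.1| ≤ ‖p - p'‖ := norm_fst_le (p - p')
  have h6 : G p.2 + persp j p.2 (r p.1) - (G p'.2 + persp j p'.2 (r p'.1)) =
      (G p.2 - G p'.2) + (persp j p.2 (r p.1) - persp j p'.2 (r p'.1)) := by abel
  rw [h6]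
  refine (norm_add_le _ _).trans ?_
  have hC : (0 : ℝ) ≤ C := C.2
  have hL : (0 : ℝ) ≤ L := L.2
  have h7 := mul_le_mul_of_nonneg_left h4 hC
  have h8 := mul_le_mul_of_nonneg_left h4 hL
  have h9 := mul_le_mul_of_nonneg_left (h3.trans h5) hL
  push_cast
  linarith

/-- a smooth function which vanishes at the origin and agrees with `m` off the unit disc -/
theorem exists_ms {m : ℂ → ℝ} (hm : ∀ z, z ≠ 0 → ContDiffAt ℝ ∞ m z) :
    ∃ ms : ℂ → ℝ, (∀ z, ContDiffAt ℝ ∞ ms z) ∧ ms 0 = 0 ∧ ∀ w, 1 ≤ ‖w‖ → ms w = m w := by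
  let f : ContDiffBump (0 : ℂ) := ⟨1 / 2, 1, by norm_num, by norm_num⟩
  refine ⟨fun w => (1 - f w) * m w, fun z => ?_, ?_, fun w hw => ?_⟩
  · by_cases hz : z = 0
    · subst hz
      refine (contDiffAt_const (c := (0 : ℝ))).congr_of_eventuallyEq ?_
      filter_upwards [f.eventuallyEq_one] with w hw
      rw [hw]
      simp
    · exact (contDiffAt_const.sub f.contDiffAt).mul (hm z hz)
  · have : f 0 = 1 := f.one_of_mem_closedBall (mem_closedBall_self f.rIn_pos.le)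
    simp [this]
  · have : f w = 0 := f.zero_of_le_dist (by rw [dist_zero_right]; exact hw)
    simp [this]

/-- the homogeneous map `G` smoothed at the scale `r` with the profile `F` -/
def sm (G F : ℂ → Y) (r : ℝ → ℝ) (p : ℝ × ℂ) : Y :=
  G p.2 + persp (fun w => F w - G w) p.2 (r p.1)

theorem sm_out {G F : ℂ → Y} (h1 : ∀ w, 1 ≤ ‖w‖ → F w = G w) {r : ℝ → ℝ} {p : ℝ × ℂ}
    (h : r p.1 ≤ ‖p.2‖) : sm G F r p = G p.2 := by
  unfold sm
  rw [persp_zero (fun w hw => by rw [h1 w hw, sub_self]) h, add_zero]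

theorem sm_in {G F : ℂ → Y} (hG : ∀ (z : ℂ) (t : ℝ), 0 ≤ t → G (t • z) = t • G z) {r : ℝ → ℝ}
    {p : ℝ × ℂ} (h : 0 < r p.1) : sm G F r p = r p.1 • F ((r p.1)⁻¹ • p.2) :=
  persp_hom hG p.2 h

theorem sm_sub {G F : ℂ → Y} {L : ℝ≥0} (hb : ∀ w, ‖F w - G w‖ ≤ L) {r : ℝ → ℝ} (p : ℝ × ℂ)
    (h : 0 ≤ r p.1) : ‖sm G F r p - G p.2‖ ≤ L * r p.1 := by
  unfold sm
  rw [add_sub_cancel_left]
  exact persp_le hb p.2 h

theorem shear_ineq (hP : StmtPERSP) {m ms : ℂ → ℝ} {L : ℝ≥0}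
    (hL : LipschitzWith L fun w => ms w - m w) (hb : ∀ w, ‖ms w - m w‖ ≤ L)
    (h1 : ∀ w, 1 ≤ ‖w‖ → ms w = m w) {ρ : ℝ → ℝ}
    (hρ : ∀ s s', 4 * L * |ρ s - ρ s'| ≤ |s - s'|) (x : ℝ × ℂ) (τ : ℝ) (hτ : 0 ≤ τ) :
    1 / 2 * τ ≤ τ + sm m ms ρ (x + τ • ((1 : ℝ), (0 : ℂ))) - sm m ms ρ x := by
  have h0 := hP ℂ ℝ _ L hL hb (fun w hw => by rw [h1 w hw, sub_self]) x.2 x.2 (ρ (x.1 + τ))
    (ρ x.1)
  have h2 := hρ (x.1 + τ) x.1
  rw [add_sub_cancel_left, abs_of_nonneg hτ] at h2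
  rw [sub_self, norm_zero, mul_zero, zero_add, Real.norm_eq_abs] at h0
  have h3 : sm m ms ρ (x + τ • ((1 : ℝ), (0 : ℂ))) =
      m x.2 + persp (fun w => ms w - m w) x.2 (ρ (x.1 + τ)) := by
    simp [sm]
  have h4 : sm m ms ρ x = m x.2 + persp (fun w => ms w - m w) x.2 (ρ x.1) := rfl
  have h5 := neg_abs_le (persp (fun w => ms w - m w) x.2 (ρ (x.1 + τ)) -
    persp (fun w => ms w - m w) x.2 (ρ x.1))
  rw [h3, h4]
  linarith

theorem bij_sm {Γ Γs : ℂ → ℂ} (hΓ : ∀ (z : ℂ) (t : ℝ), 0 ≤ t → Γ (t • z) = t • Γ z)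
    (hΓb : Function.Bijective Γ) (hsb : Function.Bijective Γs)
    (h1 : ∀ w, 1 ≤ ‖w‖ → Γs w = Γ w) (r : ℝ → ℝ) :
    Function.Bijective fun p : ℝ × ℂ => (p.1, sm Γ Γs r p) := by
  refine bij_fib fun s => ?_
  by_cases hs : 0 < r s
  · have h2 : (fun z => sm Γ Γs r (s, z)) = fun z => r s • Γs ((r s)⁻¹ • z) :=
      funext fun z => sm_in hΓ (p := (s, z)) hs
    rw [h2]
    exact (bij_smul hs.ne').comp (hsb.comp (bij_smul (inv_ne_zero hs.ne')))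
  · have h2 : (fun z => sm Γ Γs r (s, z)) = Γ := funext fun z =>
      sm_out h1 (p := (s, z)) ((not_lt.1 hs).trans (norm_nonneg z))
    rw [h2]
    exact hΓb

theorem ld_sm {Γ Γs : ℂ → ℂ} (hΓ : ∀ (z : ℂ) (t : ℝ), 0 ≤ t → Γ (t • z) = t • Γ z)
    (hΓd : ∀ z, z ≠ 0 → LD Γ z) (hsd : ∀ z, LD Γs z) (h1 : ∀ w, 1 ≤ ‖w‖ → Γs w = Γ w)
    {r : ℝ → ℝ} (hc : Continuous r) (hr : ∀ s, 0 < r s → ContDiffAt ℝ ∞ r s) {q : ℝ × ℂ}
    (hq : 0 < r q.1 ∨ q.2 ≠ 0) : LD (fun p : ℝ × ℂ => (p.1, sm Γ Γs r p)) q := by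
  by_cases hs : 0 < r q.1
  · refine ld_fib (smooth_scale hΓ (fun z => (hsd z).1) (hr _ hs) hs) ?_
    have h2 : (fun z => sm Γ Γs r (q.1, z)) = fun z => r q.1 • Γs ((r q.1)⁻¹ • z) :=
      funext fun z => sm_in hΓ (p := (q.1, z)) hs
    rw [h2]
    exact LD.comp (G := fun w : ℂ => r q.1 • w) (ld_smul hs.ne' _)
      (LD.comp (hsd _) (ld_smul (inv_ne_zero hs.ne') _))
  · have hz : q.2 ≠ 0 := hq.resolve_left hs
    have h2 : LD (fun p : ℝ × ℂ => (p.1, Γ p.2)) q :=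
      ld_fib (F := fun p => Γ p.2) ((hΓd _ hz).1.comp q contDiffAt_snd) (hΓd _ hz)
    refine h2.congr ?_
    have h3 : r q.1 < ‖q.2‖ := (not_lt.1 hs).trans_lt (norm_pos_iff.2 hz)
    have h4 : ∀ᶠ p : ℝ × ℂ in 𝓝 q, r p.1 < ‖p.2‖ :=
      (isOpen_lt (hc.comp continuous_fst) continuous_snd.norm).mem_nhds h3
    filter_upwards [h4] with p hp
    rw [sm_out h1 hp.le]

theorem out_eq {m ms : ℂ → ℝ} {Γ Γs : ℂ → ℂ} (hm1 : ∀ w, 1 ≤ ‖w‖ → ms w = m w)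
    (hs1 : ∀ w, 1 ≤ ‖w‖ → Γs w = Γ w) {ρ : ℝ → ℝ}
    (hρ : ∀ (s : ℝ) (z : ℂ), |ρ (s + m z) - ρ s| ≤ ‖z‖) {q : ℝ × ℂ} (hq : ρ q.1 ≤ ‖q.2‖) :
    (q.1 + sm m ms ρ q, sm Γ Γs (fun s => ρ s / 4) (q.1 + sm m ms ρ q, q.2)) =
      (q.1 + m q.2, Γ q.2) := by
  rw [sm_out hm1 hq, sm_out hs1]
  have h1 := hρ q.1 q.2
  have h2 := le_abs_self (ρ (q.1 + m q.2) - ρ q.1)
  have h3 := norm_nonneg q.2
  show ρ (q.1 + m q.2) / 4 ≤ ‖q.2‖
  linarith

theorem in_le {m ms : ℂ → ℝ} {Γ Γs : ℂ → ℂ} {Cm L L' : ℝ≥0} (hm : ∀ z, |m z| ≤ Cm * ‖z‖)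
    (hb : ∀ w, ‖ms w - m w‖ ≤ L) (hb' : ∀ w, ‖Γs w - Γ w‖ ≤ L') {ρ : ℝ → ℝ} (h0 : ∀ s, 0 ≤ ρ s)
    (hρ : ∀ s s', |ρ s - ρ s'| ≤ |s - s'|) {q : ℝ × ℂ} (hq : ‖q.2‖ ≤ ρ q.1) :
    ‖(q.1 + sm m ms ρ q, sm Γ Γs (fun s => ρ s / 4) (q.1 + sm m ms ρ q, q.2)) -
      (q.1 + m q.2, Γ q.2)‖ ≤ (L + L' * (1 + Cm + L)) * ρ q.1 := by
  have hq0 := h0 q.1
  have hCm0 : (0 : ℝ) ≤ Cm := Cm.2
  have hL0' : (0 : ℝ) ≤ L' := L'.2
  have h1 := sm_sub hb q hq0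
  generalize sm m ms ρ q = a at h1 ⊢
  have h9 := h0 (q.1 + a)
  have h2 : ‖sm Γ Γs (fun s => ρ s / 4) (q.1 + a, q.2) - Γ q.2‖ ≤ L' * (ρ (q.1 + a) / 4) :=
    sm_sub hb' (r := fun s => ρ s / 4) (q.1 + a, q.2) (div_nonneg h9 (by norm_num))
  generalize sm Γ Γs (fun s => ρ s / 4) (q.1 + a, q.2) = b at h2 ⊢
  rw [Real.norm_eq_abs] at h1
  have h3 : |a| ≤ (Cm + L) * ρ q.1 := by
    have h4 := abs_add_le (m q.2) (a - m q.2)
    rw [add_sub_cancel] at h4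
    have h5 := hm q.2
    have h6 := mul_le_mul_of_nonneg_left hq hCm0
    linarith
  have h4 := hρ (q.1 + a) q.1
  rw [add_sub_cancel_left] at h4
  have h5 := le_abs_self (ρ (q.1 + a) - ρ q.1)
  have h6 : ρ (q.1 + a) / 4 ≤ (1 + Cm + L) * ρ q.1 := by linarith
  have h7 := mul_le_mul_of_nonneg_left h6 hL0'
  have hB : (0 : ℝ) ≤ L * ρ q.1 := by positivity
  have hC : (0 : ℝ) ≤ L' * ((1 + Cm + L) * ρ q.1) := by positivity
  rw [Prod.mk_sub_mk, Prod.norm_def, add_sub_add_left_eq_sub]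
  refine max_le ?_ ?_
  · show |a - m q.2| ≤ _
    linarith
  · show ‖b - Γ q.2‖ ≤ _
    linarith

theorem lip_shear {μ : ℝ × ℂ → ℝ} {C : ℝ≥0} (h : LipschitzWith C μ) :
    LipschitzWith (1 + C) fun x : ℝ × ℂ => (x.1 + μ x, x.2) := by
  have h1 : LipschitzWith (1 + C) fun x : ℝ × ℂ => x.1 + μ x := LipschitzWith.prod_fst.add h
  have h2 := h1.prodMk (LipschitzWith.prod_snd (α := ℝ) (β := ℂ))
  rwa [max_eq_left le_self_add] at h2

theorem small_lip {ρ : ℝ → ℝ} {L Cm : ℝ≥0} (hρ : LipschitzWith (1 + 4 * L + Cm)⁻¹ ρ) (s s' : ℝ) :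
    |ρ s - ρ s'| ≤ |s - s'| ∧ 4 * L * |ρ s - ρ s'| ≤ |s - s'| ∧
      (1 + Cm) * |ρ s - ρ s'| ≤ |s - s'| := by
  have hden : (0 : ℝ) < 1 + 4 * L + Cm := by positivity
  have h := hρ.dist_le_mul s s'
  rw [Real.dist_eq, Real.dist_eq] at h
  push_cast at h
  rw [inv_mul_eq_div, le_div_iff₀ hden] at h
  have h2 := abs_nonneg (ρ s - ρ s')
  have h3 : 0 ≤ (L : ℝ) * |ρ s - ρ s'| := by positivity
  have h4 : 0 ≤ (Cm : ℝ) * |ρ s - ρ s'| := by positivity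
  refine ⟨by linarith, by linarith, by linarith⟩

end EM0

open EM0

/-- Block EM0: the edge model in coordinates. -/
theorem blockEM0 (hE2 : StmtE2) (hS : StmtSHEAR) (hP : StmtPERSP) (hH : StmtHOMLIP) :
    StmtEM0 := by
  intro m Γ hm hms hΓ hΓb hΓd hΓ1
  have hm' : ∀ (z : ℂ) (t : ℝ), 0 ≤ t → m (t • z) = t • m z := fun z t ht => hm z t ht
  obtain ⟨Cm, hCm⟩ := hH ℂ ℝ m hm' hms
  obtain ⟨Cg, hCg⟩ := hH ℂ ℂ Γ hΓ fun z hz => (hΓd z hz).1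
  obtain ⟨Γs, hsb, hsd, hs1⟩ := hE2 Γ hΓ hΓb hΓd hΓ1
  obtain ⟨ms, hmd, hm0, hm1⟩ := exists_ms hms
  obtain ⟨L, hL, hLb⟩ := lip_diff ms m hmd hCm hm1
  obtain ⟨L', hL', hLb'⟩ := lip_diff Γs Γ (fun z => (hsd z).1) hCg hs1
  have hj0 : ∀ w, 1 ≤ ‖w‖ → ms w - m w = 0 := fun w hw => by rw [hm1 w hw, sub_self]
  have hj0' : ∀ w, 1 ≤ ‖w‖ → Γs w - Γ w = 0 := fun w hw => by rw [hs1 w hw, sub_self]
  have hmz : m 0 = 0 := by simpa using hm 0 0 le_rfl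
  have hmle : ∀ z, |m z| ≤ Cm * ‖z‖ := fun z => by
    have := hCm.dist_le_mul z 0
    rwa [hmz, dist_zero_right, dist_zero_right] at this
  refine ⟨(1 + 4 * L + Cm)⁻¹, max 1 (Cg + 3 * L') * (1 + (Cm + 3 * L)) + (L + L' * (1 + Cm + L)),
    by positivity, fun ρ hρ hρ0 hρs => ?_⟩
  have hρ1 : ∀ s s', |ρ s - ρ s'| ≤ |s - s'| := fun s s' => (small_lip hρ s s').1
  have hρ4 : ∀ s s', |ρ s / 4 - ρ s' / 4| ≤ |s - s'| := fun s s' => by
    have h1 := hρ1 s s'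
    have h2 := abs_nonneg (ρ s - ρ s')
    rw [← sub_div, abs_div, abs_of_pos (by norm_num : (0 : ℝ) < 4)]
    linarith
  have hρm : ∀ (s : ℝ) (z : ℂ), |ρ (s + m z) - ρ s| ≤ ‖z‖ := fun s z => by
    have h1 := (small_lip hρ (s + m z) s).2.2
    rw [add_sub_cancel_left] at h1
    have h2 : (1 + Cm) * |ρ (s + m z) - ρ s| ≤ (1 + Cm) * ‖z‖ := by
      have := hmle z
      have := norm_nonneg z
      linarith
    exact le_of_mul_le_mul_left h2 (by positivity)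
  have hρa : ∀ s, 0 < ρ s → ContDiffAt ℝ ∞ ρ s := fun s hs =>
    hρs.contDiffAt ((isOpen_lt continuous_const hρ.continuous).mem_nhds hs)
  have hμL : LipschitzWith (Cm + 3 * L) (sm m ms ρ) := lip_sum hP hCm hL hLb hj0 hρ1
  have hFL : LipschitzWith (Cg + 3 * L') (sm Γ Γs fun s => ρ s / 4) :=
    lip_sum hP hCg hL' hLb' hj0' (r := fun s => ρ s / 4) hρ4
  obtain ⟨hTb, hTd⟩ := hS (ℝ × ℂ) (sm m ms ρ) ((1 : ℝ), (0 : ℂ)) (1 / 2) (by norm_num)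
    hμL.continuous (shear_ineq hP hL hLb hm1 fun s s' => (small_lip hρ s s').2.1)
  have hT : (fun x : ℝ × ℂ => x + sm m ms ρ x • ((1 : ℝ), (0 : ℂ))) =
      fun x : ℝ × ℂ => (x.1 + sm m ms ρ x, x.2) := funext fun x => by ext <;> simp
  rw [hT] at hTb hTd
  have hDL : LipschitzWith (max 1 (Cg + 3 * L'))
      fun p : ℝ × ℂ => (p.1, sm Γ Γs (fun s => ρ s / 4) p) := LipschitzWith.prod_fst.prodMk hFL
  refine ⟨fun q => (q.1 + sm m ms ρ q, sm Γ Γs (fun s => ρ s / 4) (q.1 + sm m ms ρ q, q.2)),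
    (bij_sm hΓ hΓb hsb hs1 fun s => ρ s / 4).comp hTb,
    (hDL.comp (lip_shear hμL)).weaken le_self_add, fun q hq => out_eq hm1 hs1 hρm hq,
    fun q hq => ?_, fun q => ?_⟩
  · refine LD.comp (G := fun p : ℝ × ℂ => (p.1, sm Γ Γs (fun s => ρ s / 4) p))
      (F := fun x : ℝ × ℂ => (x.1 + sm m ms ρ x, x.2))
      (ld_sm hΓ hΓd hsd hs1 (hρ.continuous.div_const 4)
        (fun s hs => (hρa s (by linarith)).div_const 4) ?_)
      (hTd q (smooth_scale hm' hmd (hρa _ hq) hq))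
    by_cases hz : q.2 = 0
    · left
      have h1 : sm m ms ρ q = 0 := by rw [sm_in hm' hq, hz, smul_zero, hm0, smul_zero]
      show 0 < ρ (q.1 + sm m ms ρ q) / 4
      rw [h1, add_zero]
      linarith
    · exact Or.inr hz
  · have hq0 := hρ0 q.1
    by_cases hq : ρ q.1 ≤ ‖q.2‖
    · beta_reduce
      rw [out_eq hm1 hs1 hρm hq, sub_self, norm_zero]
      positivity
    · refine (in_le hmle hLb hLb' hρ0 hρ1 (not_le.1 hq).le).trans ?_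
      refine mul_le_mul_of_nonneg_right ?_ hq0
      rw [NNReal.coe_add]
      refine le_add_of_nonneg_of_le (NNReal.coe_nonneg _) (le_of_eq ?_)
      push_cast
      rfl

end Vale.Agent.P073Z.Sm
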