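import Vale.Agent.P073Z.Sm.Sk

/-!
# P073, smoothing half: block INV
-/

open Set Metric MeasureTheory Topology Filter Function
open scoped ContDiff ENNReal NNReal

noncomputable section

namespace Vale.Agent.P073Z.Sm

namespace INV

variable {X : Type} [NormedAddCommGroup X] [NormedSpace ℝ X] [FiniteDimensional ℝ X]

/-- The derivative as an equivalence. -/
theorem exists_equiv {F : X → X} {x : X} (h : LD F x) :
    ∃ A : X ≃L[ℝ] X, HasStrictFDerivAt F (A : X →L[ℝ] X) x := by
  have hb : Bijective (fderiv ℝ F x : X →ₗ[ℝ] X) :=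
    ⟨h.2, LinearMap.injective_iff_surjective.mp h.2⟩
  refine ⟨(LinearEquiv.ofBijective _ hb).toContinuousLinearEquiv, ?_⟩
  have h1 : ((LinearEquiv.ofBijective _ hb).toContinuousLinearEquiv : X →L[ℝ] X) = fderiv ℝ F x :=
    ContinuousLinearMap.ext fun _ => rfl
  rw [h1]
  exact h.1.hasStrictFDerivAt (by simp)

theorem map_nhds {F : X → X} {x : X} (h : LD F x) : map F (𝓝 x) = 𝓝 (F x) := by
  have := FiniteDimensional.complete ℝ X
  obtain ⟨A, hA⟩ := exists_equiv h
  exact hA.map_nhds_eq_of_equiv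

/-- A local left inverse of a local diffeomorphism is a local diffeomorphism. -/
theorem ld_left_inverse {F G : X → X} {x : X} (h : LD F x) (hG : ∀ᶠ z in 𝓝 x, G (F z) = z) :
    LD G (F x) := by
  have := FiniteDimensional.complete ℝ X
  obtain ⟨A, hA⟩ := exists_equiv h
  refine ⟨?_, ?_⟩
  · have h1 := h.1.to_localInverse hA.hasFDerivAt (by simp)
    exact h1.congr_of_eventuallyEq
      ((h.1.hasStrictFDerivAt' hA.hasFDerivAt (by simp)).localInverse_unique hG)
  · rw [(hA.to_local_left_inverse hG).hasFDerivAt.fderiv]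
    exact A.symm.injective

end INV

theorem blockINV : StmtINV := by
  intro X _ _ _ F U hU hinj hF
  refine ⟨fun V hV hVU => ?_, ?_⟩
  · rw [isOpen_iff_mem_nhds]
    rintro _ ⟨x, hx, rfl⟩
    rw [← INV.map_nhds (hF x (hVU hx))]
    exact image_mem_map (hV.mem_nhds hx)
  · rintro _ ⟨x, hx, rfl⟩
    refine INV.ld_left_inverse (hF x hx) ?_
    filter_upwards [hU.mem_nhds hx] with z hz
    exact hinj.leftInvOn_invFunOn hz

end Vale.Agent.P073Z.Sm
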