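import Vale.Agent.P073Z.Sm.Sk

/-!
# P073, smoothing half: block PERSP
-/

open Set Metric Topology Filter
open scoped NNReal

noncomputable section

namespace Vale.Agent.P073Z.Sm

namespace PERSP

variable {X Y : Type} [NormedAddCommGroup X] [NormedSpace ℝ X] [NormedAddCommGroup Y]
  [NormedSpace ℝ Y] {j : X → Y} {L : ℝ≥0}

theorem same_rho (hj : LipschitzWith L j) (z z' : X) (ρ : ℝ) :
    ‖persp j z ρ - persp j z' ρ‖ ≤ L * ‖z - z'‖ := by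
  unfold persp
  split_ifs with h
  · have h1 := hj.dist_le_mul (ρ⁻¹ • z) (ρ⁻¹ • z')
    rw [dist_eq_norm, dist_eq_norm, ← smul_sub, norm_smul, Real.norm_of_nonneg (inv_pos.2 h).le]
      at h1
    rw [← smul_sub, norm_smul, Real.norm_of_nonneg h.le]
    calc ρ * ‖j (ρ⁻¹ • z) - j (ρ⁻¹ • z')‖ ≤ ρ * (L * (ρ⁻¹ * ‖z - z'‖)) :=
          mul_le_mul_of_nonneg_left h1 h.le
      _ = L * ‖z - z'‖ := by field_simp
  · simp only [sub_self, norm_zero]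
    positivity

theorem same_z (hj : LipschitzWith L j) (hb : ∀ w, ‖j w‖ ≤ L) (h0 : ∀ w, 1 ≤ ‖w‖ → j w = 0)
    (z : X) {ρ ρ' : ℝ} (hle : ρ' ≤ ρ) : ‖persp j z ρ - persp j z ρ'‖ ≤ 2 * L * (ρ - ρ') := by
  have hL : (0 : ℝ) ≤ L := L.2
  have hd : 0 ≤ ρ - ρ' := sub_nonneg.2 hle
  unfold persp
  by_cases h' : 0 < ρ'
  · have h : 0 < ρ := h'.trans_le hle
    rw [if_pos h, if_pos h']
    by_cases hz : ρ ≤ ‖z‖
    · have e1 : j (ρ⁻¹ • z) = 0 := by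
        apply h0
        rw [norm_smul, Real.norm_of_nonneg (inv_pos.2 h).le, le_inv_mul_iff₀ h]
        linarith
      have e2 : j (ρ'⁻¹ • z) = 0 := by
        apply h0
        rw [norm_smul, Real.norm_of_nonneg (inv_pos.2 h').le, le_inv_mul_iff₀ h']
        linarith
      rw [e1, e2]
      simp only [smul_zero, sub_self, norm_zero]
      positivity
    · have hz' : ‖z‖ ≤ ρ := (not_le.1 hz).le
      have e : ρ • j (ρ⁻¹ • z) - ρ' • j (ρ'⁻¹ • z) =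
          (ρ - ρ') • j (ρ⁻¹ • z) + ρ' • (j (ρ⁻¹ • z) - j (ρ'⁻¹ • z)) := by
        rw [sub_smul, smul_sub]; abel
      have h1 := hj.dist_le_mul (ρ⁻¹ • z) (ρ'⁻¹ • z)
      rw [dist_eq_norm, dist_eq_norm, ← sub_smul, norm_smul, Real.norm_eq_abs, abs_sub_comm,
        abs_of_nonneg (sub_nonneg.2 (inv_anti₀ h' hle))] at h1
      have h2 : ρ' * ‖j (ρ⁻¹ • z) - j (ρ'⁻¹ • z)‖ ≤ L * (ρ - ρ') := by
        calc ρ' * ‖j (ρ⁻¹ • z) - j (ρ'⁻¹ • z)‖ ≤ ρ' * (L * ((ρ'⁻¹ - ρ⁻¹) * ‖z‖)) :=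
              mul_le_mul_of_nonneg_left h1 h'.le
          _ ≤ ρ' * (L * ((ρ'⁻¹ - ρ⁻¹) * ρ)) := by
              have := sub_nonneg.2 (inv_anti₀ h' hle)
              gcongr
          _ = L * (ρ - ρ') := by field_simp
      rw [e]
      calc ‖(ρ - ρ') • j (ρ⁻¹ • z) + ρ' • (j (ρ⁻¹ • z) - j (ρ'⁻¹ • z))‖
          ≤ ‖(ρ - ρ') • j (ρ⁻¹ • z)‖ + ‖ρ' • (j (ρ⁻¹ • z) - j (ρ'⁻¹ • z))‖ := norm_add_le _ _
        _ = (ρ - ρ') * ‖j (ρ⁻¹ • z)‖ + ρ' * ‖j (ρ⁻¹ • z) - j (ρ'⁻¹ • z)‖ := by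
            rw [norm_smul, norm_smul, Real.norm_of_nonneg hd, Real.norm_of_nonneg h'.le]
        _ ≤ (ρ - ρ') * L + L * (ρ - ρ') := add_le_add (mul_le_mul_of_nonneg_left (hb _) hd) h2
        _ = 2 * L * (ρ - ρ') := by ring
  · rw [if_neg h']
    split_ifs with h
    · rw [sub_zero, norm_smul, Real.norm_of_nonneg h.le]
      have h1 : ρ * ‖j (ρ⁻¹ • z)‖ ≤ ρ * L := mul_le_mul_of_nonneg_left (hb _) h.le
      have h2 : ρ' ≤ 0 := not_lt.1 h'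
      nlinarith
    · simp only [sub_self, norm_zero]
      positivity

end PERSP

theorem blockPERSP : StmtPERSP := by
  intro X Y _ _ _ _ j L hj hb h0 z z' ρ ρ'
  have h1 := PERSP.same_rho hj z z' ρ
  have h2 : ‖persp j z' ρ - persp j z' ρ'‖ ≤ 2 * L * |ρ - ρ'| := by
    rcases le_total ρ' ρ with hle | hle
    · rw [abs_of_nonneg (sub_nonneg.2 hle)]
      exact PERSP.same_z hj hb h0 z' hle
    · rw [abs_sub_comm, abs_of_nonneg (sub_nonneg.2 hle), norm_sub_rev]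
      exact PERSP.same_z hj hb h0 z' hle
  calc ‖persp j z ρ - persp j z' ρ'‖
      ≤ ‖persp j z ρ - persp j z' ρ‖ + ‖persp j z' ρ - persp j z' ρ'‖ :=
        norm_sub_le_norm_sub_add_norm_sub _ _ _
    _ ≤ _ := add_le_add h1 h2

end Vale.Agent.P073Z.Sm
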