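import Vale.Agent.P073Z.Sm.Sk

/-!
# P073, smoothing half: block SHEAR
-/

open Set Metric Topology Filter
open scoped ContDiff

noncomputable section

namespace Vale.Agent.P073Z.Sm

namespace SHEAR

variable {X : Type} [NormedAddCommGroup X] [NormedSpace ℝ X] {m : X → ℝ} {a : X} {c : ℝ}

theorem inj_aux (hc : 0 < c)
    (h : ∀ (x : X) (τ : ℝ), 0 ≤ τ → c * τ ≤ τ + m (x + τ • a) - m x) {x x' : X}
    (he : x + m x • a = x' + m x' • a) (hle : m x' ≤ m x) : x = x' := by
  have h1 : x' = x + (m x - m x') • a := by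
    rw [sub_smul, ← add_sub_assoc, he, add_sub_cancel_right]
  have h2 := h x (m x - m x') (sub_nonneg.2 hle)
  rw [← h1] at h2
  have h3 : m x - m x' = 0 := by
    have h4 : c * (m x - m x') ≤ 0 := by linarith
    have h5 : 0 ≤ m x - m x' := sub_nonneg.2 hle
    nlinarith
  rw [h1, h3, zero_smul, add_zero]

theorem inj (hc : 0 < c)
    (h : ∀ (x : X) (τ : ℝ), 0 ≤ τ → c * τ ≤ τ + m (x + τ • a) - m x) :
    Function.Injective (fun x => x + m x • a) := by
  intro x x' he
  rcases le_total (m x') (m x) with hle | hle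
  · exact inj_aux hc h he hle
  · exact (inj_aux hc h (Eq.symm he) hle).symm

theorem surj (hc : 0 < c) (hm : Continuous m)
    (h : ∀ (x : X) (τ : ℝ), 0 ≤ τ → c * τ ≤ τ + m (x + τ • a) - m x) :
    Function.Surjective (fun x => x + m x • a) := by
  intro y
  have hφ : Continuous fun s : ℝ => s + m (y + s • a) := by fun_prop
  set τ : ℝ := |m y| / c with hτ
  have hτ0 : 0 ≤ τ := div_nonneg (abs_nonneg _) hc.le
  have hcτ : c * τ = |m y| := by rw [hτ]; field_simp
  have h1 : 0 ≤ τ + m (y + τ • a) := by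
    have := h y τ hτ0
    have h2 := neg_abs_le (m y)
    linarith
  have h2 : -τ + m (y + (-τ) • a) ≤ 0 := by
    have := h (y + (-τ) • a) τ hτ0
    have e : y + (-τ) • a + τ • a = y := by rw [neg_smul]; abel
    rw [e] at this
    have h2 := le_abs_self (m y)
    linarith
  obtain ⟨s, hs⟩ : (0 : ℝ) ∈ range fun s : ℝ => s + m (y + s • a) :=
    intermediate_value_univ (-τ) τ hφ ⟨h2, h1⟩
  refine ⟨y + s • a, ?_⟩
  have hs' : s + m (y + s • a) = 0 := hs
  show y + s • a + m (y + s • a) • a = y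
  rw [add_assoc, ← add_smul, hs', zero_smul, add_zero]

theorem deriv_ge (h : ∀ (x : X) (τ : ℝ), 0 ≤ τ → c * τ ≤ τ + m (x + τ • a) - m x) {x : X}
    (hd : DifferentiableAt ℝ m x) : c ≤ 1 + fderiv ℝ m x a := by
  have h0 : HasDerivAt (fun τ : ℝ => x + τ • a) a 0 := by
    simpa using ((hasDerivAt_id (0 : ℝ)).smul_const a).const_add x
  have h1 : HasDerivAt (fun τ : ℝ => m (x + τ • a)) (fderiv ℝ m x a) 0 := by
    have hx : HasFDerivAt m (fderiv ℝ m x) (x + (0 : ℝ) • a) := by simpa using hd.hasFDerivAt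
    exact hx.comp_hasDerivAt (0 : ℝ) h0
  have h2 := h1.tendsto_slope_zero_right
  have h3 : c - 1 ≤ fderiv ℝ m x a := by
    refine ge_of_tendsto h2 ?_
    filter_upwards [self_mem_nhdsWithin] with t ht
    have ht' : (0 : ℝ) < t := ht
    have := h x t ht'.le
    simp only [zero_add, zero_smul, add_zero, smul_eq_mul]
    rw [le_inv_mul_iff₀ ht']
    linarith
  linarith

theorem ld (hc : 0 < c)
    (h : ∀ (x : X) (τ : ℝ), 0 ≤ τ → c * τ ≤ τ + m (x + τ • a) - m x) {x : X}
    (hx : ContDiffAt ℝ ∞ m x) : LD (fun x => x + m x • a) x := by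
  have hd : DifferentiableAt ℝ m x := hx.differentiableAt (by simp)
  refine ⟨contDiffAt_id.add (hx.smul contDiffAt_const), ?_⟩
  have h1 : HasFDerivAt (fun x => x + m x • a)
      (ContinuousLinearMap.id ℝ X + (fderiv ℝ m x).smulRight a) x :=
    (hasFDerivAt_id x).add (hd.hasFDerivAt.smul_const a)
  rw [h1.fderiv]
  refine (injective_iff_map_eq_zero _).2 fun v hv => ?_
  have hv' : v + fderiv ℝ m x v • a = 0 := by simpa using hv
  have h2 : fderiv ℝ m x v * (1 + fderiv ℝ m x a) = 0 := by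
    have := congrArg (fderiv ℝ m x) hv'
    rw [map_add, map_smul, map_zero, smul_eq_mul] at this
    linarith
  have h3 := deriv_ge h hd
  have h4 : fderiv ℝ m x v = 0 := by
    rcases mul_eq_zero.1 h2 with h5 | h5
    · exact h5
    · linarith
  rw [h4, zero_smul, add_zero] at hv'
  exact hv'

end SHEAR

theorem blockSHEAR : StmtSHEAR := by
  intro X _ _ m a c hc hm h
  exact ⟨⟨SHEAR.inj hc h, SHEAR.surj hc hm h⟩, fun x hx => SHEAR.ld hc h hx⟩

end Vale.Agent.P073Z.Sm
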