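import Vale.Agent.P073Z.Sm.Sk

/-!
# P073, smoothing half: blocks DIST and CV
-/

open Set Metric MeasureTheory Topology Filter
open scoped ContDiff ENNReal NNReal RealInnerProductSpace

noncomputable section

namespace Vale.Agent.P073Z.Sm

namespace DIST

theorem one_le {p : ℝ} (hp : 1 ≤ p) : 1 ≤ ENNReal.ofReal p := ENNReal.one_le_ofReal.2 hp

theorem norm_eq {F : Type} [NormedAddCommGroup F] {p : ℝ} (hp : 1 ≤ p) (f : E → F)
    (μ : Measure E) : eLpNorm f (ENNReal.ofReal p) μ = (∫⁻ x, ‖f x‖ₑ ^ p ∂μ) ^ p⁻¹ := by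
  rw [eLpNorm_eq_lintegral_rpow_enorm_toReal (zero_lt_one.trans_le (one_le hp)).ne'
    ENNReal.ofReal_ne_top, ENNReal.toReal_ofReal (by linarith), one_div]

theorem sub_self_eq {F : Type} [NormedAddCommGroup F] (f : E → F) (q : ℝ≥0∞) (μ : Measure E) :
    eLpNorm (fun x => f x - f x) q μ = 0 := by
  simp

theorem mD (h : E → E) (μ : Measure E) : AEStronglyMeasurable (fun x => fderiv ℝ h x) μ :=
  (measurable_fderiv ℝ h).aestronglyMeasurable

theorem En_congr {p : ℝ} {V : Set E} (hV : MeasurableSet V) {h g : E → E}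
    (e : ∀ x ∈ V, h =ᶠ[𝓝 x] g) : En p V h = En p V g :=
  setLIntegral_congr_fun hV fun x hx => by rw [(e x hx).fderiv_eq]

theorem En_mono {p : ℝ} {V W : Set E} (hVW : V ⊆ W) (h : E → E) : En p V h ≤ En p W h :=
  lintegral_mono_set hVW

theorem En_union (p : ℝ) (V W : Set E) (h : E → E) : En p (V ∪ W) h ≤ En p V h + En p W h :=
  lintegral_union_le _ _ _

theorem near {K : Set E} (hK : IsCompact K) {h h' : E → E} (off : ∀ x, x ∉ K → h' x = h x)
    {x : E} (hx : x ∉ K) : h' =ᶠ[𝓝 x] h := by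
  filter_upwards [hK.isClosed.isOpen_compl.mem_nhds hx] with y hy using off y hy

/-- a function which vanishes off `K` -/
theorem norm_le_of_off {F : Type} [NormedAddCommGroup F] {q : ℝ≥0∞} {Ω K : Set E}
    (hK : MeasurableSet K) {f : E → F} (hf : ∀ x, x ∉ K → f x = 0) :
    eLpNorm f q (volume.restrict Ω) = eLpNorm f q (volume.restrict (K ∩ Ω)) := by
  rw [← Measure.restrict_restrict hK, ← eLpNorm_indicator_eq_eLpNorm_restrict hK]
  congr 1
  exact (indicator_eq_self.2 fun x hx => by_contra fun h => hx (hf x h)).symm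

theorem tri (p : ℝ) (V : Set E) (h k g : E → E) (hp : 1 ≤ p) (hV : IsOpen V)
    (hh : ContinuousOn h V) (hk : ContinuousOn k V) (hg : ContinuousOn g V) :
    Dist p V h g ≤ Dist p V h k + Dist p V k g := by
  have m1 := hh.aestronglyMeasurable (μ := volume) hV.measurableSet
  have m2 := hk.aestronglyMeasurable (μ := volume) hV.measurableSet
  have m3 := hg.aestronglyMeasurable (μ := volume) hV.measurableSet
  have a := eLpNorm_add_le ((mD h (volume.restrict V)).sub (mD k _)) ((mD k _).sub (mD g _))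
    (one_le hp)
  have b := eLpNorm_add_le (m1.sub m2) (m2.sub m3) (one_le hp)
  rw [sub_add_sub_cancel] at a b
  unfold Dist
  rw [add_add_add_comm]
  exact add_le_add a b

theorem chg (p : ℝ) (Λ : Set E) (ε : ℝ≥0∞) (hp : 1 ≤ p) (hΛ : Bornology.IsBounded Λ)
    (hε : 0 < ε) : ∃ δ : ℝ≥0∞, 0 < δ ∧ ∀ (Ω K : Set E) (h h' : E → E), IsOpen Ω → MapsTo h Ω Λ →
      Chg p Ω Λ h h' K δ → Dist p Ω h' h ≤ ε := by
  obtain ⟨η, hη, hηε⟩ := ENNReal.exists_pos_mul_lt (a := 2 + ENNReal.ofReal (diam Λ))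
    (by simp) hε.ne'
  have hp0 : 0 < p := by linarith
  refine ⟨η ^ p, ENNReal.rpow_pos_of_nonneg hη hp0.le, fun Ω K h h' hΩ hh H => ?_⟩
  have hK := H.cpt.isClosed.measurableSet
  have root : ∀ {a : ℝ≥0∞}, a ≤ η ^ p → a ^ p⁻¹ ≤ η := fun ha =>
    (ENNReal.rpow_le_rpow ha (by positivity)).trans_eq (ENNReal.rpow_rpow_inv hp0.ne' η)
  have a : eLpNorm (fun x => fderiv ℝ h' x - fderiv ℝ h x) (ENNReal.ofReal p)
      (volume.restrict Ω) ≤ η + η := by
    rw [norm_le_of_off hK fun x hx => by rw [(near H.cpt H.off hx).fderiv_eq, sub_self]]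
    refine (eLpNorm_mono_measure _ (Measure.restrict_mono inter_subset_left le_rfl)).trans ?_
    refine (eLpNorm_sub_le (mD h' _) (mD h _) (one_le hp)).trans ?_
    rw [norm_eq hp, norm_eq hp]
    exact add_le_add (root H.en') (root H.en)
  have b : eLpNorm (fun x => h' x - h x) (ENNReal.ofReal p) (volume.restrict Ω) ≤
      η * ENNReal.ofReal (diam Λ) := by
    rw [norm_le_of_off hK fun x hx => by rw [H.off x hx, sub_self]]
    refine (eLpNorm_le_of_ae_bound (C := diam Λ) ?_).trans ?_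
    · filter_upwards [ae_restrict_mem (hK.inter hΩ.measurableSet)] with x hx
      rw [← dist_eq_norm]
      exact dist_le_diam_of_mem hΛ (H.homeo.bij.mapsTo hx.2) (hh hx.2)
    · rw [Measure.restrict_apply_univ, ENNReal.toReal_ofReal hp0.le]
      exact mul_le_mul_left (root ((measure_mono inter_subset_left).trans H.vol)) _
  refine (add_le_add a b).trans (le_of_eq_of_le ?_ hηε.le)
  ring

theorem de (p : ℝ) (Ω : Set E) (ε : ℝ≥0∞) (hp : 1 ≤ p) (hΩ : Bornology.IsBounded Ω)
    (hε : 0 < ε) : ∃ δ : ℝ, 0 < δ ∧ ∀ (U : Set E) (h g : E → E), IsOpen U → U ⊆ Ω →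
      DE p U h g ≤ ENNReal.ofReal δ → (∀ x ∈ U, ‖h x - g x‖ ≤ δ) → Dist p U h g ≤ ε := by
  have hp0 : 0 < p := by linarith
  have hv : 1 + volume Ω ^ p⁻¹ ≠ ⊤ := ENNReal.add_ne_top.2 ⟨ENNReal.one_ne_top,
    ENNReal.rpow_ne_top_of_nonneg (by positivity) hΩ.measure_lt_top.ne⟩
  obtain ⟨η, hη, hηε⟩ := ENNReal.exists_nnreal_pos_mul_lt hv hε.ne'
  have hη' : (0 : ℝ) < η := hη
  refine ⟨min ((η : ℝ) ^ p) η, lt_min (by positivity) hη', fun U h g hU hUΩ h1 h2 => ?_⟩
  have a : eLpNorm (fun x => fderiv ℝ h x - fderiv ℝ g x) (ENNReal.ofReal p)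
      (volume.restrict U) ≤ η := by
    rw [norm_eq hp]
    have h3 : DE p U h g ≤ (η : ℝ≥0∞) ^ p := by
      refine h1.trans ((ENNReal.ofReal_le_ofReal (min_le_left _ _)).trans_eq ?_)
      rw [← ENNReal.ofReal_rpow_of_pos hη', ENNReal.ofReal_coe_nnreal]
    exact (ENNReal.rpow_le_rpow h3 (by positivity)).trans_eq (ENNReal.rpow_rpow_inv hp0.ne' _)
  have b : eLpNorm (fun x => h x - g x) (ENNReal.ofReal p) (volume.restrict U) ≤
      volume Ω ^ p⁻¹ * η := by
    refine (eLpNorm_le_of_ae_bound (C := η) ?_).trans ?_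
    · filter_upwards [ae_restrict_mem hU.measurableSet] with x hx
      exact (h2 x hx).trans (min_le_right _ _)
    · rw [Measure.restrict_apply_univ, ENNReal.toReal_ofReal hp0.le, ENNReal.ofReal_coe_nnreal]
      exact mul_le_mul_left (ENNReal.rpow_le_rpow (measure_mono hUΩ) (by positivity)) _
  refine (add_le_add a b).trans (le_of_eq_of_le ?_ hηε.le)
  ring

theorem fin (p : ℝ) (V : Set E) (h g : E → E) (hp : 1 ≤ p) (hg : En p V g < ⊤)
    (hd : Dist p V h g < ⊤) : En p V h < ⊤ := by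
  have hp0 : 0 < p⁻¹ := by positivity
  have a := eLpNorm_add_le ((mD h (volume.restrict V)).sub (mD g _)) (mD g _) (one_le hp)
  rw [sub_add_cancel] at a
  have b : eLpNorm (fun x => fderiv ℝ g x) (ENNReal.ofReal p) (volume.restrict V) < ⊤ := by
    rw [norm_eq hp]
    exact ENNReal.rpow_lt_top_of_nonneg hp0.le hg.ne
  have c := a.trans_lt (ENNReal.add_lt_top.2 ⟨(ENNReal.add_lt_top.1 hd).1, b⟩)
  rw [norm_eq hp] at c
  exact (ENNReal.rpow_lt_top_iff_of_pos hp0).1 c

theorem liminf_add_le {u v : ℕ → ℝ≥0∞} {ε : ℝ≥0∞} (h : ∀ j, u j + v j ≤ ε) :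
    liminf u atTop + liminf v atTop ≤ ε := by
  rw [liminf_eq_iSup_iInf_of_nat, liminf_eq_iSup_iInf_of_nat]
  exact ENNReal.iSup_add_iSup_le fun n m => (add_le_add (iInf₂_le (max n m) (le_max_left n m))
    (iInf₂_le (max n m) (le_max_right n m))).trans (h _)

theorem lim (p : ℝ) (V : Set E) (h : ℕ → E → E) (F g : E → E) (ε : ℝ≥0∞) (hV : IsOpen V)
    (hh : ∀ j, ContinuousOn (h j) V) (hg : ContinuousOn g V)
    (he : ∀ x ∈ V, ∀ᶠ j in atTop, h j =ᶠ[𝓝 x] F) (hd : ∀ j, Dist p V (h j) g ≤ ε) :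
    Dist p V F g ≤ ε := by
  have a := Lp.eLpNorm_lim_le_liminf_eLpNorm (p := ENNReal.ofReal p) (μ := volume.restrict V)
    (f := fun j x => fderiv ℝ (h j) x - fderiv ℝ g x) (fun j => (mD (h j) _).sub (mD g _))
    (fun x => fderiv ℝ F x - fderiv ℝ g x) (by
      filter_upwards [ae_restrict_mem hV.measurableSet] with x hx
      refine tendsto_const_nhds.congr' ?_
      filter_upwards [he x hx] with j hj
      rw [hj.fderiv_eq])
  have b := Lp.eLpNorm_lim_le_liminf_eLpNorm (p := ENNReal.ofReal p) (μ := volume.restrict V)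
    (f := fun j x => h j x - g x) (fun j => ((hh j).aestronglyMeasurable hV.measurableSet).sub
      (hg.aestronglyMeasurable hV.measurableSet)) (fun x => F x - g x) (by
      filter_upwards [ae_restrict_mem hV.measurableSet] with x hx
      refine tendsto_const_nhds.congr' ?_
      filter_upwards [he x hx] with j hj
      rw [hj.self_of_nhds])
  exact (add_le_add a b).trans (liminf_add_le hd)

theorem restrict_diff (V : Set E) {P : Set E} (hP : P.Countable) :
    (volume : Measure E).restrict (V \ P) = volume.restrict V :=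
  Measure.restrict_congr_set (sdiff_null_ae_eq_self (hP.measure_zero _))

theorem trans (p : ℝ) (Ω Λ K K' : Set E) (h h' h'' : E → E) (δ δ' : ℝ≥0∞)
    (H : Chg p Ω Λ h h' K δ) (H' : Chg p Ω Λ h' h'' K' δ') :
    Chg p Ω Λ h h'' (K ∪ K') (δ + δ') := by
  have hK := H.cpt.isClosed.measurableSet
  have hK' := H'.cpt.isClosed.measurableSet
  refine ⟨H.cpt.union H'.cpt, fun x hx => ?_, H'.homeo,
    (measure_union_le _ _).trans (add_le_add H.vol H'.vol), ?_, ?_⟩
  · rw [H'.off x fun h1 => hx (Or.inr h1), H.off x fun h1 => hx (Or.inl h1)]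
  · rw [← sdiff_union_self]
    refine (En_union _ _ _ _).trans (add_le_add ?_ H'.en')
    rw [En_congr (hK.diff hK') fun x hx => near H'.cpt H'.off hx.2]
    exact (En_mono sdiff_subset _).trans H.en'
  · rw [← union_sdiff_self]
    refine (En_union _ _ _ _).trans (add_le_add H.en ?_)
    rw [← En_congr (hK'.diff hK) fun x hx => near H.cpt H.off hx.2]
    exact (En_mono sdiff_subset _).trans H'.en

theorem chgfin (p : ℝ) (Ω Λ K : Set E) (h h' : E → E) (δ : ℝ≥0∞) (hΩ : IsOpen Ω) (hδ : δ < ⊤)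
    (H : Chg p Ω Λ h h' K δ) (hh : En p Ω h < ⊤) : En p Ω h' < ⊤ := by
  have hs : Ω ⊆ K ∪ (Ω \ K) := by
    rw [union_sdiff_self]
    exact subset_union_right
  refine (En_mono hs h').trans_lt
    ((En_union _ _ _ _).trans_lt (ENNReal.add_lt_top.2 ⟨H.en'.trans_lt hδ, ?_⟩))
  rw [En_congr (hΩ.measurableSet.diff H.cpt.isClosed.measurableSet)
    fun x hx => near H.cpt H.off hx.2]
  exact (En_mono sdiff_subset _).trans_lt hh

end DIST

theorem blockDIST : StmtDIST where
  tri := DIST.tri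
  self p V h := by
    unfold Dist
    rw [DIST.sub_self_eq (fun x => fderiv ℝ h x), DIST.sub_self_eq h, add_zero]
  chg := DIST.chg
  de := DIST.de
  fin := DIST.fin
  lim p V h F g ε _ := DIST.lim p V h F g ε
  null p V P h g hP := by
    unfold Dist En
    rw [DIST.restrict_diff V hP]
    exact ⟨rfl, rfl⟩
  trans := DIST.trans
  chgfin := DIST.chgfin

theorem blockCV : StmtCV := by
  intro p c σ k K N hp hc hK hinj hσ hN hk hb
  unfold En
  rw [lintegral_image_eq_lintegral_abs_det_fderiv_mul volume hK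
    (fun x hx => (hσ x hx).hasFDerivAt.hasFDerivWithinAt) hinj,
    ← lintegral_const_mul' _ _ ENNReal.ofReal_ne_top]
  refine lintegral_mono_ae ?_
  filter_upwards [ae_restrict_mem hK, ae_restrict_of_ae (hN.ae_notMem volume)] with x hx hxN
  have e : fderiv ℝ (fun x => k (σ x)) x = (fderiv ℝ k (σ x)).comp (fderiv ℝ σ x) :=
    fderiv_comp x (hk x hx hxN) (hσ x hx)
  rw [e, ← mul_assoc, ← ENNReal.ofReal_mul hc, mul_comm]
  refine (ENNReal.rpow_le_rpow (ContinuousLinearMap.opENorm_comp_le _ _) hp).trans ?_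
  rw [ENNReal.mul_rpow_of_nonneg _ _ hp]
  refine mul_le_mul_right ?_ _
  rw [← ofReal_norm, ENNReal.ofReal_rpow_of_nonneg (norm_nonneg _) hp]
  exact ENNReal.ofReal_le_ofReal (hb x hx)

end Vale.Agent.P073Z.Sm
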