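import Vale.Agent.P073Z.Sm.Sk

/-!
# P073, smoothing half: block E2 (smoothing of a planar cone map)

The cone map is lifted through the exponential; in logarithmic coordinates the smoothing is a
composition of two shears.
-/

open Set Metric MeasureTheory Topology Filter Complex
open scoped ContDiff Real

noncomputable section

namespace Vale.Agent.P073Z.Sm

namespace E2

theorem exists_min {f : ℝ → ℝ} (hf : Continuous f) (hp : Function.Periodic f (2 * π)) :
    ∃ t0, ∀ t, f t0 ≤ f t := by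
  have h2 : (0 : ℝ) < 2 * π := by positivity
  obtain ⟨t0, -, h0⟩ := (isCompact_Icc (a := (0 : ℝ)) (b := 2 * π)).exists_isMinOn
    ⟨0, left_mem_Icc.2 h2.le⟩ hf.continuousOn
  refine ⟨t0, fun t => ?_⟩
  obtain ⟨y, hy, hfy⟩ := hp.exists_mem_Ico₀ h2 t
  rw [hfy]
  exact h0 (Ico_subset_Icc_self hy)

theorem euler {Γ : ℂ → ℂ} (hh : ∀ (z : ℂ) (t : ℝ), 0 ≤ t → Γ (t • z) = t • Γ z) {z : ℂ}
    (hd : DifferentiableAt ℝ Γ z) : fderiv ℝ Γ z z = Γ z := by
  have h1 : HasDerivAt (fun s : ℝ => s • z) z 1 := by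
    simpa using (hasDerivAt_id (1 : ℝ)).smul_const z
  have hd' : HasFDerivAt Γ (fderiv ℝ Γ z) ((1 : ℝ) • z) := by
    rw [one_smul]; exact hd.hasFDerivAt
  have h2 : HasDerivAt (fun s : ℝ => Γ (s • z)) (fderiv ℝ Γ z z) 1 :=
    hd'.comp_hasDerivAt (1 : ℝ) h1
  have h3 : HasDerivAt (fun s : ℝ => s • Γ z) (Γ z) 1 := by
    simpa using (hasDerivAt_id (1 : ℝ)).smul_const (Γ z)
  have h4 : (fun s : ℝ => Γ (s • z)) =ᶠ[𝓝 1] fun s : ℝ => s • Γ z := by
    filter_upwards [lt_mem_nhds (zero_lt_one : (0 : ℝ) < 1)] with s hs using hh z s hs.le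
  exact h2.unique (h3.congr_of_eventuallyEq h4)

theorem hasDerivAt_circ (t : ℝ) :
    HasDerivAt (fun s : ℝ => cexp (s * I)) (I * cexp (t * I)) t := by
  have h1 : HasDerivAt (fun s : ℝ => (s : ℂ) * I) I t := by
    simpa using (ofRealCLM.hasDerivAt (x := t)).mul_const I
  simpa [mul_comm] using h1.cexp

theorem contDiff_circ : ContDiff ℝ ∞ (fun s : ℝ => cexp (s * I)) :=
  Complex.contDiff_exp.comp (ofRealCLM.contDiff.mul contDiff_const)

/-- The logarithmic lift of a cone map on the unit circle. -/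
theorem exists_lift (Γ : ℂ → ℂ) (hh : ∀ (z : ℂ) (t : ℝ), 0 ≤ t → Γ (t • z) = t • Γ z)
    (hi : Function.Injective Γ) (hL : ∀ z, z ≠ 0 → LD Γ z)
    (h1 : ∀ᶠ z in 𝓝 (-1 : ℂ), Γ z = z) :
    ∃ ψ : ℝ → ℂ, ContDiff ℝ ∞ ψ ∧ (∀ t : ℝ, cexp (ψ t) = Γ (cexp (t * I))) ∧
      (∀ t, ψ (t + 2 * π) = ψ t + 2 * π * I) ∧
      ∃ c : ℝ, 0 < c ∧ ∀ t τ : ℝ, 0 ≤ τ → c * τ ≤ (ψ (t + τ)).im - (ψ t).im := by
  have h0 : Γ 0 = 0 := by simpa using hh 0 0 le_rfl
  set γ : ℝ → ℂ := fun t => Γ (cexp (t * I)) with hγ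
  have hγs : ContDiff ℝ ∞ γ := contDiff_iff_contDiffAt.2 fun t =>
    (hL _ (exp_ne_zero _)).1.comp t contDiff_circ.contDiffAt
  have hγ0 : ∀ t, γ t ≠ 0 := fun t h => exp_ne_zero _ (hi (h.trans h0.symm))
  have hγd : ∀ t : ℝ, HasDerivAt γ (fderiv ℝ Γ (cexp (t * I)) (I * cexp (t * I))) t := fun t =>
    (hL _ (exp_ne_zero _)).differentiableAt.hasFDerivAt.comp_hasDerivAt t (hasDerivAt_circ t)
  set g : ℝ → ℂ := fun t => deriv γ t / γ t with hg
  have hgs : ContDiff ℝ ∞ g := by
    have := (contDiff_infty_iff_deriv.1 hγs).2.mul (hγs.inv hγ0)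
    simpa only [hg, div_eq_mul_inv, Pi.inv_apply] using this
  have hgc : Continuous g := hgs.continuous
  have hγp : Function.Periodic γ (2 * π) := fun t => by
    simp only [hγ]
    congr 1
    push_cast
    rw [add_mul, exp_add, exp_two_pi_mul_I, mul_one]
  have hgp : Function.Periodic g (2 * π) := fun t => by
    simp only [hg]
    rw [hγp t]
    congr 1
    have : (fun s => γ (s + 2 * π)) = γ := funext hγp
    rw [← deriv_comp_add_const, this]
  -- the imaginary part of `g` does not vanish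
  have hgne : ∀ t, (g t).im ≠ 0 := by
    intro t ht
    have hz := hL _ (exp_ne_zero ((t : ℂ) * I))
    have e1 : deriv γ t = (g t).re • γ t := by
      have : (((g t).re : ℝ) : ℂ) = g t := by
        apply Complex.ext <;> simp [ht]
      rw [real_smul, this, hg]
      exact (div_mul_cancel₀ _ (hγ0 t)).symm
    have e2 : fderiv ℝ Γ (cexp (t * I)) (I * cexp (t * I)) =
        fderiv ℝ Γ (cexp (t * I)) ((g t).re • cexp (t * I)) := by
      rw [map_smul, euler hh hz.differentiableAt, ← (hγd t).deriv, e1]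
    have e3 := hz.2 e2
    rw [real_smul] at e3
    have e4 := congrArg Complex.im (mul_right_cancel₀ (exp_ne_zero _) e3)
    simp at e4
  have hπ : cexp ((π : ℝ) * I) = -1 := exp_pi_mul_I
  have hγπ : γ π = -1 := by simp only [hγ]; rw [hπ]; exact h1.self_of_nhds
  have hgπ : g π = I := by
    have hev : γ =ᶠ[𝓝 π] fun s : ℝ => cexp (s * I) := by
      have ht : Tendsto (fun s : ℝ => cexp (s * I)) (𝓝 π) (𝓝 (-1)) := by
        rw [← hπ]; exact contDiff_circ.continuous.tendsto π
      exact ht.eventually h1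
    simp only [hg]
    rw [hev.deriv_eq, (hasDerivAt_circ π).deriv, hγπ, hπ]
    simp
  have hgpos : ∀ t, 0 < (g t).im := by
    intro t
    by_contra hle
    have hc : Continuous fun s => (g s).im := continuous_im.comp hgc
    have hmem : (0 : ℝ) ∈ Icc ((g t).im) ((g π).im) := ⟨not_lt.1 hle, by rw [hgπ]; simp⟩
    obtain ⟨s, hs⟩ := intermediate_value_univ t π hc hmem
    exact hgne s hs
  set ψ : ℝ → ℂ := fun t => π * I + ∫ s in π..t, g s with hψ
  have hψd : ∀ t, HasDerivAt ψ (g t) t := fun t =>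
    (hgc.integral_hasStrictDerivAt π t).hasDerivAt.const_add _
  have hψπ : ψ π = π * I := by simp [hψ]
  have hψs : ContDiff ℝ ∞ ψ := by
    refine contDiff_infty_iff_deriv.2 ⟨fun t => (hψd t).differentiableAt, ?_⟩
    have : deriv ψ = g := funext fun t => (hψd t).deriv
    rw [this]; exact hgs
  have hexp : ∀ t, cexp (ψ t) = γ t := by
    have hd : ∀ t, HasDerivAt (fun s => γ s * cexp (-ψ s)) 0 t := by
      intro t
      have a1 := (hγs.differentiable (by simp) t).hasDerivAt
      have a2 := (hψd t).neg.cexp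
      have a3 := a1.mul a2
      have a4 : deriv γ t * cexp ((-ψ) t) + γ t * (cexp ((-ψ) t) * -g t) = 0 := by
        have : γ t * g t = deriv γ t := mul_div_cancel₀ _ (hγ0 t)
        rw [← this]; ring
      rw [a4] at a3
      exact a3
    have hc := is_const_of_deriv_eq_zero (fun t => (hd t).differentiableAt)
      (fun t => (hd t).deriv)
    intro t
    have := hc t π
    simp only [hγπ, hψπ] at this
    rw [exp_neg, exp_neg, hπ] at this
    field_simp [exp_ne_zero (ψ t)] at this
    rw [this]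
  have hcim : Continuous fun s => (g s).im := continuous_im.comp hgc
  obtain ⟨t0, ht0⟩ := exists_min hcim (fun t => by simp only [hgp t])
  have himd : ∀ t, HasDerivAt (fun s => (ψ s).im) (g t).im t := fun t =>
    imCLM.hasFDerivAt.comp_hasDerivAt t (hψd t)
  have hmono : ∀ t τ : ℝ, 0 ≤ τ → (g t0).im * τ ≤ (ψ (t + τ)).im - (ψ t).im := by
    intro t τ hτ
    have := mul_sub_le_image_sub_of_le_deriv (f := fun s => (ψ s).im)
      (fun s => (himd s).differentiableAt) (C := (g t0).im)
      (fun s => by rw [(himd s).deriv]; exact ht0 s) (x := t) (y := t + τ) (by linarith)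
    simpa using this
  refine ⟨ψ, hψs, hexp, ?_, (g t0).im, hgpos t0, hmono⟩
  -- the period
  have hK : ∀ t, ψ (t + 2 * π) - ψ t = ψ (π + 2 * π) - ψ π := by
    have hd : ∀ t, HasDerivAt (fun s => ψ (s + 2 * π) - ψ s) 0 t := by
      intro t
      have a1 := (hψd (t + 2 * π)).comp_add_const t (2 * π)
      have a2 := a1.sub (hψd t)
      rw [hgp t, sub_self] at a2
      exact a2
    intro t
    exact is_const_of_deriv_eq_zero (fun t => (hd t).differentiableAt)
      (fun t => (hd t).deriv) t π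
  have hee : cexp (ψ (π + 2 * π)) = cexp (ψ π) := by rw [hexp, hexp, hγp π]
  obtain ⟨n, hn⟩ := exp_eq_exp_iff_exists_int.1 hee
  have hnim : (ψ (π + 2 * π)).im = π + n * (2 * π) := by
    rw [hn, hψπ]; simp
  have hπim : (ψ π).im = π := by rw [hψπ]; simp
  have hpi := Real.pi_pos
  have hn0 : (0 : ℝ) < n := by
    have a1 := hmono π (2 * π) (by positivity)
    have a2 : 0 < (g t0).im * (2 * π) := mul_pos (hgpos t0) (by positivity)
    rw [hnim, hπim] at a1
    by_contra hle
    have : (n : ℝ) * (2 * π) ≤ 0 := mul_nonpos_of_nonpos_of_nonneg (not_lt.1 hle) (by positivity)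
    linarith
  have hn1 : n = 1 := by
    by_contra hne
    have a0 : (0 : ℤ) < n := by exact_mod_cast hn0
    have a1 : (2 : ℤ) ≤ n := by omega
    have a2 : (2 : ℝ) ≤ n := by exact_mod_cast a1
    have hc : Continuous fun s => (ψ s).im := continuous_im.comp hψs.continuous
    have hmem : π + 2 * π ∈ Ioo ((ψ π).im) ((ψ (π + 2 * π)).im) := by
      rw [hnim, hπim]
      constructor <;> nlinarith
    obtain ⟨s, hs, hs'⟩ := intermediate_value_Ioo (by linarith : π ≤ π + 2 * π)
      hc.continuousOn hmem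
    have b1 : Γ (cexp (s * I)) = Γ (Real.exp (ψ s).re • (-1 : ℂ)) := by
      rw [hh _ _ (Real.exp_pos _).le, h1.self_of_nhds]
      have b0 := hexp s
      simp only [hγ] at b0
      rw [← b0]
      conv_lhs => rw [← re_add_im (ψ s)]
      have hs'' : (ψ s).im = π + 2 * π := hs'
      rw [hs'', exp_add]
      push_cast
      rw [add_mul, exp_add, exp_two_pi_mul_I, exp_pi_mul_I]
      simp
    have b2 := hi b1
    have b3 : Real.exp (ψ s).re = 1 := by
      have := congrArg norm b2
      rw [norm_exp_ofReal_mul_I, norm_smul, norm_neg, norm_one, mul_one,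
        Real.norm_of_nonneg (Real.exp_pos _).le] at this
      exact this.symm
    rw [b3, one_smul, ← hπ] at b2
    obtain ⟨k, hk⟩ := exp_eq_exp_iff_exists_int.1 b2
    have b4 : s = π + k * (2 * π) := by simpa using congrArg Complex.im hk
    have b5 : (0 : ℝ) < k := by
      by_contra hle
      have : (k : ℝ) * (2 * π) ≤ 0 :=
        mul_nonpos_of_nonpos_of_nonneg (not_lt.1 hle) (by positivity)
      linarith [hs.1]
    have b6 : (1 : ℝ) ≤ k := by
      have : (0 : ℤ) < k := by exact_mod_cast b5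
      exact_mod_cast this
    nlinarith [hs.2]
  intro t
  have := hK t
  rw [hn, hn1] at this
  rw [sub_eq_iff_eq_add.1 this]
  push_cast
  ring

theorem ld_of_hasDerivAt {f : ℂ → ℂ} {z f' : ℂ} (hs : ContDiffAt ℝ ∞ f z)
    (hd : HasDerivAt f f' z) (h0 : f' ≠ 0) : LD f z := by
  refine ⟨hs, ?_⟩
  rw [(hd.hasFDerivAt.restrictScalars ℝ).fderiv]
  intro u v huv
  have : u * f' = v * f' := by simpa using huv
  exact mul_right_cancel₀ h0 this

/-- Descent of a map through the exponential. -/
theorem descend (F : ℂ → ℂ) (hb : Function.Bijective F) (hL : ∀ w, LD F w)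
    (hp : ∀ w, F (w + 2 * π * I) = F w + 2 * π * I) (c : ℂ)
    (hc : ∀ w : ℂ, w.re ≤ -1 → F w = w + c) :
    ∃ G : ℂ → ℂ, Function.Bijective G ∧ (∀ z, LD G z) ∧ ∀ w, G (cexp w) = cexp (F w) := by
  classical
  have hpn : ∀ (n : ℤ) (w : ℂ), F (w + n * (2 * π * I)) = F w + n * (2 * π * I) := by
    have hper : Function.Periodic (fun w => F w - w) (2 * π * I) := fun w => by
      simp only [hp w]; ring
    intro n w
    have : F (w + n * (2 * π * I)) - (w + n * (2 * π * I)) = F w - w := hper.int_mul n w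
    linear_combination this
  set G : ℂ → ℂ := fun z => if z = 0 then 0 else cexp (F (log z)) with hG
  have hG0 : G 0 = 0 := by simp [hG]
  have hGe : ∀ w, G (cexp w) = cexp (F w) := by
    intro w
    have h1 : cexp (log (cexp w)) = cexp w := exp_log (exp_ne_zero w)
    obtain ⟨n, hn⟩ := exp_eq_exp_iff_exists_int.1 h1
    simp only [hG, if_neg (exp_ne_zero w)]
    rw [hn, hpn]
    exact exp_eq_exp_iff_exists_int.2 ⟨n, rfl⟩
  have hex : ∀ z : ℂ, z ≠ 0 → ∃ w, cexp w = z := fun z hz => ⟨log z, exp_log hz⟩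
  refine ⟨G, ⟨?_, ?_⟩, ?_, hGe⟩
  · intro z1 z2 h
    by_cases h1 : z1 = 0
    · by_cases h2 : z2 = 0
      · rw [h1, h2]
      · obtain ⟨w, rfl⟩ := hex z2 h2
        rw [h1, hG0, hGe] at h
        exact absurd h.symm (exp_ne_zero _)
    · obtain ⟨w1, rfl⟩ := hex z1 h1
      by_cases h2 : z2 = 0
      · rw [h2, hG0, hGe] at h
        exact absurd h (exp_ne_zero _)
      · obtain ⟨w2, rfl⟩ := hex z2 h2
        rw [hGe, hGe] at h
        obtain ⟨n, hn⟩ := exp_eq_exp_iff_exists_int.1 h
        rw [← hpn] at hn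
        exact exp_eq_exp_iff_exists_int.2 ⟨n, hb.1 hn⟩
  · intro y
    by_cases hy : y = 0
    · exact ⟨0, by rw [hG0, hy]⟩
    · obtain ⟨u, rfl⟩ := hex y hy
      obtain ⟨w, rfl⟩ := hb.2 u
      exact ⟨cexp w, hGe w⟩
  · intro z
    by_cases hz : z = 0
    · subst hz
      have hl : LD (fun y : ℂ => y * cexp c) 0 :=
        ld_of_hasDerivAt (contDiffAt_id.mul contDiffAt_const)
          (by simpa using (hasDerivAt_id (0 : ℂ)).mul_const (cexp c)) (exp_ne_zero c)
      refine hl.congr ?_
      filter_upwards [ball_mem_nhds (0 : ℂ) (Real.exp_pos (-1))] with y hy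
      by_cases hy0 : y = 0
      · rw [hy0, hG0, zero_mul]
      · obtain ⟨w, rfl⟩ := hex y hy0
        rw [mem_ball_zero_iff, norm_exp, Real.exp_lt_exp] at hy
        rw [hGe, hc w hy.le, exp_add]
    · obtain ⟨w0, rfl⟩ := hex z hz
      have hs : cexp w0 / cexp w0 ∈ slitPlane := by
        rw [div_self hz]; exact one_mem_slitPlane
      have hd : HasDerivAt (fun y : ℂ => w0 + log (y / cexp w0))
          ((1 / cexp w0) / (cexp w0 / cexp w0)) (cexp w0) :=
        (((hasDerivAt_id (cexp w0)).div_const (cexp w0)).clog hs).const_add w0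
      have hsm : ContDiffAt ℝ ∞ (fun y : ℂ => w0 + log (y / cexp w0)) (cexp w0) := by
        have a1 : ContDiffAt ℝ ∞ log (cexp w0 / cexp w0) :=
          (Complex.contDiffAt_log hs).restrict_scalars ℝ
        exact contDiffAt_const.add
          (ContDiffAt.comp (g := log) (cexp w0) a1 (contDiffAt_id.div_const _))
      have l1 : LD (fun y : ℂ => w0 + log (y / cexp w0)) (cexp w0) :=
        ld_of_hasDerivAt hsm hd (by rw [div_self hz]; simp)
      have l2 := (hL _).comp l1
      have l3 : ∀ u, LD cexp u := fun u =>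
        ld_of_hasDerivAt Complex.contDiff_exp.contDiffAt (hasDerivAt_exp u) (exp_ne_zero u)
      refine ((l3 _).comp l2).congr ?_
      filter_upwards [isOpen_ne.mem_nhds hz] with y hy
      rw [← hGe, exp_add, exp_log (div_ne_zero hy hz), mul_div_cancel₀ _ hz]

end E2

open E2 in
theorem blockE2 (hSH : StmtSHEAR) : StmtE2 := by
  intro Γ hh hb hL h1
  obtain ⟨ψ, hψs, hexp, hper, c', hc', hmono⟩ := exists_lift Γ hh hb.1 hL h1
  have hψc := hψs.continuous
  obtain ⟨t0, ht0⟩ := exists_min (f := fun t => (ψ t).re) (continuous_re.comp hψc)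
    (fun t => by simp [hper t])
  set c : ℝ := (ψ t0).re with hc
  have hres : ContDiff ℝ ∞ (fun w : ℂ => w.re) := reCLM.contDiff
  have hims : ContDiff ℝ ∞ (fun w : ℂ => w.im) := imCLM.contDiff
  have hst : ContDiff ℝ ∞ Real.smoothTransition := Real.smoothTransition.contDiff
  set m1 : ℂ → ℝ := fun w => c + Real.smoothTransition (w.re + 1) * ((ψ w.im).re - c) with hm1
  set m2 : ℂ → ℝ := fun w => Real.smoothTransition (w.re - c + 1) * ((ψ w.im).im - w.im)
    with hm2
  have hm1s : ContDiff ℝ ∞ m1 :=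
    contDiff_const.add ((hst.comp (hres.add contDiff_const)).mul
      ((hres.comp (hψs.comp hims)).sub contDiff_const))
  have hm2s : ContDiff ℝ ∞ m2 :=
    (hst.comp ((hres.sub contDiff_const).add contDiff_const)).mul
      ((hims.comp (hψs.comp hims)).sub hims)
  obtain ⟨hb1, hL1⟩ := hSH ℂ m1 1 1 one_pos hm1s.continuous (by
    intro w τ hτ
    have a1 : Real.smoothTransition (w.re + 1) ≤ Real.smoothTransition (w.re + τ + 1) :=
      Real.smoothTransition.monotone (by linarith)
    have a2 : 0 ≤ (ψ w.im).re - c := sub_nonneg.2 (ht0 _)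
    have a3 := mul_le_mul_of_nonneg_right a1 a2
    have e1 : (w + τ • (1 : ℂ)).re = w.re + τ := by simp
    have e2 : (w + τ • (1 : ℂ)).im = w.im := by simp
    simp only [hm1, e1, e2]
    linarith)
  obtain ⟨hb2, hL2⟩ := hSH ℂ m2 I (min 1 c') (lt_min one_pos hc') hm2s.continuous (by
    intro w τ hτ
    have e1 : (w + τ • I).re = w.re := by simp
    have e2 : (w + τ • I).im = w.im + τ := by simp
    simp only [hm2, e1, e2]
    have a0 := Real.smoothTransition.nonneg (w.re - c + 1)
    have a1 := Real.smoothTransition.le_one (w.re - c + 1)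
    have a2 := hmono w.im τ hτ
    have a3 : min 1 c' * τ ≤ 1 * τ := mul_le_mul_of_nonneg_right (min_le_left _ _) hτ
    have a4 : min 1 c' * τ ≤ c' * τ := mul_le_mul_of_nonneg_right (min_le_right _ _) hτ
    have a5 := mul_le_mul_of_nonneg_left (a4.trans a2) a0
    have a6 := mul_le_mul_of_nonneg_left a3 (sub_nonneg.2 a1)
    nlinarith)
  set R1 : ℂ → ℂ := fun w => w + m1 w • (1 : ℂ) with hR1
  set R2 : ℂ → ℂ := fun w => w + m2 w • I with hR2
  have p1 : ∀ w, R1 (w + 2 * π * I) = R1 w + 2 * π * I := by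
    intro w
    have e1 : (w + 2 * π * I).re = w.re := by simp
    have e2 : (w + 2 * π * I).im = w.im + 2 * π := by simp
    have e3 : m1 (w + 2 * π * I) = m1 w := by
      simp only [hm1, e1, e2, hper]; simp
    simp only [hR1, e3]; ring
  have p2 : ∀ w, R2 (w + 2 * π * I) = R2 w + 2 * π * I := by
    intro w
    have e1 : (w + 2 * π * I).re = w.re := by simp
    have e2 : (w + 2 * π * I).im = w.im + 2 * π := by simp
    have e3 : m2 (w + 2 * π * I) = m2 w := by
      simp only [hm2, e1, e2, hper]; simp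
    simp only [hR2, e3]; ring
  obtain ⟨G, hGb, hGL, hGe⟩ := descend (fun w => R2 (R1 w)) (hb2.comp hb1)
    (fun w => (hL2 _ hm2s.contDiffAt).comp (hL1 w hm1s.contDiffAt))
    (fun w => by simp only [p1, p2]) (c : ℂ) (by
      intro w hw
      have e1 : m1 w = c := by
        simp only [hm1]
        rw [Real.smoothTransition.zero_of_nonpos (by linarith)]; ring
      have e2 : R1 w = w + c := by simp only [hR1, e1]; simp
      have e3 : m2 (w + c) = 0 := by
        simp only [hm2]
        rw [Real.smoothTransition.zero_of_nonpos (by simp; linarith)]; ring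
      simp only [e2, hR2, e3]; simp)
  refine ⟨G, hGb, hGL, fun z hz => ?_⟩
  have hz0 : z ≠ 0 := by
    rintro rfl
    norm_num at hz
  obtain ⟨w, rfl⟩ : ∃ w, cexp w = z := ⟨log z, exp_log hz0⟩
  have hw : 0 ≤ w.re := by
    rw [norm_exp] at hz
    exact Real.one_le_exp_iff.1 hz
  have e1 : m1 w = (ψ w.im).re := by
    simp only [hm1]
    rw [Real.smoothTransition.one_of_one_le (by linarith)]; ring
  have e2 : R1 w = w + (ψ w.im).re := by simp only [hR1, e1]; simp
  have e3 : m2 (w + (ψ w.im).re) = (ψ w.im).im - w.im := by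
    have a := ht0 w.im
    simp only [hm2]
    rw [Real.smoothTransition.one_of_one_le (by simp; linarith)]; simp
  have e4 : R2 (R1 w) = (w.re : ℂ) + ψ w.im := by
    simp only [e2, hR2, e3]
    apply Complex.ext <;> simp
  rw [hGe, e4, exp_add, hexp]
  conv_rhs => rw [← re_add_im w, exp_add]
  have := hh (cexp (w.im * I)) (Real.exp w.re) (Real.exp_pos _).le
  simpa using this.symm

end Vale.Agent.P073Z.Sm
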