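import Vale.Agent.P073Z.Sm.EXH

/-!
# P073, smoothing half: filling in the punctures
-/

open Set Metric Topology Filter

noncomputable section

namespace Vale.Agent.P073Z.Sm

namespace ENDS

theorem nhds_diff (hL : StmtLF) {Ω P : Set E} (hΩ : IsOpen Ω) (hP : LocFin P Ω) {p : E}
    (hp : p ∈ Ω) : Ω \ (P \ {p}) ∈ 𝓝 p :=
  ((hL P Ω hΩ hP).2 _ sdiff_subset).mem_nhds ⟨hp, fun h => h.2 rfl⟩

theorem key (hC : StmtCONN) (hL : StmtLF) (hE : StmtEXH) {F : E → E} {Ω Λ P P' : Set E}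
    (hΩ : IsOpen Ω) (hΛ : IsOpen Λ) (hP : LocFin P Ω) (hP' : LocFin P' Λ)
    (hF : Homeo F (Ω \ P) (Λ \ P')) {p q : E} (hp : p ∈ P) (hq : q ∈ Λ)
    (hcl : ∀ U ∈ 𝓝 p, ∀ V ∈ 𝓝 q, ∃ y ∈ U, y ∉ P ∧ F y ∈ V) : Tendsto F (𝓝[≠] p) (𝓝 q) := by
  intro V hV
  obtain ⟨e, he, heV⟩ := nhds_basis_closedBall.mem_iff.1 (inter_mem hV (nhds_diff hL hΛ hP' hq))
  have hS : sphere q e ⊆ Λ \ P' := fun y hy =>
    ⟨(heV (sphere_subset_closedBall hy)).2.1, fun h => (heV (sphere_subset_closedBall hy)).2.2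
      ⟨h, fun h1 => he.ne' (by rw [mem_singleton_iff.1 h1, mem_sphere, dist_self] at hy
                               exact hy.symm)⟩⟩
  have hK := (hE.pre F _ _ _ ((hL P Ω hΩ hP).2 _ subset_rfl) ((hL P' Λ hΛ hP').2 _ subset_rfl) hF
    (isCompact_sphere q e) hS).1
  obtain ⟨r, hr, hrU⟩ := Metric.mem_nhds_iff.1 (inter_mem
    (hK.isClosed.isOpen_compl.mem_nhds fun h => h.1.2 hp) (nhds_diff hL hΩ hP (hP.1 hp)))
  have hB : ball p r \ {p} ⊆ Ω \ P := fun y hy =>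
    ⟨(hrU hy.1).2.1, fun h => (hrU hy.1).2.2 ⟨h, hy.2⟩⟩
  have h1 := (hC _ _ isOpen_ball (convex_ball p r).isPreconnected (countable_singleton p)).image F
    (hF.cont.mono hB)
  obtain ⟨y, hy, hyP, hyF⟩ := hcl _ (ball_mem_nhds p hr) _ (ball_mem_nhds q he)
  have h2 : F '' (ball p r \ {p}) ⊆ ball q e := by
    refine h1.subset_left_of_subset_union isOpen_ball isClosed_closedBall.isOpen_compl
      (disjoint_compl_right_iff_subset.2 ball_subset_closedBall) ?_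
      ⟨F y, ⟨y, ⟨hy, fun h => hyP (mem_singleton_iff.1 h ▸ hp)⟩, rfl⟩, hyF⟩
    rintro _ ⟨z, hz, rfl⟩
    rcases lt_trichotomy (dist (F z) q) e with h | h | h
    · exact Or.inl h
    · exact absurd ⟨hB hz, h⟩ (hrU hz.1).1
    · exact Or.inr (not_le.2 h)
  refine mem_map.2 <| mem_of_superset (sdiff_mem_nhdsWithin_compl (ball_mem_nhds p hr) {p}) fun z hz => ?_
  exact (heV (ball_subset_closedBall (h2 ⟨z, hz, rfl⟩))).1

end ENDS

open ENDS in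
theorem blockENDS (hC : StmtCONN) (hL : StmtLF) (hE : StmtEXH) : StmtENDS := by
  intro g F Ω Λ P Q hΩ hΛ hg hP hF hFP hQ hFQ hcl
  have hP' : LocFin (g '' P) Λ := by
    refine ⟨image_subset_iff.2 fun x hx => hg.bij.mapsTo (hP.1 hx), fun K hK hKΛ => ?_⟩
    refine ((hP.2 _ (hE.pre g Ω Λ K hΩ hΛ hg hK hKΛ).1 inter_subset_left).image g).subset ?_
    rintro _ ⟨⟨x, hx, rfl⟩, h⟩
    exact ⟨x, ⟨hx, hP.1 hx, h⟩, rfl⟩
  have hO := (hL P Ω hΩ hP).2 _ subset_rfl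
  obtain ⟨hk, hi⟩ := EXH.inv hO hF
  have hQ' : ∀ p ∈ P, ∀ U ∈ 𝓝 p, ∀ V ∈ 𝓝 (g p), ∃ y ∈ U, y ∈ Q ∧ F y ∈ V := by
    intro p hp U hU V hV
    obtain ⟨y, hy, hyQ⟩ := mem_closure_iff_nhds.1 (hcl p hp) _
      (inter_mem hU (hg.cont.continuousAt (hΩ.mem_nhds (hP.1 hp)) hV))
    exact ⟨y, hy.1, hyQ, by rw [hFQ y hyQ]; exact hy.2⟩
  refine ⟨fun x hx => ContinuousAt.continuousWithinAt ?_, ?_, fun V hV hVΩ => ?_⟩
  · by_cases hxP : x ∈ P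
    · rw [← continuousWithinAt_compl_self, ContinuousWithinAt, hFP x hxP]
      refine key hC hL hE hΩ hΛ hP hP' hF hxP (hg.bij.mapsTo hx) fun U hU W hW => ?_
      obtain ⟨y, h1, h2, h3⟩ := hQ' x hxP U hU W hW
      exact ⟨y, h1, (hQ h2).2, h3⟩
    · exact hF.cont.continuousAt (hO.mem_nhds ⟨hx, hxP⟩)
  · have h1 : BijOn F P (g '' P) :=
      (hg.bij.injOn.mono hP.1).bijOn_image.congr fun x hx => (hFP x hx).symm
    refine ⟨fun x hx => ?_, fun x hx y hy hxy => ?_, fun y hy => ?_⟩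
    · by_cases hxP : x ∈ P
      · exact hP'.1 (h1.mapsTo hxP)
      · exact (hF.bij.mapsTo ⟨hx, hxP⟩).1
    · by_cases hxP : x ∈ P <;> by_cases hyP : y ∈ P
      · exact h1.injOn hxP hyP hxy
      · exact absurd (hxy ▸ h1.mapsTo hxP) (hF.bij.mapsTo ⟨hy, hyP⟩).2
      · exact absurd (hxy ▸ h1.mapsTo hyP) (hF.bij.mapsTo ⟨hx, hxP⟩).2
      · exact hF.bij.injOn ⟨hx, hxP⟩ ⟨hy, hyP⟩ hxy
    · by_cases hyP : y ∈ g '' P
      · exact image_mono hP.1 (h1.surjOn hyP)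
      · exact image_mono sdiff_subset (hF.bij.surjOn ⟨hy, hyP⟩)
  · rw [isOpen_iff_mem_nhds]
    rintro _ ⟨x, hx, rfl⟩
    by_cases hxP : x ∈ P
    · have h1 := key hC hL hE hΛ hΩ hP' hP hk (mem_image_of_mem g hxP) (hVΩ hx) fun U hU W hW => by
        obtain ⟨y, h1, h2, h3⟩ := hQ' x hxP W hW U hU
        exact ⟨F y, h3, (hF.bij.mapsTo (hQ h2)).2, by rw [hi.1 (hQ h2)]; exact h1⟩
      have h2 := eventually_nhdsWithin_iff.1 (h1.eventually (hV.mem_nhds hx))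
      rw [hFP x hxP]
      filter_upwards [h2, nhds_diff hL hΛ hP' (hg.bij.mapsTo (hVΩ hx))] with w h3 h4
      by_cases hw : w = g x
      · exact ⟨x, hx, by rw [hw, hFP x hxP]⟩
      · exact ⟨_, h3 hw, hi.2 ⟨h4.1, fun h => h4.2 ⟨h, hw⟩⟩⟩
    · exact mem_of_superset ((hF.opn _ (hV.inter hO) inter_subset_right).mem_nhds
        ⟨x, ⟨hx, hVΩ hx, hxP⟩, rfl⟩) (image_mono inter_subset_left)

end Vale.Agent.P073Z.Sm
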