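import Vale.Agent.P073Z.Sm.Sk

/-!
# P073, smoothing half: exhaustion by full compact sets
-/

open Set Metric Topology Filter

noncomputable section

namespace Vale.Agent.P073Z.Sm

namespace EXH

theorem compl_nonempty {Ω : Set E} (hb : Bornology.IsBounded Ω) : Ωᶜ.Nonempty := by
  rw [nonempty_compl]
  rintro rfl
  exact NormedSpace.unbounded_univ ℝ E hb

theorem full_of {Ω D : Set E} (hΩ : IsOpen Ω) (hb : Bornology.IsBounded Ω)
    (hD : ∀ x ∈ Ω \ D, ∀ y, infDist y Ωᶜ ≤ infDist x Ωᶜ → y ∉ D) : Full Ω D := by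
  intro x hx K hK hKΩ
  obtain ⟨z, hz, hxz⟩ := hΩ.isClosed_compl.exists_infDist_eq_dist (compl_nonempty hb) x
  have h0 : 0 < dist x z := dist_pos.2 fun h => hz (h ▸ hx.1)
  have hc : Continuous fun t : ℝ => (AffineMap.lineMap x z t : E) := AffineMap.lineMap_continuous
  have hS : (fun t : ℝ => (AffineMap.lineMap x z t : E)) '' Ico 0 1 ⊆ Ω \ D := by
    rintro _ ⟨t, ht, rfl⟩
    refine ⟨?_, hD x hx _ ((infDist_le_dist_of_mem hz).trans ?_)⟩
    · by_contra h
      have h1 := infDist_le_dist_of_mem (x := x) (mem_compl h)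
      rw [hxz, dist_left_lineMap, Real.norm_of_nonneg ht.1] at h1
      nlinarith [ht.2]
    · rw [hxz, dist_lineMap_right, Real.norm_of_nonneg (sub_nonneg.2 ht.2.le)]
      nlinarith [ht.1]
  have hsub := (isPreconnected_Ico.image _ hc.continuousOn).subset_connectedComponentIn
    (x := x) ⟨0, ⟨le_rfl, one_pos⟩, AffineMap.lineMap_apply_zero x z⟩ hS
  by_contra hcon
  push Not at hcon
  have h1 : z ∈ closure ((fun t : ℝ => (AffineMap.lineMap x z t : E)) '' Ico 0 1) := by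
    refine image_closure_subset_closure_image hc ⟨1, ?_, AffineMap.lineMap_apply_one x z⟩
    rw [closure_Ico zero_ne_one]
    exact ⟨zero_le_one, le_rfl⟩
  exact hz (hKΩ (closure_minimal (fun y hy => hcon y (hsub hy)) hK.isClosed h1))

/-- the inverse of a homeomorphism -/
theorem inv {h : E → E} {Ω Λ : Set E} (hΩ : IsOpen Ω) (hh : Homeo h Ω Λ) :
    Homeo (Function.invFunOn h Ω) Λ Ω ∧ InvOn (Function.invFunOn h Ω) h Ω Λ := by
  have hi : InvOn (Function.invFunOn h Ω) h Ω Λ := hh.bij.invOn_invFunOn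
  have hb : BijOn (Function.invFunOn h Ω) Λ Ω := hh.bij.symm hi.symm
  have hΛ : IsOpen Λ := hh.bij.image_eq ▸ hh.opn Ω hΩ subset_rfl
  refine ⟨⟨(continuousOn_open_iff hΛ).2 fun t ht => ?_, hb, fun V hV hVΛ => ?_⟩, hi⟩
  · have : Λ ∩ Function.invFunOn h Ω ⁻¹' t = h '' (Ω ∩ t) := by
      ext y
      constructor
      · rintro ⟨h1, h2⟩
        exact ⟨_, ⟨hb.mapsTo h1, h2⟩, hi.2 h1⟩
      · rintro ⟨x, ⟨h1, h2⟩, rfl⟩
        exact ⟨hh.bij.mapsTo h1, by rw [mem_preimage, hi.1 h1]; exact h2⟩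
    rw [this]
    exact hh.opn _ (hΩ.inter ht) inter_subset_left
  · have : Function.invFunOn h Ω '' V = Ω ∩ h ⁻¹' V := by
      ext x
      constructor
      · rintro ⟨y, hy, rfl⟩
        exact ⟨hb.mapsTo (hVΛ hy), by rw [mem_preimage, hi.2 (hVΛ hy)]; exact hy⟩
      · rintro ⟨h1, h2⟩
        exact ⟨h x, h2, hi.1 h1⟩
    rw [this]
    exact hh.cont.isOpen_inter_preimage hΩ hV

end EXH

open EXH in
theorem blockEXH : StmtEXH where
  empty Ω hΩ hb := full_of hΩ hb fun _ _ _ _ h => h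
  exh Ω hΩ hb := by
    have hc : Continuous fun x : E => infDist x Ωᶜ := continuous_infDist_pt _
    have hpos : ∀ x ∈ Ω, 0 < infDist x Ωᶜ := fun x hx =>
      (hΩ.isClosed_compl.notMem_iff_infDist_pos (compl_nonempty hb)).1 fun h => h hx
    have hsub : ∀ j : ℕ, {x : E | 1 / ((j : ℝ) + 1) ≤ infDist x Ωᶜ} ⊆ Ω := by
      intro j x hx
      by_contra h
      have h1 : 1 / ((j : ℝ) + 1) ≤ infDist x Ωᶜ := hx
      rw [infDist_zero_of_mem (mem_compl h)] at h1
      exact absurd h1 (not_le.2 Nat.one_div_pos_of_nat)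
    refine ⟨fun j => {x | 1 / ((j : ℝ) + 1) ≤ infDist x Ωᶜ}, fun i j hij x hx => ?_,
      fun j => ⟨isCompact_of_isClosed_isBounded (isClosed_le continuous_const hc)
        (hb.subset (hsub j)), hsub j, full_of hΩ hb fun x hx y hy hyD => hx.2 (le_trans hyD hy)⟩,
      fun D hD hDΩ => ?_, fun x hx => ?_⟩
    · have hx' : 1 / ((i : ℝ) + 1) ≤ infDist x Ωᶜ := hx
      exact (show 1 / ((j : ℝ) + 1) ≤ 1 / ((i : ℝ) + 1) from Nat.one_div_le_one_div hij).trans hx'
    · rcases D.eq_empty_or_nonempty with rfl | hne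
      · exact ⟨0, empty_subset _⟩
      · obtain ⟨x, hx, hm⟩ := hD.exists_isMinOn hne hc.continuousOn
        obtain ⟨j, hj⟩ := exists_nat_one_div_lt (hpos x (hDΩ hx))
        exact ⟨j, fun y hy => le_trans hj.le (hm hy)⟩
    · obtain ⟨j, hj⟩ := exists_nat_one_div_lt (hpos x hx)
      exact ⟨j, mem_of_superset ((isOpen_lt continuous_const hc).mem_nhds hj) fun y hy =>
        show 1 / ((j : ℝ) + 1) ≤ infDist y Ωᶜ from le_of_lt hy⟩
  pre h Ω Λ K hΩ _ hh hK hKΛ := by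
    obtain ⟨hk, hi⟩ := inv hΩ hh
    have h1 : Ω ∩ h ⁻¹' K = Function.invFunOn h Ω '' K := by
      ext x
      constructor
      · rintro ⟨h1, h2⟩
        exact ⟨h x, h2, hi.1 h1⟩
      · rintro ⟨y, hy, rfl⟩
        exact ⟨hk.bij.mapsTo (hKΛ hy), by rw [mem_preimage, hi.2 (hKΛ hy)]; exact hy⟩
    refine ⟨h1 ▸ hK.image_of_continuousOn (hk.cont.mono hKΛ), fun hF x hx L hL hLΩ => ?_⟩
    have hx' : h x ∈ Λ \ K := ⟨hh.bij.mapsTo hx.1, fun h2 => hx.2 ⟨hx.1, h2⟩⟩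
    obtain ⟨y, hy, hyL⟩ := hF (h x) hx' (h '' L) (hL.image_of_continuousOn (hh.cont.mono hLΩ))
      (image_subset_iff.2 fun z hz => hh.bij.mapsTo (hLΩ hz))
    have hcc := connectedComponentIn_subset (Λ \ K) (h x)
    refine ⟨Function.invFunOn h Ω y, (isPreconnected_connectedComponentIn.image _
      (hk.cont.mono fun z hz => (hcc hz).1)).subset_connectedComponentIn
      ⟨h x, mem_connectedComponentIn hx', hi.1 hx.1⟩ ?_ ⟨y, hy, rfl⟩, fun h2 =>
        hyL ⟨_, h2, hi.2 (hcc hy).1⟩⟩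
    rintro _ ⟨z, hz, rfl⟩
    refine ⟨hk.bij.mapsTo (hcc hz).1, fun h2 => (hcc hz).2 ?_⟩
    have h3 := h2.2
    rwa [mem_preimage, hi.2 (hcc hz).1] at h3

end Vale.Agent.P073Z.Sm
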