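import Vale.Agent.P073Z.Sm.FD2

/-!
# P073, smoothing half, block FD: the half width of the lens around a face
-/

open Set Metric MeasureTheory Topology Filter
open scoped ContDiff ENNReal NNReal RealInnerProductSpace

noncomputable section

namespace Vale.Agent.P073Z.Sm

namespace FD

/-- orthogonal projection onto the plane through `xf` with normal `n` -/
def pr (xf n y : E) : E := y - ⟪n, y - xf⟫ • n

theorem pr_plane {xf n : E} (hn : ‖n‖ = 1) (y : E) : ⟪n, pr xf n y - xf⟫ = 0 := by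
  have : pr xf n y - xf = (y - xf) - ⟪n, y - xf⟫ • n := by unfold pr; abel
  rw [this, inner_sub_right n (y - xf), inner_smul_right, inner_self_one hn, mul_one, sub_self]

theorem pr_id {xf n y : E} (hy : ⟪n, y - xf⟫ = 0) : pr xf n y = y := by
  unfold pr; rw [hy, zero_smul, sub_zero]

theorem pr_add {xf n : E} (hn : ‖n‖ = 1) (y : E) (t : ℝ) : pr xf n (y + t • n) = pr xf n y := by
  have : y + t • n - xf = (y - xf) + t • n := by abel
  unfold pr
  rw [this, inner_add_right, inner_smul_right, inner_self_one hn, mul_one, add_smul]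
  abel

theorem pr_dist {xf n : E} (hn : ‖n‖ = 1) (y z : E) :
    dist (pr xf n y) (pr xf n z) ≤ dist y z := by
  have h : pr xf n y - pr xf n z = (y - z) - ⟪n, y - z⟫ • n := by
    have h1 : y - z = (y - xf) - (z - xf) := by abel
    have h2 : ⟪n, y - z⟫ = ⟪n, y - xf⟫ - ⟪n, z - xf⟫ := by rw [h1, inner_sub_right]
    unfold pr
    rw [h2, sub_smul]; abel
  rw [dist_eq_norm, dist_eq_norm, h]
  exact norm_proj_le hn _

theorem contDiff_pr (xf n : E) : ContDiff ℝ ∞ (pr xf n) := by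
  unfold pr
  exact contDiff_id.sub ((contDiff_const.inner ℝ (contDiff_id.sub contDiff_const)).smul
    contDiff_const)

/-- the part of the width which lives inside the tubes -/
theorem tubes_part (hST : StmtST) (hPERSP : StmtPERSP) {g : E → E} {U : Set E} {x0 e : Lab → E}
    {κt : Lab → ℝ≥0} {O : Lab → Set E} {ρ : Lab → ℝ → ℝ} {γ : E → ℝ} {xf n : E} {k : ℝ}
    (hU : IsOpen U) (hZ : Uᶜ.Nonempty)
    (hc : ∀ x ∈ U, ConeAt g x) (hL : Lines U (Sk g U 1) (lab g) x0 e)
    (hT : Tubes U (Sk g U 1) (lab g) x0 e κt O ρ) (hκ : ∀ i, κt i ≤ 1)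
    (hO : ∀ i, ∀ y ∈ O i, g =ᶠ[𝓝 y] i.1) (hγ : ∀ i, ∀ y ∈ O i, rc (x0 i) (e i) y ≤ γ y)
    (hn1 : ‖n‖ = 1) (hn : ∀ w, w ∈ Lin g xf ↔ ⟪n, w⟫ = 0) (hk : 0 < k) :
    ∃ t : Lab → E → ℝ, (∀ i y z, t i y ≤ t i z + k * dist y z) ∧ (∀ i y, 0 ≤ t i y) ∧
      (∀ i y, t i y ≤ k) ∧
      (∀ i y, ⟪n, y - xf⟫ = 0 → t i y ≠ 0 → y ∈ tube (x0 i) (e i) (ρ i) 4 ∧
        y ∈ face g U (lab g xf) ∧ t i y ≤ k * γ y ∧
        t i y ≤ k * infDist y ((Sk g U 2 \ face g U (lab g xf)) ∪ Uᶜ)) ∧
      (∀ i, ∀ y ∈ face g U (lab g xf), y ∈ tube (x0 i) (e i) (ρ i) 4 → ContDiffAt ℝ ∞ (t i) y) ∧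
      ∀ i, ∃ η : ℝ, ∀ y ∈ face g U (lab g xf), y ∈ tube (x0 i) (e i) (ρ i) (1 / 4) →
        t i y = η * rc (x0 i) (e i) y ∧ 0 < t i y := by
  choose a θ hθ hal ha0 harc haF hasm hainf using tube_data hST hU hZ hc hL hT hκ hO hn1 hn
  obtain ⟨p, L, hL0, hpl, hpb, hps, hp1, hpsm⟩ := profile hPERSP
  set η : Lab → ℝ := fun i => min (k * θ i) (min k (k / (3 * L))) with hη
  have hη0 : ∀ i, 0 < η i := fun i =>
    lt_min (mul_pos hk (hθ i)) (lt_min hk (by positivity))
  have hη1 : ∀ i, η i ≤ k * θ i := fun i => min_le_left _ _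
  have hη2 : ∀ i, η i ≤ k := fun i => (min_le_right _ _).trans (min_le_left _ _)
  have hη3 : ∀ i, η i * (3 * L) ≤ k := fun i => by
    have : η i ≤ k / (3 * L) := (min_le_right _ _).trans (min_le_right _ _)
    rwa [le_div_iff₀ (by positivity)] at this
  refine ⟨fun i y => η i * p (a i y) (ρ i (sc (x0 i) (e i) y)), fun i y z => ?_,
    fun i y => mul_nonneg (hη0 i).le (hpb _ _ (ha0 i y)).1, fun i y => ?_, fun i y hy hne => ?_,
    fun i y hy hyT => ?_, fun i => ⟨η i, fun y hy hyT => ?_⟩⟩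
  · have h1 := (abs_le.1 (hpl (a i y) (a i z) (ρ i (sc (x0 i) (e i) y))
      (ρ i (sc (x0 i) (e i) z)))).2
    have h2 := (hT.lip i).dist_le_mul (sc (x0 i) (e i) y) (sc (x0 i) (e i) z)
    rw [Real.dist_eq, Real.dist_eq] at h2
    have hκ' : (κt i : ℝ) ≤ 1 := by exact_mod_cast hκ i
    have h3 := abs_sc_sub (x0 := x0 i) (hL.unit i) y z
    rw [← dist_eq_norm] at h3
    have h4 : |ρ i (sc (x0 i) (e i) y) - ρ i (sc (x0 i) (e i) z)| ≤ dist y z :=
      h2.trans ((mul_le_of_le_one_left (abs_nonneg _) hκ').trans h3)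
    have h5 := mul_le_mul_of_nonneg_left (hal i y z) hL0.le
    have h6 := mul_le_mul_of_nonneg_left h4 hL0.le
    have h7 : p (a i y) (ρ i (sc (x0 i) (e i) y)) - p (a i z) (ρ i (sc (x0 i) (e i) z)) ≤
        3 * L * dist y z := by linarith
    have h8 := mul_le_mul_of_nonneg_left h7 (hη0 i).le
    have h9 := mul_le_mul_of_nonneg_right (hη3 i) (dist_nonneg (x := y) (y := z))
    beta_reduce
    nlinarith
  · beta_reduce
    by_cases h : p (a i y) (ρ i (sc (x0 i) (e i) y)) = 0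
    · rw [h, mul_zero]; exact hk.le
    · have h1 := (hps _ _ (ha0 i y) h).2.2
      have h2 := (hpb _ (ρ i (sc (x0 i) (e i) y)) (ha0 i y)).2
      have h3 := hT.le_one i (sc (x0 i) (e i) y)
      exact (mul_le_of_le_one_right (hη0 i).le (by linarith)).trans (hη2 i)
  · beta_reduce at hne ⊢
    obtain ⟨h1, h2, h3⟩ := hps _ _ (ha0 i y) (right_ne_zero_of_mul hne)
    have h4 := harc i y hy h2.ne'
    have hT1 : y ∈ tube (x0 i) (e i) (ρ i) 1 := ⟨h1, by rw [← h4, one_mul]; exact h3⟩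
    have hT4 : y ∈ tube (x0 i) (e i) (ρ i) 4 := tube_mono (by norm_num) hT1
    have hF := haF i y hy hT4 h2.ne'
    have h5 := (hpb _ (ρ i (sc (x0 i) (e i) y)) (ha0 i y)).2
    have h6 : η i * p (a i y) (ρ i (sc (x0 i) (e i) y)) ≤ η i * rc (x0 i) (e i) y := by
      rw [← h4]; exact mul_le_mul_of_nonneg_left h5 (hη0 i).le
    have h7 := rc_nonneg (x0 i) (e i) y
    refine ⟨hT4, hF, h6.trans ?_, h6.trans ?_⟩
    · exact mul_le_mul (hη2 i) (hγ i y (hT.sub i hT4).1) h7 hk.le
    · refine (mul_le_mul_of_nonneg_right (hη1 i) h7).trans ?_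
      rw [mul_assoc]
      exact mul_le_mul_of_nonneg_left (hainf i y hF hT1) hk.le
  · have hopen : IsOpen {s | 0 < ρ i s} := isOpen_lt continuous_const (hT.lip i).continuous
    have h1 : ContDiffAt ℝ ∞ (fun z => ρ i (sc (x0 i) (e i) z)) y :=
      ((hT.smooth i).contDiffAt (hopen.mem_nhds hyT.1)).comp y (contDiff_sc _ _).contDiffAt
    have h2 : ContDiffAt ℝ ∞ (fun z => (a i z, ρ i (sc (x0 i) (e i) z))) y :=
      (hasm i y hy hyT).2.prodMk h1
    have h3 := ContDiffAt.comp (f := fun z => (a i z, ρ i (sc (x0 i) (e i) z))) y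
      (hpsm _ _ hyT.1) h2
    exact contDiffAt_const.mul h3
  · have hT4 : y ∈ tube (x0 i) (e i) (ρ i) 4 := tube_mono (by norm_num) hyT
    have h1 := (hasm i y hy hT4).1
    have h2 := harc i y (lab_plane hn hy.2.2).1 h1.ne'
    have h3 : p (a i y) (ρ i (sc (x0 i) (e i) y)) = a i y :=
      hp1 _ _ hyT.1 h1.le (by rw [h2]; exact hyT.2)
    beta_reduce
    rw [h3]
    exact ⟨by rw [h2], mul_pos (hη0 i) h1⟩

end FD

open FD in
theorem blockFD (hST : StmtST) (hMIN : StmtMIN) (hPERSP : StmtPERSP) : StmtFD := by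
  intro g U x0 e κt O ρ γ xf n κ hU hUb hc _ hL hT hκ hO hγ hγc hγ0 _ _ hn1 hn hκ0
  have hZ : Uᶜ.Nonempty := by
    rw [nonempty_compl]
    rintro rfl
    exact NormedSpace.unbounded_univ ℝ E hUb
  have hk : (0 : ℝ) < (κ : ℝ) / 2 := by have : (0 : ℝ) < κ := hκ0; linarith
  obtain ⟨t, htl, ht0, htb, hts, htsm, htf⟩ :=
    tubes_part hST hPERSP hU hZ hc hL hT hκ hO hγ hn1 hn hk
  obtain ⟨D, hDl, hD1, hD2, hD3⟩ := sup_lip t _ _ htl ht0 htb
  set F := face g U (lab g xf) with hF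
  set Z := (Sk g U 2 \ F) ∪ Uᶜ with hZdef
  have hZne : Z.Nonempty := hZ.mono subset_union_right
  have hFpl : ∀ y ∈ F, ⟪n, y - xf⟫ = 0 := fun y hy => (lab_plane hn hy.2.2).1
  have hnear : ∀ y ∈ F, ∀ᶠ z in 𝓝 y, z ∉ Z ∧ (⟪n, z - xf⟫ = 0 → z ∈ F) := fun y hy => by
    have hcy : ∀ᶠ z in 𝓝 y, ConeAt g z := by
      filter_upwards [hU.mem_nhds hy.1] with z hz using hc z hz
    filter_upwards [near_face hST hn hcy hy.2.1 hy.2.2, hU.mem_nhds hy.1] with z hz hzU
    refine ⟨?_, fun h => ⟨hzU, hz (Or.inl h)⟩⟩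
    rintro (h | h)
    · exact h.2 ⟨hzU, hz (Or.inr h.1.2)⟩
    · exact h hzU
  have hinf : ∀ y ∈ F, 0 < infDist y Z := fun y hy => by
    rw [← infDist_pos_iff_notMem_closure hZne, mem_closure_iff_frequently, not_frequently]
    exact (hnear y hy).mono fun z hz => hz.1
  have hpc : Continuous (pr xf n) := (contDiff_pr xf n).continuous
  set V : Set E := {y | pr xf n y ∈ F ∧ ∀ i, pr xf n y ∉ tube (x0 i) (e i) (ρ i) (1 / 4)}
    with hV
  have hVo : IsOpen V := by
    rw [isOpen_iff_mem_nhds]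
    intro y hy
    filter_upwards [hpc.continuousAt.eventually (hnear _ hy.1),
      hpc.continuousAt.eventually (tubes_closed hT (c := 1 / 4) (by norm_num) hy.1.1)]
      with z h1 h2
    exact ⟨h1.2 (pr_plane hn1 z), fun i => h2 i (hy.2 i)⟩
  obtain ⟨r, hrs, hrl, hr0, hrp, hrb⟩ := hMIN E V
    (fun y => (κ : ℝ) / 2 * min 1 (min (γ (pr xf n y)) (infDist (pr xf n y) Z))) (κ / 2) hVo
    (by positivity) (fun K hK hKV => by
      refine hK.exists_forall_le' ?_ fun y hy => ?_
      · refine continuousOn_const.mul (continuousOn_const.inf (ContinuousOn.inf ?_ ?_))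
        · exact hγc.comp hpc.continuousOn fun y hy => (hKV hy).1.1
        · exact ((continuous_infDist_pt Z).comp hpc).continuousOn
      · exact mul_pos hk (lt_min one_pos (lt_min (hγ0 _ (hKV hy).1.1) (hinf _ (hKV hy).1))))
  have hD0 : ∀ y, 0 ≤ D y := fun y => (ht0 (lab g xf) y).trans (hD1 _ y)
  have hiff : ∀ y, ⟪n, y - xf⟫ = 0 → (0 < r y + D y ↔ y ∈ F) := fun y hy => by
    constructor
    · intro h
      by_contra hyF
      have h1 : r y ≤ 0 := not_lt.1 fun h1 => hyF (by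
        have := ((hrp y).1 h1).1
        rwa [pr_id hy] at this)
      have h2 : D y ≤ 0 := hD2 y 0 fun i => le_of_eq (by
        by_contra h2
        exact hyF (hts i y hy h2).2.1)
      linarith
    · intro hyF
      by_cases hT4 : ∃ i, y ∈ tube (x0 i) (e i) (ρ i) (1 / 4)
      · obtain ⟨i, hi⟩ := hT4
        obtain ⟨η, hη⟩ := htf i
        linarith [(hη y hyF hi).2, hD1 i y, hr0 y]
      · push Not at hT4
        have : y ∈ V := by
          simp only [hV, mem_ofPred_eq]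
          rw [pr_id hy]
          exact ⟨hyF, hT4⟩
        linarith [(hrp y).2 this, hD0 y]
  refine ⟨fun y => r (pr xf n y) + D (pr xf n y), LipschitzWith.of_le_add_mul κ fun y z => ?_,
    fun y => add_nonneg (hr0 _) (hD0 _), fun y s => by simp only [pr_add hn1],
    fun y hy => by simp only [pr_id hy]; exact hiff y hy, fun y hy => ?_, fun y hy => ?_,
    fun i => ?_⟩
  · have h1 := hrl.le_add_mul (pr xf n y) (pr xf n z)
    have h2 := hDl (pr xf n y) (pr xf n z)
    have h3 := mul_le_mul_of_nonneg_left (pr_dist (xf := xf) hn1 y z) hk.le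
    push_cast at h1
    linarith
  · have hyF : pr xf n y ∈ F := (hiff _ (pr_plane hn1 y)).1 hy
    have hps : ContDiffAt ℝ ∞ (pr xf n) y := (contDiff_pr xf n).contDiffAt
    refine (hrs.contDiffAt.comp y hps).add ?_
    have hev := hpc.continuousAt.eventually (tubes_closed hT (c := 4) le_rfl hyF.1)
    by_cases hT4 : ∃ i, pr xf n y ∈ tube (x0 i) (e i) (ρ i) 4
    · obtain ⟨i, hi⟩ := hT4
      refine ((htsm i _ hyF hi).comp y hps).congr_of_eventuallyEq ?_
      filter_upwards [hev] with z hz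
      refine hD3 _ i fun j hj => ?_
      by_contra h
      exact hz j (fun h' => Set.disjoint_left.1 (hT.disj hj) h' hi)
        (hts j _ (pr_plane hn1 z) h).1
    · push Not at hT4
      refine (contDiffAt_const (c := (0 : ℝ))).congr_of_eventuallyEq ?_
      filter_upwards [hev] with z hz
      refine le_antisymm (hD2 _ 0 fun j => le_of_eq ?_) (hD0 _)
      by_contra h
      exact hz j (hT4 j) (hts j _ (pr_plane hn1 z) h).1
  · have hy' := hFpl y hy
    simp only [pr_id hy']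
    have hg := hγ0 y hy.1
    have hi := hinf y hy
    have hr1 : r y ≤ (κ : ℝ) / 2 * min 1 (min (γ y) (infDist y Z)) := by
      by_cases hyV : y ∈ V
      · have := hrb y hyV
        simp only [pr_id hy'] at this
        exact this
      · have h1 : r y ≤ 0 := not_lt.1 fun h => hyV ((hrp y).1 h)
        exact h1.trans (mul_pos hk (lt_min one_pos (lt_min hg hi))).le
    have hm1 := mul_le_mul_of_nonneg_left (min_le_left 1 (min (γ y) (infDist y Z))) hk.le
    have hm2 := mul_le_mul_of_nonneg_left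
      ((min_le_right 1 _).trans (min_le_left (γ y) (infDist y Z))) hk.le
    have hm3 := mul_le_mul_of_nonneg_left
      ((min_le_right 1 _).trans (min_le_right (γ y) (infDist y Z))) hk.le
    have hd1 : D y ≤ (κ : ℝ) / 2 := hD2 y _ fun i => htb i y
    have hd2 : D y ≤ (κ : ℝ) / 2 * γ y := hD2 y _ fun i => by
      by_cases h : t i y = 0
      · rw [h]; exact (mul_pos hk hg).le
      · exact (hts i y hy' h).2.2.1
    have hd3 : D y ≤ (κ : ℝ) / 2 * infDist y Z := hD2 y _ fun i => by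
      by_cases h : t i y = 0
      · rw [h]; exact (mul_pos hk hi).le
      · exact (hts i y hy' h).2.2.2
    refine ⟨by linarith, by linarith, by linarith⟩
  · obtain ⟨η, hη⟩ := htf i
    refine ⟨η, fun y hy hyT => ?_⟩
    have hy' := hFpl y hy
    simp only [pr_id hy']
    have h1 : r y = 0 := le_antisymm (not_lt.1 fun h => by
      have := ((hrp y).1 h).2 i
      rw [pr_id hy'] at this
      exact this hyT) (hr0 y)
    have h2 : D y = t i y := hD3 y i fun j hj => by
      by_contra h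
      exact Set.disjoint_left.1 (hT.disj hj) (hts j y hy' h).1 (tube_mono (by norm_num) hyT)
    rw [h1, h2, zero_add, (hη y hy hyT).1]

end Vale.Agent.P073Z.Sm
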