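import Vale.Agent.P073Z.Sm.Sk

/-!
# P073, smoothing half: block FM
-/

open Set Metric Topology Filter
open scoped ContDiff NNReal RealInnerProductSpace

noncomputable section

namespace Vale.Agent.P073Z.Sm

namespace FM

variable {M : ℝ → ℝ → ℝ}

theorem abs_t (hM : IsM M) (t t' : ℝ) {δ : ℝ} (hδ : 0 ≤ δ) : |M t δ - M t' δ| ≤ |t - t'| := by
  rcases le_total t t' with h | h
  · obtain ⟨h1, h2⟩ := hM.mono t t' δ hδ h
    rw [abs_sub_comm, abs_of_nonneg (sub_nonneg.2 h1), abs_sub_comm,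
      abs_of_nonneg (sub_nonneg.2 h)]
    exact h2
  · obtain ⟨h1, h2⟩ := hM.mono t' t δ hδ h
    rw [abs_of_nonneg (sub_nonneg.2 h1), abs_of_nonneg (sub_nonneg.2 h)]
    exact h2

theorem ge_min (hM : IsM M) (t s : ℝ) {δ : ℝ} (hδ : 0 ≤ δ) : min s 0 ≤ M (t + s) δ - M t δ := by
  rcases le_total 0 s with h | h
  · obtain ⟨h1, -⟩ := hM.mono t (t + s) δ hδ (by linarith)
    rw [min_eq_right h]
    linarith
  · obtain ⟨-, h2⟩ := hM.mono (t + s) t δ hδ (by linarith)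
    rw [min_eq_left h]
    linarith

/-- the shear function -/
def sh (M : ℝ → ℝ → ℝ) (xf n : E) (d : E → ℝ) (y : E) : ℝ := M ⟪n, y - xf⟫ (d y)

variable {xf n a : E} {d : E → ℝ} {κ : ℝ≥0}

theorem sh_lip (hM : IsM M) (hn : ‖n‖ = 1) (hd : LipschitzWith κ d) (h0 : ∀ y, 0 ≤ d y)
    (y z : E) : |sh M xf n d y - sh M xf n d z| ≤ (1 + κ) * ‖y - z‖ := by
  have h1 := abs_t hM ⟪n, y - xf⟫ ⟪n, z - xf⟫ (h0 y)
  have h2 := hM.lip ⟪n, z - xf⟫ (d y) (d z) (h0 y) (h0 z)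
  have h3 : |⟪n, y - xf⟫ - ⟪n, z - xf⟫| ≤ ‖y - z‖ := by
    rw [← inner_sub_right, sub_sub_sub_cancel_right]
    have := abs_real_inner_le_norm n (y - z)
    rwa [hn, one_mul] at this
  have h4 : |d y - d z| ≤ κ * ‖y - z‖ := by
    have := hd.dist_le_mul y z
    rwa [Real.dist_eq, dist_eq_norm] at this
  have h5 := abs_sub_le (M ⟪n, y - xf⟫ (d y)) (M ⟪n, z - xf⟫ (d y)) (M ⟪n, z - xf⟫ (d z))
  unfold sh
  linarith

theorem sh_cont (hM : IsM M) (hn : ‖n‖ = 1) (hd : LipschitzWith κ d) (h0 : ∀ y, 0 ≤ d y) :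
    Continuous (sh M xf n d) := by
  have : LipschitzWith (1 + κ) (sh M xf n d) := LipschitzWith.of_dist_le_mul fun y z => by
    rw [Real.dist_eq, dist_eq_norm]
    exact_mod_cast sh_lip hM hn hd h0 y z
  exact this.continuous

theorem sh_shear (hM : IsM M) (hd : LipschitzWith κ d) (h0 : ∀ y, 0 ≤ d y) {c : ℝ}
    (hc1 : 2 * c ≤ 1) (hc2 : 2 * c ≤ 1 + ⟪n, a⟫) (hκ : κ * ‖a‖ ≤ c) (y : E) (τ : ℝ)
    (hτ : 0 ≤ τ) : c * τ ≤ τ + sh M xf n d (y + τ • a) - sh M xf n d y := by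
  have e : ⟪n, y + τ • a - xf⟫ = ⟪n, y - xf⟫ + τ * ⟪n, a⟫ := by
    rw [add_sub_right_comm, inner_add_right, real_inner_smul_right]
  have h1 := ge_min hM ⟪n, y - xf⟫ (τ * ⟪n, a⟫) (h0 (y + τ • a))
  have h2 := hM.lip ⟪n, y - xf⟫ (d (y + τ • a)) (d y) (h0 _) (h0 _)
  have h3 : |d (y + τ • a) - d y| ≤ κ * (τ * ‖a‖) := by
    have := hd.dist_le_mul (y + τ • a) y
    rwa [Real.dist_eq, dist_eq_norm, add_sub_cancel_left, norm_smul, Real.norm_of_nonneg hτ]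
      at this
  have h4 : κ * (τ * ‖a‖) ≤ c * τ := by
    have := mul_le_mul_of_nonneg_right hκ hτ
    linarith
  have h5 : 2 * c * τ - τ ≤ min (τ * ⟪n, a⟫) 0 := by
    have h6 := mul_le_mul_of_nonneg_right hc1 hτ
    have h7 := mul_le_mul_of_nonneg_right hc2 hτ
    exact le_min (by linarith) (by linarith)
  have h6 := neg_abs_le (M ⟪n, y - xf⟫ (d (y + τ • a)) - M ⟪n, y - xf⟫ (d y))
  unfold sh
  rw [e]
  linarith

theorem sh_smooth (hM : IsM M) {y : E} (hy : 0 < d y) (hs : ContDiffAt ℝ ∞ d y) :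
    ContDiffAt ℝ ∞ (sh M xf n d) y := by
  have h1 : ContDiffAt ℝ ∞ (fun q : ℝ × ℝ => M q.1 q.2) (⟪n, y - xf⟫, d y) :=
    hM.smooth.contDiffAt ((isOpen_univ.prod isOpen_Ioi).mem_nhds ⟨mem_univ _, hy⟩)
  have h2 : ContDiffAt ℝ ∞ (fun z : E => (⟪n, z - xf⟫, d z)) y :=
    (contDiffAt_const.inner ℝ (contDiffAt_id.sub contDiffAt_const)).prodMk hs
  exact h1.comp y h2

theorem fm_eq (b : E) (A : E ≃L[ℝ] E) (y : E) :
    fm M b A xf n a d y = b + (A : E →L[ℝ] E) ((y + sh M xf n d y • a) - xf) := by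
  unfold fm sh
  rw [add_sub_right_comm]
  rfl

end FM

open FM in
theorem blockFM (hS : StmtSHEAR) : StmtFM := by
  intro M A n a hM hn ha
  set c : ℝ := min 1 (1 + ⟪n, a⟫) / 2 with hc
  have hc0 : 0 < c := half_pos (lt_min one_pos ha)
  have hc1 : 2 * c ≤ 1 := by
    have := min_le_left 1 (1 + ⟪n, a⟫)
    linarith
  have hc2 : 2 * c ≤ 1 + ⟪n, a⟫ := by
    have := min_le_right 1 (1 + ⟪n, a⟫)
    linarith
  have hk0 : 0 < c / (‖a‖ + 1) := by positivity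
  set κ : ℝ≥0 := ⟨c / (‖a‖ + 1), hk0.le⟩ with hκ
  have hκa : κ * ‖a‖ ≤ c := by
    show c / (‖a‖ + 1) * ‖a‖ ≤ c
    rw [div_mul_eq_mul_div, div_le_iff₀ (by positivity)]
    nlinarith
  have hκ0 : (0 : ℝ) ≤ κ := κ.2
  have hC0 : 0 ≤ ‖(A : E →L[ℝ] E)‖ * (1 + (1 + κ) * ‖a‖) := by positivity
  refine ⟨κ, ⟨‖(A : E →L[ℝ] E)‖ * (1 + (1 + κ) * ‖a‖), hC0⟩, hk0, fun b xf d hd h0 => ?_⟩
  obtain ⟨hb, hl⟩ := hS E (sh M xf n d) a c hc0 (sh_cont hM hn hd h0)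
    (sh_shear hM hd h0 hc1 hc2 hκa)
  have hfm : fm M b A xf n a d =
      fun y => b + (A : E →L[ℝ] E) ((y + sh M xf n d y • a) - xf) := funext (fm_eq b A)
  refine ⟨?_, ?_, fun y hy hs => ?_, fun y => ?_⟩
  · rw [hfm]
    have h1 : Function.Bijective fun z : E => b + (A : E →L[ℝ] E) (z - xf) :=
      (Equiv.addLeft b).bijective.comp (A.bijective.comp (Equiv.subRight xf).bijective)
    exact h1.comp hb
  · refine LipschitzWith.of_dist_le_mul fun y z => ?_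
    show dist _ _ ≤ ‖(A : E →L[ℝ] E)‖ * (1 + (1 + κ) * ‖a‖) * dist y z
    rw [fm_eq, fm_eq, dist_eq_norm, dist_eq_norm, add_sub_add_left_eq_sub, ← map_sub,
      sub_sub_sub_cancel_right, mul_assoc]
    refine ((A : E →L[ℝ] E).le_opNorm _).trans (mul_le_mul_of_nonneg_left ?_ (norm_nonneg _))
    have e : y + sh M xf n d y • a - (z + sh M xf n d z • a) =
        (y - z) + (sh M xf n d y - sh M xf n d z) • a := by
      rw [sub_smul]; abel
    have h1 := sh_lip (xf := xf) hM hn hd h0 y z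
    rw [e]
    calc ‖(y - z) + (sh M xf n d y - sh M xf n d z) • a‖
        ≤ ‖y - z‖ + |sh M xf n d y - sh M xf n d z| * ‖a‖ := by
          refine (norm_add_le _ _).trans (le_of_eq ?_)
          rw [norm_smul, Real.norm_eq_abs]
      _ ≤ ‖y - z‖ + (1 + κ) * ‖y - z‖ * ‖a‖ := by gcongr
      _ = (1 + (1 + κ) * ‖a‖) * ‖y - z‖ := by ring
  · rw [hfm]
    exact LD.comp (G := fun z : E => b + (A : E →L[ℝ] E) (z - xf))
      (LD.affine (A : E →L[ℝ] E) A.injective b xf _) (hl y (sh_smooth hM hy hs))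
  · show _ ≤ ‖(A : E →L[ℝ] E)‖ * (1 + (1 + κ) * ‖a‖) * d y
    rw [fm_eq, fm_eq, add_sub_add_left_eq_sub, ← map_sub, sub_sub_sub_cancel_right,
      add_sub_add_left_eq_sub, ← sub_smul, mul_assoc]
    refine ((A : E →L[ℝ] E).le_opNorm _).trans (mul_le_mul_of_nonneg_left ?_ (norm_nonneg _))
    have h1 := hM.lip ⟪n, y - xf⟫ (d y) 0 (h0 y) le_rfl
    rw [sub_zero, abs_of_nonneg (h0 y)] at h1
    rw [norm_smul, Real.norm_eq_abs]
    have h2 : |sh M xf n d y - sh M xf n (fun _ => 0) y| * ‖a‖ ≤ d y * ‖a‖ :=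
      mul_le_mul_of_nonneg_right h1 (norm_nonneg _)
    have h3 := h0 y
    have h4 : 0 ≤ κ * ‖a‖ * d y := by positivity
    nlinarith

end Vale.Agent.P073Z.Sm
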