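import Vale.Agent.P073Z.Sm.Face.B

/-!
# P073, block FACE: smoothing along all faces
-/

open Set Metric MeasureTheory Topology Filter
open scoped ContDiff ENNReal NNReal RealInnerProductSpace

noncomputable section

namespace Vale.Agent.P073Z.Sm

namespace Face

/-- labels of nonempty faces -/
abbrev Ctx.I (X : Ctx) : Type := {l : Lab // (face X.g X.U l).Nonempty}

variable {X : Ctx} (F : ∀ l : X.I, Fc X l.1)

open Classical in
/-- the modified map -/
def hh (y : E) : E := if h : ∃ l, y ∈ (F l).L then (F h.choose).H y else X.g y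

variable {F} {l : X.I} {x y : E}

theorem hh_L (h : y ∈ (F l).L) : hh F y = (F l).H y := by
  have h1 : ∃ l, y ∈ (F l).L := ⟨l, h⟩
  have h2 : h1.choose = l :=
    Subtype.ext ((F _).eq_of_N (F l) ((F _).L_sub h1.choose_spec) ((F l).L_sub h))
  rw [hh, dif_pos h1, h2]

theorem hh_off (h : ∀ l, y ∉ (F l).L) : hh F y = X.g y := dif_neg (not_exists.2 h)

theorem hh_N (h : y ∈ (F l).N) : hh F y = (F l).H y := by
  by_cases hL : y ∈ (F l).L
  · exact hh_L hL
  · rw [hh_off, (F l).H_eq hL, (F l).g_eq h]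
    intro l' h'
    obtain rfl : l' = l := Subtype.ext ((F l').eq_of_N (F l) ((F l').L_sub h') h)
    exact hL h'

theorem hh_N' (h : y ∈ (F l).N) : hh F =ᶠ[𝓝 y] (F l).H :=
  mem_of_superset ((F l).isOpen_N.mem_nhds h) fun _ => hh_N

theorem hh_S (hx : x ∈ Sk X.g X.U 1) : hh F x = X.g x :=
  hh_off fun l h => (F l).not_mem_N hx.2 ((F l).L_sub h)

theorem hh_free (hx : x ∈ X.U \ Sk X.g X.U 1) (hN : ∀ l, x ∉ (F l).N) :
    hh F =ᶠ[𝓝 x] X.g ∧ ∃ A : E ≃L[ℝ] E, X.g =ᶠ[𝓝 x] fun y => X.g x + A (y - x) := by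
  have h3 : 3 ≤ rk X.g x := by
    have h1 : ¬ rk X.g x ≤ 1 := fun h => hx.2 ⟨hx.1, h⟩
    have h2 : rk X.g x ≠ 2 := fun h =>
      hN ⟨lab X.g x, x, hx.1, h, rfl⟩ ((F _).face_sub ⟨hx.1, h, rfl⟩)
    omega
  constructor
  · obtain ⟨r, hr, h⟩ := Metric.eventually_nhds_iff_ball.1
      (X.st.near X.g x (X.cone_near hx.1))
    filter_upwards [ball_mem_nhds x (show 0 < r / 10 by positivity)] with z hz
    exact hh_off fun l hl => hN l ((F l).mem_N_of_near
      (fun y hy => h3.trans (Submodule.finrank_mono (h y hy).1)) hz hl)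
  · obtain ⟨A, hA⟩ := X.st.rk3 X.g x X.U (X.cone x hx.1) (X.opn.mem_nhds hx.1) X.inj h3
    exact ⟨A, (X.st.isTan X.g x (X.cone x hx.1)).1.mono fun y hy => hy.symm.trans (hA y)⟩

theorem hh_ld (hx : x ∈ X.U \ Sk X.g X.U 1) : LD (hh F) x := by
  by_cases hN : ∃ l, x ∈ (F l).N
  · obtain ⟨l, hl⟩ := hN
    exact ((F l).ld x hl.1).congr (hh_N' hl)
  · obtain ⟨h1, A, hA⟩ := hh_free hx (not_exists.1 hN)
    exact (LD.affine (A : E →L[ℝ] E) A.injective _ x x).congr (h1.trans hA)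

theorem hh_cont : ContinuousOn (hh F) X.U := fun x hx => by
  by_cases hS : x ∈ Sk X.g X.U 1
  · have h1 : Tendsto (fun y => hh F y - X.g y) (𝓝[X.U] x) (𝓝 0) := by
      refine squeeze_zero_norm (fun y => ?_) (a := fun y => dist y x) ?_
      · by_cases hL : ∃ l, y ∈ (F l).L
        · obtain ⟨l, hl⟩ := hL
          rw [hh_L hl, (F l).g_eq ((F l).L_sub hl)]
          exact (F l).close_bad (Fc.mem_bad hS) ((F l).L_sub hl)
        · rw [hh_off (not_exists.1 hL), sub_self, norm_zero]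
          exact dist_nonneg
      · exact tendsto_iff_dist_tendsto_zero.1 (tendsto_id.mono_left nhdsWithin_le_nhds)
    have h2 := h1.add (X.cont x hx)
    rw [zero_add, ← hh_S (F := F) hS] at h2
    simp only [sub_add_cancel] at h2
    exact h2
  · exact (hh_ld ⟨hx, hS⟩).continuousAt.continuousWithinAt

theorem hh_gauge (hx : x ∈ X.U) : ‖hh F x - X.g x‖ ≤ X.γ x := by
  by_cases hL : ∃ l, x ∈ (F l).L
  · obtain ⟨l, hl⟩ := hL
    rw [hh_L hl, (F l).g_eq ((F l).L_sub hl)]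
    exact (F l).close_gauge hl
  · rw [hh_off (not_exists.1 hL), sub_self, norm_zero]
    exact (X.pos x hx).le

theorem hh_bij (hP : StmtPATCH) : BijOn (hh F) X.U (X.g '' X.U) :=
  hP X.I X.U (fun l => (F l).L) (fun l => l.1.1) (fun l => (F l).H) X.g (hh F)
    (fun l l' hne => disjoint_left.2 fun _ h h' =>
      hne (Subtype.ext ((F l).eq_of_N (F l') ((F l).L_sub h) ((F l').L_sub h'))))
    (fun l _ h => (F l).N_sub ((F l).L_sub h))
    (fun l _ => ⟨(F l).bijG, (F l).bijH, fun _ => (F l).H_eq⟩)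
    (fun l _ h => ⟨(F l).g_eq ((F l).L_sub h), hh_L h⟩) (fun _ => hh_off) X.inj

theorem hh_eq_near (hx : x ∈ X.U \ Sk X.g X.U 1) (hL : ∀ l, x ∉ (F l).L) : hh F =ᶠ[𝓝 x] X.g := by
  by_cases hN : ∃ l, x ∈ (F l).N
  · obtain ⟨l, hl⟩ := hN
    filter_upwards [(F l).isOpen_N.mem_nhds hl, (isOpen_lt (F l).dlip.continuous
      (F l).continuous_σ.abs).mem_nhds (not_le.1 fun h => hL l ⟨hl.1, h⟩)] with z h1 h2
    rw [hh_N h1, (F l).H_eq fun h => absurd h.2 (not_le.2 h2), (F l).g_eq h1]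
  · exact (hh_free hx (not_exists.1 hN)).1

theorem hh_energy [Countable X.I] {p : ℝ} (hp : 1 ≤ p) : DE p X.U (hh F) X.g ≤
    ∑' l, (2 * (F l).C : ℝ≥0∞) ^ p * volume ({y | |(F l).σ y| ≤ (F l).κ} ∩ X.U) := by
  have hm : ∀ l, MeasurableSet {y | |(F l).σ y| ≤ (F l).κ} := fun l =>
    (isClosed_le (F l).continuous_σ.abs continuous_const).measurableSet
  calc DE p X.U (hh F) X.g
      ≤ ∫⁻ y in X.U, ∑' l, {y | |(F l).σ y| ≤ (F l).κ}.indicator
          (fun _ => (2 * (F l).C : ℝ≥0∞) ^ p) y := by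
        refine lintegral_mono_ae ?_
        filter_upwards [ae_restrict_mem X.opn.measurableSet,
          ae_restrict_of_ae (measure_eq_zero_iff_ae_notMem.1 X.null)] with y hU hS
        by_cases hL : ∃ l, y ∈ (F l).L
        · obtain ⟨l, hl⟩ := hL
          refine le_trans ?_ (ENNReal.le_tsum l)
          have h1 : X.g =ᶠ[𝓝 y] l.1.1 :=
            mem_of_superset ((F l).isOpen_N.mem_nhds ((F l).L_sub hl)) fun _ => (F l).g_eq
          rw [indicator_of_mem (show y ∈ {y | |(F l).σ y| ≤ (F l).κ} from (F l).slab hl),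
            (hh_N' ((F l).L_sub hl)).fderiv_eq, h1.fderiv_eq]
          refine ENNReal.rpow_le_rpow ?_ (by linarith)
          have h2 : ‖fderiv ℝ (F l).H y - fderiv ℝ l.1.1 y‖₊ ≤ 2 * (F l).C := by
            have h3 := norm_fderiv_le_of_lipschitz ℝ (x₀ := y) (F l).lipH
            have h4 := norm_fderiv_le_of_lipschitz ℝ (x₀ := y) (F l).lipG
            have h5 := norm_sub_le (fderiv ℝ (F l).H y) (fderiv ℝ l.1.1 y)
            rw [← NNReal.coe_le_coe, coe_nnnorm, NNReal.coe_mul, NNReal.coe_ofNat]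
            change ‖fderiv ℝ (F l).H y‖ ≤ _ at h3
            linarith
          exact_mod_cast h2
        · rw [(hh_eq_near ⟨hU, hS⟩ (not_exists.1 hL)).fderiv_eq, sub_self, enorm_eq_nnnorm,
            nnnorm_zero, ENNReal.coe_zero, ENNReal.zero_rpow_of_pos (by linarith)]
          exact zero_le
    _ = _ := by
        rw [lintegral_tsum fun l => (measurable_const.indicator (hm l)).aemeasurable]
        refine tsum_congr fun l => ?_
        rw [lintegral_indicator_const (hm l), Measure.restrict_apply (hm l)]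

theorem hh_phi {c : E} {r t s : ℝ} (hx : x ∈ Sk X.g X.U 1)
    (hc : ∀ᶠ q : E × ℝ in 𝓝 (x, (0 : ℝ)), X.g (q.1 + q.2 • X.e (lab X.g x)) = X.g q.1 + q.2 • c)
    (hr : ∀ z ∈ ball x (2 * r), Near X x c z) (ht : 0 < t) (hy : y ∈ ball x r)
    (hφ : x + t • (y - x) + s • X.e (lab X.g x) ∈ ball x r) :
    hh F (x + t • (y - x) + s • X.e (lab X.g x)) = X.g x + t • (hh F y - X.g x) + s • c := by
  by_cases hL : ∃ l, y ∈ (F l).L
  · obtain ⟨l, hl⟩ := hL
    obtain ⟨h1, h2⟩ := (F l).lens_phi hx hr ht hy hφ hl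
    rw [hh_L h1, hh_L hl, h2]
  · have hs : ball x r ⊆ ball x (2 * r) :=
      ball_subset_ball (by linarith [pos_of_mem_ball hy])
    have hT := X.st.isTan X.g x (X.cone x hx.1)
    have e1 : x + t⁻¹ • (x + t • (y - x) + s • X.e (lab X.g x) - x) +
        (-(t⁻¹ * s)) • X.e (lab X.g x) = y := by
      rw [add_assoc x (t • (y - x)), add_sub_cancel_left, smul_add, smul_smul,
        inv_mul_cancel₀ ht.ne']
      module
    rw [hh_off (not_exists.1 hL), hh_off fun l hl => hL ⟨l, e1 ▸ ((F l).lens_phi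
      (s := -(t⁻¹ * s)) hx hr (inv_pos.2 ht) hφ (e1.symm ▸ hy) hl).1⟩,
      (hr _ (hs hφ)).eq.self_of_nhds, (hr _ (hs hy)).eq.self_of_nhds,
      (X.st.transl X.g x _ c (X.cone x hx.1) hc).1, hT.2 y t ht.le, hT.1.self_of_nhds]

theorem hh_edge : EdgeCone (hh F) (Sk X.g X.U 1) := fun x hx => by
  obtain ⟨c, hc⟩ := X.e_mem hx
  obtain ⟨r, hr0, hr⟩ := Metric.eventually_nhds_iff_ball.1 (X.near hx hc)
  rw [show r = 2 * (r / 2) by ring] at hr
  have hr1 : 0 < r / 2 := by positivity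
  generalize r / 2 = r at hr hr1
  refine ⟨X.e (lab X.g x), c, X.lines.unit _, ⟨r / 2, by positivity, fun v hv t ht => ?_⟩,
    (X.lines.loc x hx).mono fun y hy => ?_, ?_, fun V hV => ?_⟩
  · rcases ht.1.eq_or_lt with rfl | ht0
    · simp
    · have h1 := hh_phi (F := F) (y := x + v) (s := 0) hx hc hr ht0
        (by rw [mem_ball, dist_self_add_left]; linarith) (by
          rw [add_sub_cancel_left, zero_smul, add_zero, mem_ball, dist_self_add_left,
            norm_smul_of_nonneg ht.1]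
          nlinarith [ht.2, norm_nonneg v])
      rwa [add_sub_cancel_left, zero_smul, zero_smul, add_zero, add_zero, ← hh_S (F := F) hx] at h1
  · rw [rc_base (X.lines.unit _) (X.rc_eq hx)]
    exact hy.1
  · have h1 : ContinuousAt (fun q : E × ℝ => q.1) (x, (0 : ℝ)) := by fun_prop
    have h2 : ContinuousAt (fun q : E × ℝ => q.1 + q.2 • X.e (lab X.g x)) (x, (0 : ℝ)) := by
      fun_prop
    filter_upwards [h1.eventually (ball_mem_nhds x hr1),
      h2.eventually (isOpen_ball.mem_nhds (by simpa using hr1 : _ ∈ ball x r))] with q a1 a2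
    have h3 := hh_phi (F := F) (y := q.1) (s := q.2) hx hc hr one_pos a1
      (by rwa [one_smul, add_sub_cancel])
    rwa [one_smul, one_smul, add_sub_cancel, add_sub_cancel] at h3
  · obtain ⟨δ, hδ, hV⟩ := Metric.mem_nhds_iff.1 hV
    obtain ⟨y, hy, hyS⟩ := (Measure.dense_of_ae (measure_eq_zero_iff_ae_notMem.1
      X.null)).inter_open_nonempty (ball x (δ / 4) ∩ X.U) (isOpen_ball.inter X.opn)
      ⟨x, mem_ball_self (by positivity), hx.1⟩
    have hy1 := mem_ball.1 hy.1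
    obtain ⟨y1, h1, A, b, h2⟩ : ∃ y1 ∈ ball x δ, ∃ (A : E →L[ℝ] E) (b : E),
        ∀ᶠ z in 𝓝 y1, hh F z = b + A z := by
      by_cases hN : ∃ l, y ∈ (F l).N
      · obtain ⟨l, hl⟩ := hN
        obtain ⟨y1, a1, a2, A, b, a3⟩ := (F l).exists_aff (Fc.mem_bad hx) hl
        refine ⟨y1, by rw [mem_ball]; linarith, A, b, ?_⟩
        filter_upwards [hh_N' a1, a3] with z b1 b2 using b1.trans b2
      · obtain ⟨a1, A, a2⟩ := hh_free ⟨hy.2, hyS⟩ (not_exists.1 hN)
        refine ⟨y, by rw [mem_ball]; linarith, A, X.g y - A y, ?_⟩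
        filter_upwards [a1.trans a2] with z hz
        rw [hz, map_sub, ContinuousLinearEquiv.coe_coe]
        abel
    obtain ⟨W, hW, hWo, hyW⟩ := _root_.mem_nhds_iff.1 (h2.and (isOpen_ball.mem_nhds h1))
    exact ⟨W, hWo, ⟨y1, hyW⟩, fun z hz => hV (hW hz).2, A, b, fun z hz => (hW hz).1⟩

theorem exists_slab {U : Set E} (hU : IsOpen U) (hb : Bornology.IsBounded U) {n : E}
    (hn : ‖n‖ = 1) (xf : E) {c η : ℝ≥0∞} (hc : c ≠ ⊤) (hη : 0 < η) :
    ∀ᶠ κ : ℝ in 𝓝[>] 0, c * volume ({y | |⟪n, y - xf⟫| ≤ κ} ∩ U) ≤ η := by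
  have h1 := tendsto_measure_biInter_gt (μ := volume) (a := (0 : ℝ))
    (s := fun κ => {y | |⟪n, y - xf⟫| ≤ κ} ∩ U)
    (fun κ _ => ((isClosed_le (by fun_prop) continuous_const).measurableSet.inter
      hU.measurableSet).nullMeasurableSet)
    (fun _ _ _ h _ hy => ⟨le_trans hy.1 h, hy.2⟩)
    ⟨1, one_pos, ((measure_mono inter_subset_right).trans_lt hb.measure_lt_top).ne⟩
  have h2 : volume (⋂ κ > (0 : ℝ), {y | |⟪n, y - xf⟫| ≤ κ} ∩ U) = 0 := by
    refine measure_mono_null (fun y hy => ?_) (Measure.addHaar_affineSubspace volume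
      (AffineSubspace.mk' xf (ℝ ∙ n)ᗮ) fun h => ?_)
    · rw [SetLike.mem_coe, AffineSubspace.mem_mk', Submodule.mem_orthogonal_singleton_iff_inner_right,
        vsub_eq_sub, ← abs_nonpos_iff]
      exact le_of_forall_pos_le_add fun κ hκ => by
        simpa using (mem_iInter₂.1 hy κ hκ).1
    · have h3 : xf + n ∈ AffineSubspace.mk' xf (ℝ ∙ n)ᗮ := h ▸ AffineSubspace.mem_top _ _ _
      rw [AffineSubspace.mem_mk', Submodule.mem_orthogonal_singleton_iff_inner_right, vsub_eq_sub,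
        add_sub_cancel_left, real_inner_self_eq_norm_sq, hn] at h3
      norm_num at h3
  rw [h2] at h1
  have h3 := ENNReal.Tendsto.const_mul h1 (Or.inr hc)
  rw [mul_zero] at h3
  exact (h3.eventually (gt_mem_nhds hη)).mono fun _ => le_of_lt

theorem exists_fc (hFD : StmtFD) (hFM : StmtFM) (X : Ctx) (hb : Bornology.IsBounded X.U)
    {O : Lab → Set E} (hT : Tubes X.U (Sk X.g X.U 1) (lab X.g) X.x0 X.e (fun _ => 1) O X.ρ)
    (h1 : ∀ i, ∀ y ∈ O i, X.g =ᶠ[𝓝 y] i.1) (h2 : ∀ i, ∀ y ∈ O i, rc (X.x0 i) (X.e i) y ≤ X.γ y)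
    (l : X.I) {p : ℝ} (hp : 1 ≤ p) {η : ℝ≥0∞} (hη : 0 < η) : ∃ F : Fc X l.1,
      (2 * F.C : ℝ≥0∞) ^ p * volume ({y | |F.σ y| ≤ F.κ} ∩ X.U) ≤ η := by
  obtain ⟨l, xf, hU, hr, rfl⟩ := l
  obtain ⟨A, n, a, hn, ha, hlin, htan⟩ :=
    X.st.rk2 X.g xf X.U (X.cone xf hU) (X.opn.mem_nhds hU) X.inj hr
  obtain ⟨κ0, C, hκ0, hfm⟩ := hFM X.M A n a X.hM hn ha
  have e1 : ∀ᶠ κ : ℝ in 𝓝[>] 0, κ ≤ min (κ0 : ℝ) (1 / 3) :=
    mem_nhdsWithin_of_mem_nhds (ge_mem_nhds (lt_min hκ0 (by norm_num)))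
  have e2 : ∀ᶠ κ : ℝ in 𝓝[>] 0, (C : ℝ) * κ ≤ 1 / 2 :=
    mem_nhdsWithin_of_mem_nhds ((continuous_const.mul continuous_id).continuousAt.eventually
      (ge_mem_nhds (by simp)))
  obtain ⟨κ, ⟨⟨a1, a2⟩, a3⟩, a4⟩ := (((e1.and e2).and (exists_slab X.opn hb hn xf
    (c := (2 * C : ℝ≥0∞) ^ p) (ENNReal.rpow_ne_top_of_nonneg (by linarith)
      (ENNReal.mul_ne_top (by simp) ENNReal.coe_ne_top)) hη)).and self_mem_nhdsWithin).exists
  lift κ to ℝ≥0 using le_of_lt a4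
  obtain ⟨d, d1, d2, d3, d4, d5, d6, d7⟩ := hFD X.g X.U X.x0 X.e (fun _ => 1) O X.ρ X.γ xf n κ
    X.opn hb X.cone X.rk1 X.lines hT (fun _ => le_rfl) h1 h2 X.lip.continuous.continuousOn X.pos
    hU hr hn hlin a4
  have hG : fm X.M (X.g xf) A xf n a (fun _ => 0) = tanM X.g xf := funext fun y => by
    rw [htan, fm, X.hM.out _ _ le_rfl (abs_nonneg _)]
  obtain ⟨g1, g2, -, -⟩ := hfm (X.g xf) xf (fun _ => 0) ((LipschitzWith.const 0).weaken zero_le)
    fun _ => le_rfl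
  obtain ⟨f1, f2, f3, f4⟩ := hfm (X.g xf) xf d (d1.weaken (a1.trans (min_le_left _ _))) d2
  rw [hG] at g1 g2 f4
  exact ⟨⟨xf, n, a, A, d, C, κ, ⟨hU, hr, rfl⟩, hn, hlin, htan, a1.trans (min_le_right _ _), a2, d1,
    d2, d3, d4, d6, d7, g1, f1, g2, f2, fun y hy => f3 y hy (d5 y hy), f4⟩, a3⟩

end Face

open Face in
theorem blockFACE (hM : StmtM) (hST : StmtST) (hT : StmtT) (hFD : StmtFD) (hFM : StmtFM)
    (hP : StmtPATCH) : StmtFACE := by
  intro p g U γ ε hp hU hb hc hi hcone hrk hγ hpos hε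
  obtain ⟨M, hM⟩ := hM
  obtain ⟨x0, e, hl⟩ := hST.lines g U hU hcone hrk
  obtain ⟨-, hnull, hT⟩ := hT Lab U _ _ x0 e hl hb
  obtain ⟨ρ, hρ, -⟩ := hT (fun _ => 1)
    (fun i => {y | g =ᶠ[𝓝 y] i.1} ∩ {y | rc (x0 i) (e i) y < γ y}) (fun _ _ => 1)
    (fun _ => one_pos) (fun i => isOpen_setOfPred_eventually_nhds.inter
      (isOpen_lt (continuous_rc _ _) hγ.continuous))
    (fun x hx => ⟨EventuallyEq.symm (hST.isTan g x (hcone x hx.1)).1,
      ((hl.loc x hx).self_of_nhds.1.1 hx).trans_lt (hpos x hx.1)⟩)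
    (fun _ => continuousOn_const) fun _ _ _ => one_pos
  let X : Ctx := ⟨M, g, U, γ, x0, e, ρ, hM, hST, hU, hc, hi, hcone, hrk, hγ, hpos, hl,
    fun i => (hρ.lip i).continuous, fun i s h h' => (hρ.pos i s).2 ⟨h, h'⟩, hnull⟩
  have hsub : {l | (face g U l).Nonempty} ⊆ lab g '' U := fun _ ⟨x, hx⟩ => ⟨x, hx.1, hx.2.2⟩
  have : Countable X.I := ((hST.count g U hU hcone).mono hsub).to_subtype
  obtain ⟨η, hη, hs⟩ := ENNReal.exists_pos_sum_of_countable' hε.ne' X.I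
  choose F hF using fun l => exists_fc hFD hFM X hb hρ (fun _ _ h => h.1)
    (fun _ _ h => le_of_lt h.2) l hp (hη l)
  exact ⟨hh F, Sk g U 1, fun x hx => hh_off fun l h => hx ((F l).N_sub ((F l).L_sub h)),
    hh_cont, hh_bij hP, fun _ => hh_gauge (X := X),
    (hh_energy hp).trans ((ENNReal.tsum_le_tsum hF).trans hs.le), hl.sub, hl.cl,
    fun _ => hh_ld (X := X), hh_edge⟩

end Vale.Agent.P073Z.Sm
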