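import Vale.Agent.P073Z.Sm.Sk

/-!
# P073, smoothing half: block HOMLIP
-/

open Set Metric Topology Filter
open scoped ContDiff NNReal

noncomputable section

namespace Vale.Agent.P073Z.Sm

namespace HOMLIP

variable {X Y : Type} [NormedAddCommGroup X] [NormedSpace ℝ X] [NormedAddCommGroup Y]
  [NormedSpace ℝ Y] {G : X → Y}

/-- the derivative is homogeneous of degree zero -/
theorem fderiv_smul_eq (hh : ∀ (x : X) (t : ℝ), 0 ≤ t → G (t • x) = t • G x)
    (hs : ∀ x, x ≠ 0 → ContDiffAt ℝ ∞ G x) {x : X} (hx : x ≠ 0) {t : ℝ} (ht : 0 < t) :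
    fderiv ℝ G (t • x) = fderiv ℝ G x := by
  have hd : ∀ x, x ≠ 0 → DifferentiableAt ℝ G x := fun x hx =>
    (hs x hx).differentiableAt (by simp)
  have h1 : HasFDerivAt (fun y => G (t • y))
      ((fderiv ℝ G (t • x)).comp (t • ContinuousLinearMap.id ℝ X)) x :=
    (hd _ (smul_ne_zero ht.ne' hx)).hasFDerivAt.comp x ((hasFDerivAt_id x).const_smul t)
  have h2 : HasFDerivAt (fun y => G (t • y)) (t • fderiv ℝ G x) x := by
    have e : (fun y => G (t • y)) = fun y => t • G y := funext fun y => hh y t ht.le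
    rw [e]
    exact (hd x hx).hasFDerivAt.const_smul t
  have h3 := h1.unique h2
  ext v
  have h4 := congrArg (fun T : X →L[ℝ] Y => T v) h3
  simp only [ContinuousLinearMap.comp_apply, smul_apply,
    ContinuousLinearMap.id_apply, map_smul] at h4
  exact smul_right_injective Y ht.ne' h4

theorem unit_mem {x : X} (hx : x ≠ 0) : ‖x‖⁻¹ • x ∈ sphere (0 : X) 1 := by
  have h : 0 < ‖x‖ := norm_pos_iff.2 hx
  rw [mem_sphere_zero_iff_norm, norm_smul, Real.norm_of_nonneg (inv_pos.2 h).le,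
    inv_mul_cancel₀ h.ne']

omit [NormedSpace ℝ X] in
theorem ne_of_mem {x : X} (hx : x ∈ sphere (0 : X) 1) : x ≠ 0 := by
  rintro rfl
  simp at hx

theorem bound [FiniteDimensional ℝ X] (hh : ∀ (x : X) (t : ℝ), 0 ≤ t → G (t • x) = t • G x)
    (hs : ∀ x, x ≠ 0 → ContDiffAt ℝ ∞ G x) :
    ∃ C : ℝ, 0 ≤ C ∧ (∀ x, x ≠ 0 → ‖fderiv ℝ G x‖ ≤ C) ∧ ∀ x, ‖G x‖ ≤ C * ‖x‖ := by
  have : ProperSpace X := FiniteDimensional.proper_real X
  have hc1 : ContinuousOn (fun x => fderiv ℝ G x) (sphere (0 : X) 1) := fun x hx =>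
    ((hs x (ne_of_mem hx)).continuousAt_fderiv (by simp)).continuousWithinAt
  have hc2 : ContinuousOn G (sphere (0 : X) 1) := fun x hx =>
    (hs x (ne_of_mem hx)).continuousAt.continuousWithinAt
  obtain ⟨C1, hC1⟩ := (isCompact_sphere (0 : X) 1).exists_bound_of_continuousOn hc1
  obtain ⟨C2, hC2⟩ := (isCompact_sphere (0 : X) 1).exists_bound_of_continuousOn hc2
  refine ⟨max (max C1 C2) 0, le_max_right _ _, fun x hx => ?_, fun x => ?_⟩
  · have h : 0 < ‖x‖ := norm_pos_iff.2 hx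
    rw [← fderiv_smul_eq hh hs hx (inv_pos.2 h)]
    exact (hC1 _ (unit_mem hx)).trans ((le_max_left _ _).trans (le_max_left _ _))
  · by_cases hx : x = 0
    · have h0 : G 0 = 0 := by simpa using hh 0 0 le_rfl
      rw [hx, h0]
      simp
    · have h : 0 < ‖x‖ := norm_pos_iff.2 hx
      have e : G x = ‖x‖ • G (‖x‖⁻¹ • x) := by
        rw [← hh _ _ h.le, smul_smul, mul_inv_cancel₀ h.ne', one_smul]
      rw [e, norm_smul, norm_norm, mul_comm]
      exact mul_le_mul_of_nonneg_right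
        ((hC2 _ (unit_mem hx)).trans ((le_max_right _ _).trans (le_max_left _ _))) h.le

end HOMLIP

theorem blockHOMLIP : StmtHOMLIP := by
  intro X Y _ _ _ _ _ G hh hs
  obtain ⟨C, hC, h1, h2⟩ := HOMLIP.bound hh hs
  refine ⟨⟨C, hC⟩, LipschitzWith.of_dist_le_mul fun x y => ?_⟩
  show dist (G x) (G y) ≤ C * dist x y
  by_cases h0 : (0 : X) ∈ segment ℝ x y
  · have e := dist_add_dist_of_mem_segment h0
    rw [dist_zero_right, dist_zero_left] at e
    rw [← e, dist_eq_norm, mul_add]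
    exact (norm_sub_le _ _).trans (add_le_add (h2 x) (h2 y))
  · have hne : ∀ z ∈ segment ℝ x y, z ≠ 0 := fun z hz hz0 => h0 (hz0 ▸ hz)
    rw [dist_eq_norm, dist_eq_norm]
    exact (convex_segment x y).norm_image_sub_le_of_norm_fderiv_le
      (fun z hz => (hs z (hne z hz)).differentiableAt (by simp)) (fun z hz => h1 z (hne z hz))
      (right_mem_segment ℝ x y) (left_mem_segment ℝ x y)

end Vale.Agent.P073Z.Sm
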