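import Vale.Agent.P073Z.Sm.Sk

/-!
# P073, smoothing half: block LF
-/

open Set Metric MeasureTheory Topology Filter
open scoped ContDiff ENNReal NNReal RealInnerProductSpace

noncomputable section

namespace Vale.Agent.P073Z.Sm

theorem blockLF : StmtLF := by
  intro P Ω hΩ hP
  have key : ∀ x ∈ Ω, ∃ r : ℝ, 0 < r ∧ closedBall x r ⊆ Ω ∧ (P ∩ closedBall x r).Finite := by
    intro x hx
    obtain ⟨r, hr, h1⟩ := nhds_basis_closedBall.mem_iff.mp (hΩ.mem_nhds hx)
    exact ⟨r, hr, h1, hP.2 _ (isCompact_closedBall x r) h1⟩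
  refine ⟨?_, fun P' hP' => ?_⟩
  · choose! r hr using key
    obtain ⟨t, ht, htc, hcov⟩ := TopologicalSpace.countable_cover_nhdsWithin
      (f := fun x => P ∩ closedBall x (r x)) (s := P) fun x hx =>
        inter_mem_nhdsWithin P (closedBall_mem_nhds x (hr x (hP.1 hx)).1)
    exact (htc.biUnion fun x hx => (hr x (hP.1 (ht hx))).2.2.countable).mono hcov
  · rw [isOpen_iff_mem_nhds]
    intro x hx
    obtain ⟨r, hr, h1, h2⟩ := key x hx.1
    have h3 : (P' ∩ closedBall x r).Finite := h2.subset (inter_subset_inter_left _ hP')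
    have h4 : (P' ∩ closedBall x r)ᶜ ∈ 𝓝 x :=
      h3.isClosed.isOpen_compl.mem_nhds fun h => hx.2 h.1
    filter_upwards [h4, closedBall_mem_nhds x hr] with y hy hy'
    exact ⟨h1 hy', fun h => hy ⟨h, hy'⟩⟩

end Vale.Agent.P073Z.Sm
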