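import Vale.Agent.P073Z.Sm.Sk

/-!
# P073, smoothing half: block M
-/

open Set Metric Topology Filter
open scoped ContDiff

noncomputable section

namespace Vale.Agent.P073Z.Sm

namespace M

/-- the derivative of the profile -/
def st (u : ℝ) : ℝ := Real.smoothTransition ((u + 1) / 2)

/-- the profile: a smooth convex function equal to `max s 0` for `1 ≤ |s|` -/
def mu (s : ℝ) : ℝ := ∫ u in (-1 : ℝ)..s, st u

theorem st_smooth : ContDiff ℝ ∞ st := by
  unfold st
  exact Real.smoothTransition.contDiff.comp ((contDiff_id.add contDiff_const).div_const 2)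

theorem st_nonneg (u : ℝ) : 0 ≤ st u := Real.smoothTransition.nonneg _

theorem st_le_one (u : ℝ) : st u ≤ 1 := Real.smoothTransition.le_one _

theorem st_zero {u : ℝ} (h : u ≤ -1) : st u = 0 :=
  Real.smoothTransition.zero_of_nonpos (by linarith)

theorem st_symm (u : ℝ) : st u + st (-u) = 1 := by
  have e : (-u + 1) / 2 = 1 - (u + 1) / 2 := by ring
  have h := Real.smoothTransition.pos_denom ((u + 1) / 2)
  unfold st Real.smoothTransition
  rw [e, sub_sub_cancel, add_comm (expNegInvGlue (1 - (u + 1) / 2)), ← add_div, div_self h.ne']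

theorem mu_deriv (s : ℝ) : HasDerivAt mu (st s) s :=
  (st_smooth.continuous.integral_hasStrictDerivAt (-1) s).hasDerivAt

theorem mu_diff : Differentiable ℝ mu := fun s => (mu_deriv s).differentiableAt

theorem deriv_mu : deriv mu = st := funext fun s => (mu_deriv s).deriv

theorem mu_smooth : ContDiff ℝ ∞ mu := by
  rw [contDiff_infty_iff_deriv, deriv_mu]
  exact ⟨mu_diff, st_smooth⟩

theorem mu_mono : Monotone mu :=
  monotone_of_deriv_nonneg mu_diff fun s => by rw [deriv_mu]; exact st_nonneg s

theorem mu_sub_le {s s' : ℝ} (h : s ≤ s') : mu s' - mu s ≤ s' - s := by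
  have := image_sub_le_mul_sub_of_deriv_le mu_diff (C := 1)
    (fun s => by rw [deriv_mu]; exact st_le_one s) h
  linarith

theorem mu_zero {s : ℝ} (h : s ≤ -1) : mu s = 0 := by
  unfold mu
  rw [intervalIntegral.integral_congr (g := fun _ => (0 : ℝ))]
  · simp
  · intro u hu
    rw [uIcc_of_ge h] at hu
    exact st_zero hu.2

theorem mu_nonneg (s : ℝ) : 0 ≤ mu s := by
  have := mu_mono (min_le_left s (-1))
  rwa [mu_zero (min_le_right s (-1))] at this

theorem mu_symm (s : ℝ) : mu s = s + mu (-s) := by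
  have hd : ∀ x : ℝ, HasDerivAt (fun x => mu x - mu (-x) - x) 0 x := fun x => by
    have h1 : HasDerivAt (fun x => mu (-x)) (st (-x) * (-1)) x :=
      (mu_deriv (-x)).comp x (hasDerivAt_neg x)
    have h2 := ((mu_deriv x).sub h1).sub (hasDerivAt_id x)
    have e : st x - st (-x) * (-1) - 1 = 0 := by
      have := st_symm x
      linarith
    rw [e] at h2
    exact h2
  have := is_const_of_deriv_eq_zero (fun x => (hd x).differentiableAt) (fun x => (hd x).deriv) s 0
  simp only [neg_zero, sub_self] at this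
  linarith

theorem mu_out {s : ℝ} (h : 1 ≤ |s|) : mu s = max s 0 := by
  rcases le_total 0 s with h0 | h0
  · rw [abs_of_nonneg h0] at h
    rw [mu_symm, mu_zero (by linarith), add_zero, max_eq_left h0]
  · rw [abs_of_nonpos h0] at h
    rw [mu_zero (by linarith), max_eq_right h0]

theorem mu_le_one {s : ℝ} (h : s ≤ 1) : mu s ≤ 1 := by
  have h1 := mu_mono h
  rw [mu_out (s := 1) (by simp)] at h1
  simpa using h1

theorem mu_close (s : ℝ) : |mu s - max s 0| ≤ 1 := by
  rcases le_total 0 s with h0 | h0
  · rw [max_eq_left h0, mu_symm, add_sub_cancel_left, abs_of_nonneg (mu_nonneg _)]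
    exact mu_le_one (by linarith)
  · rw [max_eq_right h0, sub_zero, abs_of_nonneg (mu_nonneg _)]
    exact mu_le_one (by linarith)

theorem psi_aux {s : ℝ} (h0 : 0 ≤ s) : |mu s - s * st s| ≤ 1 := by
  rcases le_total s 1 with h | h
  · have h1 := mu_nonneg s
    have h2 := mu_le_one h
    have h3 : 0 ≤ s * st s := mul_nonneg h0 (st_nonneg s)
    have h4 : s * st s ≤ 1 := mul_le_one₀ h (st_nonneg s) (st_le_one s)
    exact abs_le.2 ⟨by linarith, by linarith⟩
  · have h1 : st s = 1 := by
      have := st_symm s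
      rw [st_zero (u := -s) (by linarith)] at this
      linarith
    rw [mu_out (by rwa [abs_of_nonneg h0]), max_eq_left h0, h1]
    simp

theorem psi (s : ℝ) : |mu s - s * st s| ≤ 1 := by
  rcases le_total 0 s with h | h
  · exact psi_aux h
  · have h1 := psi_aux (s := -s) (by linarith)
    have h2 := mu_symm s
    have h3 : st (-s) = 1 - st s := by
      have := st_symm s
      linarith
    have e : mu s - s * st s = mu (-s) - -s * st (-s) := by
      rw [h2, h3]; ring
    rw [e]
    exact h1

/-- the smoothed positive part -/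
def MM (t δ : ℝ) : ℝ := if 0 < δ then δ * mu (t / δ) else max t 0

theorem pos_lip (t : ℝ) {δ δ' : ℝ} (h : 0 < δ) (h' : 0 < δ') :
    |δ * mu (t / δ) - δ' * mu (t / δ')| ≤ |δ - δ'| := by
  have hd : ∀ x ∈ Ioi (0 : ℝ), HasDerivWithinAt (fun x => x * mu (t / x))
      (mu (t / x) - t / x * st (t / x)) (Ioi 0) x := fun x hx => by
    have hx' : x ≠ 0 := ne_of_gt hx
    have h1 : HasDerivAt (fun x => t / x) (-t / x ^ 2) x := by
      have := (hasDerivAt_const x t).fun_div (hasDerivAt_id' x) hx'
      simpa using this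
    have h2 : HasDerivAt (fun x => mu (t / x)) (st (t / x) * (-t / x ^ 2)) x :=
      (mu_deriv (t / x)).comp x h1
    have h3 := (hasDerivAt_id x).mul h2
    have e : 1 * mu (t / x) + id x * (st (t / x) * (-t / x ^ 2)) =
        mu (t / x) - t / x * st (t / x) := by
      simp only [id]
      field_simp
      ring
    rw [e] at h3
    exact h3.hasDerivWithinAt
  have := (convex_Ioi (0 : ℝ)).norm_image_sub_le_of_norm_hasDerivWithin_le (C := 1) hd
    (fun x _ => psi (t / x)) h' h
  simpa using this

theorem zero_lip (t : ℝ) {δ : ℝ} (h : 0 < δ) : |δ * mu (t / δ) - max t 0| ≤ δ := by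
  have e : max t 0 = δ * max (t / δ) 0 := by
    rw [mul_max_of_nonneg _ _ h.le, mul_zero, mul_div_cancel₀ _ h.ne']
  rw [e, ← mul_sub, abs_mul, abs_of_pos h]
  have := mul_le_mul_of_nonneg_left (mu_close (t / δ)) h.le
  linarith

theorem isM : IsM MM where
  out t δ _ h := by
    unfold MM
    split_ifs with h1
    · rw [mu_out, mul_max_of_nonneg _ _ h1.le, mul_zero, mul_div_cancel₀ _ h1.ne']
      rw [abs_div, abs_of_pos h1, le_div_iff₀ h1]
      linarith
    · rfl
  mono t t' δ _ h := by
    unfold MM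
    split_ifs with h1
    · have h2 : t / δ ≤ t' / δ := div_le_div_of_nonneg_right h h1.le
      refine ⟨mul_le_mul_of_nonneg_left (mu_mono h2) h1.le, ?_⟩
      have h3 := mul_le_mul_of_nonneg_left (mu_sub_le h2) h1.le
      rw [mul_sub, mul_sub, mul_div_cancel₀ _ h1.ne', mul_div_cancel₀ _ h1.ne'] at h3
      exact h3
    · refine ⟨max_le_max_right 0 h, ?_⟩
      have := abs_max_sub_max_le_abs t' t 0
      rw [abs_of_nonneg (sub_nonneg.2 h)] at this
      exact (le_abs_self _).trans this
  lip t δ δ' h h' := by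
    unfold MM
    split_ifs with h1 h2 h2
    · exact pos_lip t h1 h2
    · have e : δ' = 0 := le_antisymm (not_lt.1 h2) h'
      rw [e, sub_zero, abs_of_pos h1]
      exact zero_lip t h1
    · have e : δ = 0 := le_antisymm (not_lt.1 h1) h
      rw [e, zero_sub, abs_neg, abs_of_pos h2, abs_sub_comm]
      exact zero_lip t h2
    · simp
  hom c t δ hc := by
    unfold MM
    by_cases h1 : 0 < δ
    · rw [if_pos h1, if_pos (mul_pos hc h1), mul_div_mul_left _ _ hc.ne', mul_assoc]
    · rw [if_neg h1, if_neg (fun h => h1 ((mul_pos_iff_of_pos_left hc).1 h)),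
        mul_max_of_nonneg _ _ hc.le, mul_zero]
  smooth := by
    have h1 : ContDiffOn ℝ ∞ (fun q : ℝ × ℝ => q.2 * mu (q.1 / q.2)) (univ ×ˢ Ioi 0) :=
      contDiffOn_snd.mul (mu_smooth.comp_contDiffOn
        (contDiffOn_fst.div contDiffOn_snd fun q hq => ne_of_gt hq.2))
    exact h1.congr fun q hq => if_pos hq.2

end M

theorem blockM : StmtM := ⟨M.MM, M.isM⟩

end Vale.Agent.P073Z.Sm
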