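import Vale.Agent.P073Z.Sm.Sk

/-!
# P073, smoothing half: block MOVE

Moving a singular point along a segment at small cost.
-/

open Set Metric MeasureTheory Topology Filter
open scoped ContDiff ENNReal NNReal RealInnerProductSpace

noncomputable section

namespace Vale.Agent.P073Z.Sm

namespace MOVE

/-- a bijection which is the identity off `K` maps every superset of `K` into itself -/
theorem mapsTo_of_off {s : E → E} {K T : Set E} (hs : Function.Injective s)
    (hoff : ∀ x, x ∉ K → s x = x) (hKT : K ⊆ T) : MapsTo s T T := by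
  intro x hx
  by_contra hc
  have h1 : s (s x) = s x := hoff _ fun h => hc (hKT h)
  have h2 := hs h1
  rw [h2] at hc
  exact hc hx

theorem bijOn_of_off {s : E → E} {K T : Set E} (hs : Function.Bijective s)
    (hoff : ∀ x, x ∉ K → s x = x) (hKT : K ⊆ T) : BijOn s T T := by
  refine ⟨mapsTo_of_off hs.1 hoff hKT, hs.1.injOn, fun y hy => ?_⟩
  obtain ⟨x, rfl⟩ := hs.2 y
  refine ⟨x, ?_, rfl⟩
  by_contra hc
  rw [hoff x fun h => hc (hKT h)] at hy
  exact hc hy

theorem homeo_self (hINV : StmtINV) {s : E → E} {K T : Set E} (hs : Function.Bijective s)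
    (hld : ∀ x, LD s x) (hoff : ∀ x, x ∉ K → s x = x) (hKT : K ⊆ T) : Homeo s T T := by
  refine ⟨fun x _ => (hld x).continuousAt.continuousWithinAt, bijOn_of_off hs hoff hKT, ?_⟩
  intro V hV _
  exact (hINV E s univ isOpen_univ hs.1.injOn fun x _ => hld x).1 V hV (subset_univ _)

theorem homeo_comp {g h : E → E} {Ω Λ Γ : Set E} (hg : Homeo g Λ Γ) (hh : Homeo h Ω Λ) :
    Homeo (fun x => g (h x)) Ω Γ := by
  refine ⟨hg.cont.comp hh.cont hh.bij.mapsTo, hg.bij.comp hh.bij, fun V hV hVΩ => ?_⟩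
  have : (fun x => g (h x)) '' V = g '' (h '' V) := by rw [image_image]
  rw [this]
  exact hg.opn _ (hh.opn V hV hVΩ) ((image_mono hVΩ).trans hh.bij.mapsTo.image_subset)

theorem homeo_congr {g h : E → E} {Ω Λ : Set E} (hh : Homeo h Ω Λ) (he : EqOn g h Ω) :
    Homeo g Ω Λ := by
  refine ⟨hh.cont.congr he, hh.bij.congr he.symm, fun V hV hVΩ => ?_⟩
  rw [(he.mono hVΩ).image_eq]
  exact hh.opn V hV hVΩ

theorem En_mono (p : ℝ) {A B : Set E} (hAB : A ⊆ B) (h : E → E) : En p A h ≤ En p B h :=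
  lintegral_mono_set hAB

theorem En_congr (p : ℝ) {A U : Set E} {g h : E → E} (hA : MeasurableSet A) (hU : IsOpen U)
    (hAU : A ⊆ U) (he : EqOn g h U) : En p A g = En p A h := by
  refine setLIntegral_congr_fun hA fun x hx => ?_
  have : g =ᶠ[𝓝 x] h := eventuallyEq_of_mem (hU.mem_nhds (hAU hx)) he
  simp only [this.fderiv_eq]

theorem contDiff_of_LD {s : E → E} (hld : ∀ x, LD s x) : ContDiff ℝ ∞ s :=
  contDiff_iff_contDiffAt.2 fun x => (hld x).1

theorem cont_fderiv {s : E → E} (hld : ∀ x, LD s x) : Continuous (fderiv ℝ s) :=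
  (contDiff_of_LD hld).continuous_fderiv (by simp)

/-- postcomposition with a smooth map keeps the energy finite -/
theorem En_post_lt {p : ℝ} (hp : 0 ≤ p) {τ g : E → E} {A B : Set E} {w : E}
    (hτ : ∀ x, LD τ x) (hA : MeasurableSet A) (hB : IsCompact B) (hAB : MapsTo g A B)
    (hg : ∀ x ∈ A, x ≠ w → DifferentiableAt ℝ g x) (hfin : En p A g < ⊤) :
    En p A (fun x => τ (g x)) < ⊤ := by
  obtain ⟨M, hM⟩ := hB.exists_bound_of_continuousOn (cont_fderiv hτ).continuousOn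
  have hle : En p A (fun x => τ (g x)) ≤ ∫⁻ x in A, ENNReal.ofReal M ^ p * ‖fderiv ℝ g x‖ₑ ^ p := by
    refine lintegral_mono_ae ?_
    have h0 : ∀ᵐ x ∂(volume.restrict A), x ≠ w := by
      refine ae_restrict_of_ae ?_
      simp [ae_iff]
    filter_upwards [ae_restrict_mem hA, h0] with x hx hxw
    have h1 : fderiv ℝ (fun x => τ (g x)) x = (fderiv ℝ τ (g x)).comp (fderiv ℝ g x) :=
      fderiv_comp x (hτ _).differentiableAt (hg x hx hxw)
    rw [h1, ← ENNReal.mul_rpow_of_nonneg _ _ hp]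
    refine ENNReal.rpow_le_rpow ?_ hp
    have h2 := hM _ (hAB hx)
    calc ‖(fderiv ℝ τ (g x)).comp (fderiv ℝ g x)‖ₑ
        ≤ ‖fderiv ℝ τ (g x)‖ₑ * ‖fderiv ℝ g x‖ₑ := ContinuousLinearMap.opENorm_comp_le _ _
      _ ≤ ENNReal.ofReal M * ‖fderiv ℝ g x‖ₑ := by
        gcongr
        rw [← ofReal_norm]
        exact ENNReal.ofReal_le_ofReal h2
  refine hle.trans_lt ?_
  rw [lintegral_const_mul' _ _ (ENNReal.rpow_ne_top_of_nonneg hp ENNReal.ofReal_ne_top)]
  exact ENNReal.mul_lt_top (ENNReal.rpow_lt_top_of_nonneg hp ENNReal.ofReal_ne_top) hfin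

theorem det_ne_zero {s : E → E} {x : E} (h : LD s x) : (fderiv ℝ s x).det ≠ 0 := by
  intro h0
  have := (LinearMap.det_eq_zero_iff_ker_ne_bot (f := (fderiv ℝ s x : E →ₗ[ℝ] E))).1 h0
  exact this (LinearMap.ker_eq_bot.2 h.2)

/-- distortion bound on a compact set -/
theorem exists_distortion {p : ℝ} (hp : 0 ≤ p) {τ : E → E} {A : Set E} (hτ : ∀ x, LD τ x)
    (hA : IsCompact A) :
    ∃ c : ℝ, 0 ≤ c ∧ ∀ x ∈ A, ‖fderiv ℝ τ x‖ ^ p ≤ c * |(fderiv ℝ τ x).det| := by
  have hc : Continuous fun x => ‖fderiv ℝ τ x‖ ^ p / |(fderiv ℝ τ x).det| := by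
    refine Continuous.div ?_ ?_ fun x => abs_ne_zero.2 (det_ne_zero (hτ x))
    · exact (cont_fderiv hτ).norm.rpow_const fun x => Or.inr hp
    · exact (ContinuousLinearMap.continuous_det.comp (cont_fderiv hτ)).abs
  obtain ⟨M, hM⟩ := hA.exists_bound_of_continuousOn hc.continuousOn
  refine ⟨max M 0, le_max_right _ _, fun x hx => ?_⟩
  have h1 := (le_abs_self _).trans ((Real.norm_eq_abs _).symm.trans_le (hM x hx))
  have h2 : 0 < |(fderiv ℝ τ x).det| := abs_pos.2 (det_ne_zero (hτ x))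
  rw [div_le_iff₀ h2] at h1
  exact h1.trans (mul_le_mul_of_nonneg_right (le_max_left _ _) h2.le)

/-- the similarity which carries the model cylinder to the segment -/
def Phi (R : E ≃ₗᵢ[ℝ] E) (v : E) (r : ℝ) (x : E) : E := v + r • R x

/-- the inverse similarity -/
def Psi (R : E ≃ₗᵢ[ℝ] E) (v : E) (r : ℝ) (y : E) : E := r⁻¹ • R.symm (y - v)

theorem Psi_Phi (R : E ≃ₗᵢ[ℝ] E) (v : E) {r : ℝ} (hr : r ≠ 0) (x : E) :
    Psi R v r (Phi R v r x) = x := by
  simp [Psi, Phi, smul_smul, inv_mul_cancel₀ hr]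

theorem Phi_Psi (R : E ≃ₗᵢ[ℝ] E) (v : E) {r : ℝ} (hr : r ≠ 0) (y : E) :
    Phi R v r (Psi R v r y) = y := by
  simp only [Psi, Phi, map_smul, smul_smul, mul_inv_cancel₀ hr, one_smul,
    LinearIsometryEquiv.apply_symm_apply]
  abel

theorem hasFDerivAt_Phi (R : E ≃ₗᵢ[ℝ] E) (v : E) (r : ℝ) (x : E) :
    HasFDerivAt (Phi R v r) (r • (R : E →L[ℝ] E)) x :=
  ((R : E →L[ℝ] E).hasFDerivAt.const_smul r).const_add v

theorem hasFDerivAt_Psi (R : E ≃ₗᵢ[ℝ] E) (v : E) (r : ℝ) (y : E) :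
    HasFDerivAt (Psi R v r) (r⁻¹ • (R.symm : E →L[ℝ] E)) y := by
  have h1 : HasFDerivAt (fun y : E => y - v) (ContinuousLinearMap.id ℝ E) y :=
    (hasFDerivAt_id y).sub_const v
  have h2 := ((R.symm : E →L[ℝ] E).hasFDerivAt.comp y h1).const_smul r⁻¹
  rw [ContinuousLinearMap.comp_id] at h2
  exact h2

theorem LD_Phi (R : E ≃ₗᵢ[ℝ] E) (v : E) {r : ℝ} (hr : r ≠ 0) (x : E) : LD (Phi R v r) x := by
  have h := LD.affine (r • (R : E →L[ℝ] E)) (fun a b hab => by
    have : r • R a = r • R b := hab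
    exact R.injective (smul_right_injective E hr this)) v 0 x
  refine h.congr (Eventually.of_forall fun y => ?_)
  simp [Phi]

theorem LD_Psi (R : E ≃ₗᵢ[ℝ] E) (v : E) {r : ℝ} (hr : r ≠ 0) (y : E) : LD (Psi R v r) y := by
  have h := LD.affine (r⁻¹ • (R.symm : E →L[ℝ] E)) (fun a b hab => by
    have : r⁻¹ • R.symm a = r⁻¹ • R.symm b := hab
    exact R.symm.injective (smul_right_injective E (inv_ne_zero hr) this)) 0 v y
  refine h.congr (Eventually.of_forall fun y => ?_)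
  simp [Psi]

theorem fderiv_conj (R : E ≃ₗᵢ[ℝ] E) (v : E) {r : ℝ} (hr : r ≠ 0) {σ : E → E}
    (hσ : ∀ x, LD σ x) (y : E) :
    fderiv ℝ (fun y => Phi R v r (σ (Psi R v r y))) y =
      (R : E →L[ℝ] E).comp ((fderiv ℝ σ (Psi R v r y)).comp (R.symm : E →L[ℝ] E)) := by
  have h := (hasFDerivAt_Phi R v r _).comp y
    ((hσ _).differentiableAt.hasFDerivAt.comp y (hasFDerivAt_Psi R v r y))
  have h2 : fderiv ℝ (fun y => Phi R v r (σ (Psi R v r y))) y = _ := h.fderiv
  rw [h2]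
  ext1 z
  simp [smul_smul, inv_mul_cancel₀ hr]

theorem norm_conj (R : E ≃ₗᵢ[ℝ] E) (D : E →L[ℝ] E) :
    ‖(R : E →L[ℝ] E).comp (D.comp (R.symm : E →L[ℝ] E))‖ = ‖D‖ := by
  rw [ContinuousLinearMap.opNorm_linearIsometryEquiv_comp,
    ContinuousLinearMap.opNorm_comp_linearIsometryEquiv]

theorem det_conj (R : E ≃ₗᵢ[ℝ] E) (D : E →L[ℝ] E) :
    ((R : E →L[ℝ] E).comp (D.comp (R.symm : E →L[ℝ] E))).det = D.det :=
  LinearMap.det_conj (D : E →ₗ[ℝ] E) R.toLinearEquiv

theorem isClosed_cyl (a L : ℝ) : IsClosed (cyl a L) := by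
  have h0 : Continuous fun x : E => x 0 := by fun_prop
  have h1 : Continuous fun x : E => x 1 := by fun_prop
  have h2 : Continuous fun x : E => x 2 := by fun_prop
  exact (isClosed_le ((h0.pow 2).add (h1.pow 2)) continuous_const).inter
    ((isClosed_le continuous_const h2).inter (isClosed_le h2 continuous_const))

theorem cyl_mono {a b L : ℝ} (ha : 0 ≤ a) (hab : a ≤ b) : cyl a L ⊆ cyl b L := by
  rintro x ⟨h1, h2, h3⟩
  exact ⟨h1.trans (by nlinarith), by linarith, by linarith⟩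

/-- the third basis vector -/
def e2 : E := EuclideanSpace.single 2 1

theorem normsq_sub (x : E) (t : ℝ) :
    ‖x - t • e2‖ ^ 2 = x 0 ^ 2 + x 1 ^ 2 + (x 2 - t) ^ 2 := by
  rw [EuclideanSpace.real_norm_sq_eq, Fin.sum_univ_three]
  simp [e2]

theorem dist_Phi (R : E ≃ₗᵢ[ℝ] E) (v : E) {r : ℝ} (hr : 0 < r) (x x' : E) :
    dist (Phi R v r x) (Phi R v r x') = r * ‖x - x'‖ := by
  rw [dist_eq_norm]
  have : Phi R v r x - Phi R v r x' = r • R (x - x') := by
    simp only [Phi, map_sub, smul_sub]; abel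
  rw [this, norm_smul, R.norm_map, Real.norm_eq_abs, abs_of_pos hr]

/-- the squeeze map around an arbitrary segment -/
theorem squeeze (hSQ : StmtSQ) {p : ℝ} (hp1 : 1 ≤ p) (hp2 : p < 2) :
    ∃ a C : ℝ, 0 < a ∧ 0 < C ∧ ∀ (v w : E) (r : ℝ), v ≠ w → 0 < r →
      ∃ K A : Set E, IsCompact K ∧ IsClosed A ∧ A ⊆ K ∧
        K ⊆ cthickening (2 * r) (segment ℝ v w) ∧ thickening (a * r) (segment ℝ v w) ⊆ A ∧
        ∀ ε : ℝ, 0 < ε → ∃ s : E → E, Function.Bijective s ∧ (∀ x, LD s x) ∧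
          (∀ x, x ∉ K → s x = x) ∧ s w = w ∧
          (∀ x, ‖fderiv ℝ s x‖ ^ p ≤ C * |(fderiv ℝ s x).det|) ∧
          ∀ x, s x ∈ A → ‖fderiv ℝ s x‖ ^ p ≤ ε * |(fderiv ℝ s x).det| := by
  obtain ⟨a, C, ha0, ha1, hC, H⟩ := hSQ p hp1 hp2
  refine ⟨a, C, ha0, hC, fun v w r hvw hr => ?_⟩
  have hd : 0 < ‖w - v‖ := norm_pos_iff.2 (sub_ne_zero.2 hvw.symm)
  set u : E := ‖w - v‖⁻¹ • (w - v) with hu
  have hu1 : ‖e2‖ = ‖u‖ := by
    rw [hu, norm_smul, norm_inv, norm_norm, inv_mul_cancel₀ hd.ne']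
    simp [e2]
  set R : E ≃ₗᵢ[ℝ] E := Submodule.reflection (ℝ ∙ (e2 - u))ᗮ with hR
  have hRu : R e2 = u := Submodule.reflection_sub hu1
  set L : ℝ := ‖w - v‖ / r with hL
  have hL0 : 0 < L := div_pos hd hr
  have hseg : ∀ θ : ℝ, Phi R v r ((θ * L) • e2) = v + θ • (w - v) := by
    intro θ
    simp only [Phi, map_smul, hRu, hu, smul_smul, hL]
    congr 2
    field_simp
  have hPsi : Continuous (Psi R v r) :=
    continuous_iff_continuousAt.2 fun y => (LD_Psi R v hr.ne' y).continuousAt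
  have hKc : Psi R v r ⁻¹' cyl 1 L ⊆ cthickening (2 * r) (segment ℝ v w) := by
    rintro y ⟨h1, h2, h3⟩
    set x := Psi R v r y with hx
    set t : ℝ := max 0 (min (x 2) L) with ht
    have ht0 : 0 ≤ t := le_max_left _ _
    have htL : t ≤ L := max_le hL0.le (min_le_right _ _)
    have hxt : (x 2 - t) ^ 2 ≤ 1 := by
      have : |x 2 - t| ≤ 1 := by
        rw [abs_le]
        constructor
        · have : t ≤ x 2 + 1 := max_le (by linarith) ((min_le_left _ _).trans (by linarith))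
          linarith
        · have : x 2 - 1 ≤ t := le_max_of_le_right (le_min (by linarith) (by linarith))
          linarith
      nlinarith [abs_nonneg (x 2 - t), sq_abs (x 2 - t)]
    refine mem_cthickening_of_dist_le y (v + (t / L) • (w - v)) _ _ ?_ ?_
    · rw [segment_eq_image']
      exact ⟨t / L, ⟨div_nonneg ht0 hL0.le, (div_le_one hL0).2 htL⟩, rfl⟩
    · rw [← hseg, div_mul_cancel₀ _ hL0.ne', ← Phi_Psi R v hr.ne' y, ← hx, dist_Phi R v hr]
      have h4 := normsq_sub x t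
      have h5 : ‖x - t • e2‖ ≤ 2 := by nlinarith [norm_nonneg (x - t • e2)]
      nlinarith
  refine ⟨Psi R v r ⁻¹' cyl 1 L, Psi R v r ⁻¹' cyl a L, ?_, (isClosed_cyl a L).preimage hPsi,
    preimage_mono (cyl_mono ha0.le ha1.le), hKc, ?_, fun ε hε => ?_⟩
  · have hs : IsCompact (segment ℝ v w) := by
      rw [segment_eq_image']
      exact isCompact_Icc.image (by fun_prop)
    exact (hs.cthickening).of_isClosed_subset ((isClosed_cyl 1 L).preimage hPsi) hKc
  · intro y hy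
    obtain ⟨z, hz, hyz⟩ := mem_thickening_iff.1 hy
    rw [segment_eq_image'] at hz
    obtain ⟨θ, ⟨hθ0, hθ1⟩, rfl⟩ := hz
    set x := Psi R v r y with hx
    simp only at hyz
    rw [← hseg, ← Phi_Psi R v hr.ne' y, ← hx, dist_Phi R v hr] at hyz
    have h4 := normsq_sub x (θ * L)
    have h5 : ‖x - (θ * L) • e2‖ < a := by nlinarith
    have h6 : ‖x - (θ * L) • e2‖ ^ 2 ≤ a ^ 2 := by nlinarith [norm_nonneg (x - (θ * L) • e2)]
    have h7 : |x 2 - θ * L| ≤ a := by
      apply abs_le_of_sq_le_sq _ ha0.le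
      nlinarith [sq_nonneg (x 0), sq_nonneg (x 1)]
    rw [abs_le] at h7
    have h8 : 0 ≤ θ * L := mul_nonneg hθ0 hL0.le
    have h9 : θ * L ≤ L := by nlinarith
    exact ⟨by nlinarith [sq_nonneg (x 2 - θ * L)], by linarith [h7.1], by linarith [h7.2]⟩
  · obtain ⟨σ, hb, hld, hoff, hax, hC1, hε1⟩ := H L ε hL0.le hε
    refine ⟨fun y => Phi R v r (σ (Psi R v r y)), ?_, fun y => ?_, fun y hy => ?_, ?_,
      fun y => ?_, fun y hy => ?_⟩
    · have h1 : Function.Bijective (Phi R v r) :=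
        Function.bijective_iff_has_inverse.2 ⟨Psi R v r, Psi_Phi R v hr.ne', Phi_Psi R v hr.ne'⟩
      have h2 : Function.Bijective (Psi R v r) :=
        Function.bijective_iff_has_inverse.2 ⟨Phi R v r, Phi_Psi R v hr.ne', Psi_Phi R v hr.ne'⟩
      exact h1.comp (hb.comp h2)
    · exact (LD_Phi R v hr.ne' _).comp ((hld _).comp (LD_Psi R v hr.ne' y))
    · simp only
      rw [hoff _ hy, Phi_Psi R v hr.ne']
    · have h1 : Psi R v r w = L • e2 := by
        have := hseg 1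
        rw [one_mul, one_smul, add_sub_cancel] at this
        rw [← this, Psi_Phi R v hr.ne']
      simp only
      rw [hax _ (by simp [h1, e2]) (by simp [h1, e2]), Phi_Psi R v hr.ne']
    · rw [fderiv_conj R v hr.ne' hld, norm_conj, det_conj]
      exact hC1 _
    · rw [fderiv_conj R v hr.ne' hld, norm_conj, det_conj]
      refine hε1 _ ?_
      have : Psi R v r (Phi R v r (σ (Psi R v r y))) ∈ cyl a L := hy
      rwa [Psi_Phi R v hr.ne'] at this

theorem volume_segment (v w : E) : volume (segment ℝ v w) = 0 := by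
  have h1 : segment ℝ v w ⊆ (line[ℝ, v, w] : AffineSubspace ℝ E) := by
    rw [segment_eq_image_lineMap]
    rintro _ ⟨θ, -, rfl⟩
    exact AffineMap.lineMap_mem_affineSpan_pair θ v w
  refine measure_mono_null h1 (Measure.addHaar_affineSubspace _ _ fun h => ?_)
  have h2 : (ℝ ∙ (v -ᵥ w)) = ⊤ := by
    rw [← vectorSpan_pair, ← direction_affineSpan, h, AffineSubspace.direction_top]
  have h3 : Module.finrank ℝ (ℝ ∙ (v -ᵥ w)) ≤ 1 := by
    simpa using finrank_span_le_card (R := ℝ) ({v -ᵥ w} : Set E)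
  rw [h2, finrank_top] at h3
  simp at h3

/-- choice of the radius -/
theorem exists_radius {p : ℝ} {V Ω : Set E} {v w : E} {h : E → E} {δ η : ℝ≥0∞} (hV : IsOpen V)
    (hseg : segment ℝ v w ⊆ V) (hVΩ : V ⊆ Ω) (hfin : En p Ω h < ⊤) (hδ : 0 < δ) (hη : 0 < η) :
    ∃ r : ℝ, 0 < r ∧ ∀ K ⊆ cthickening (2 * r) (segment ℝ v w),
      K ⊆ V ∧ volume K ≤ δ ∧ En p K h ≤ η := by
  have hs : IsCompact (segment ℝ v w) := by
    rw [segment_eq_image']
    exact isCompact_Icc.image (by fun_prop)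
  obtain ⟨r0, hr0, hV0⟩ := hs.exists_cthickening_subset_open hV hseg
  obtain ⟨β, hβ, hβ'⟩ := exists_pos_setLIntegral_lt_of_measure_lt (μ := volume.restrict Ω)
    (f := fun x => ‖fderiv ℝ h x‖ₑ ^ p) hfin.ne hη.ne'
  have ht := tendsto_measure_cthickening_of_isCompact (μ := (volume : Measure E)) hs
  rw [volume_segment] at ht
  have hev := ht.eventually (gt_mem_nhds (lt_min hδ hβ))
  obtain ⟨r1, hr1, hr1'⟩ := Metric.eventually_nhds_iff.1 hev
  refine ⟨min r0 r1 / 4, by positivity, fun K hK => ?_⟩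
  have h1 : 2 * (min r0 r1 / 4) ≤ r0 := by linarith [min_le_left r0 r1, lt_min hr0 hr1]
  have h2 : 2 * (min r0 r1 / 4) < r1 := by linarith [min_le_right r0 r1, lt_min hr0 hr1]
  have hKV : K ⊆ V := hK.trans ((cthickening_mono h1 _).trans hV0)
  have h3 := hr1' (y := 2 * (min r0 r1 / 4)) (by
    rw [Real.dist_eq, sub_zero, abs_of_pos (by positivity)]; exact h2)
  have h4 : volume K < min δ β := (measure_mono hK).trans_lt h3
  refine ⟨hKV, (h4.trans_le (min_le_left _ _)).le, ?_⟩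
  have h5 := hβ' K ((Measure.restrict_apply_le _ _).trans_lt (h4.trans_le (min_le_right _ _)))
  rw [Measure.restrict_restrict_of_subset (hKV.trans hVΩ)] at h5
  exact h5.le

end MOVE

open MOVE in
/-- Block MOVE. -/
theorem blockMOVE (hSQ : StmtSQ) (hCV : StmtCV) (hTAU : StmtTAU) (hINV : StmtINV) :
    StmtMOVE := by
  intro p V v w hp1 hp2 hV hseg h Ω Λ P δ hΩ hΛ hVΩ hh hVP hld hfin hδ
  by_cases hvw : v = w
  · subst hvw
    refine ⟨h, ∅, empty_subset _, ⟨isCompact_empty, fun _ _ => rfl, hh, by simp, ?_, ?_⟩, rfl, hld⟩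
    · simp [En]
    · simp [En]
  have hp0 : 0 ≤ p := by linarith
  obtain ⟨a, C, ha, hC, H⟩ := squeeze hSQ hp1 hp2
  have hδ2 : δ / 2 ≠ 0 := ENNReal.div_ne_zero.2 ⟨hδ.ne', by simp⟩
  have hη : 0 < min δ (δ / 2 / ENNReal.ofReal C) :=
    lt_min hδ (pos_iff_ne_zero.2 (ENNReal.div_ne_zero.2 ⟨hδ2, ENNReal.ofReal_ne_top⟩))
  obtain ⟨r, hr, hrK⟩ := exists_radius hV hseg hVΩ hfin hδ hη
  obtain ⟨K, A, hKc, hAc, hAK, hKs, hWA, Hs⟩ := H v w r hvw hr
  obtain ⟨hKV, hvol, hEK⟩ := hrK K hKs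
  have hKΩ : K ⊆ Ω := hKV.trans hVΩ
  have hAcpt : IsCompact A := hKc.of_isClosed_subset hAc hAK
  set W := thickening (a * r) (segment ℝ v w) with hW
  have hWo : IsOpen W := isOpen_thickening
  have hWc : IsPreconnected W := ((convex_segment v w).thickening _).isPreconnected
  have hvW : v ∈ W := self_subset_thickening (mul_pos ha hr) _ (left_mem_segment ℝ v w)
  have hwW : w ∈ W := self_subset_thickening (mul_pos ha hr) _ (right_mem_segment ℝ v w)
  have hWΩ : W ⊆ Ω := hWA.trans (hAK.trans hKΩ)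
  obtain ⟨τ, Kτ, hτb, hτl, -, hKτ, hτo, hτw⟩ := hTAU W w v hWo hWc hwW hvW
  obtain ⟨τ', Kτ', hτb', hτl', -, hKτ', hτo', hτv'⟩ := hTAU (h '' W) (h v) (h w)
    (hh.opn W hWo hWΩ) (hWc.image h (hh.cont.mono hWΩ)) (mem_image_of_mem h hvW)
    (mem_image_of_mem h hwW)
  have hτK : MapsTo τ K K := mapsTo_of_off hτb.1 hτo (hKτ.trans (hWA.trans hAK))
  -- `h` is a local diffeomorphism on `K` minus `v`
  have hldK : ∀ x ∈ K, x ≠ v → LD h x := fun x hx hxv =>
    hld x (hKΩ hx) (fun hP => disjoint_left.1 hVP (hKV hx) hP) hxv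
  have hldτ : ∀ x ∈ K, x ≠ w → LD h (τ x) := fun x hx hxw =>
    hldK _ (hτK hx) fun he => hxw (hτb.1 (he.trans hτw.symm))
  set k : E → E := fun x => τ' (h (τ x)) with hk
  have hldk : ∀ x ∈ K, x ≠ w → LD k x := fun x hx hxw =>
    (hτl' _).comp ((hldτ x hx hxw).comp (hτl x))
  have hkh : ∀ x ∈ Ω, x ∉ W → k x = h x := by
    intro x hx hxW
    simp only [hk]
    rw [hτo x fun hc => hxW (hKτ hc)]
    refine hτo' _ fun hc => ?_
    obtain ⟨y, hy, hyx⟩ := hKτ' hc
    rw [hh.bij.injOn (hWΩ hy) hx hyx] at hy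
    exact hxW hy
  have hkH : Homeo k Ω Λ := by
    refine homeo_comp (homeo_self hINV hτb' hτl' hτo' ?_)
      (homeo_comp hh (homeo_self hINV hτb hτl hτo (hKτ.trans hWΩ)))
    exact hKτ'.trans ((image_mono hWΩ).trans hh.bij.mapsTo.image_subset)
  -- the energy of `k` on `A` is finite
  have hEA : En p A k < ⊤ := by
    obtain ⟨c, hc0, hc⟩ := exists_distortion hp0 hτl hAcpt
    have h1 := hCV p c τ h A {w} hp0 hc0 hAc.measurableSet hτb.1.injOn
      (fun x _ => (hτl x).differentiableAt) (countable_singleton w)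
      (fun x hx hxw => (hldτ x (hAK hx) hxw).differentiableAt) hc
    have h2 : En p A (fun x => h (τ x)) < ⊤ := by
      refine h1.trans_lt (ENNReal.mul_lt_top ENNReal.ofReal_lt_top ?_)
      refine (En_mono p ?_ h).trans_lt hfin
      exact (image_mono hAK).trans (hτK.image_subset.trans hKΩ)
    exact En_post_lt (w := w) hp0 hτl' hAc.measurableSet
      (hKc.image_of_continuousOn (hh.cont.mono hKΩ))
      (fun x hx => mem_image_of_mem h (hτK (hAK hx)))
      (fun x hx hxw => ((hldτ x (hAK hx) hxw).comp (hτl x)).differentiableAt) h2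
  obtain ⟨ε, hε, hεA⟩ := ENNReal.exists_nnreal_pos_mul_lt hEA.ne hδ2
  obtain ⟨s, hsb, hsl, hso, hsw, hsC, hsε⟩ := Hs ε (by exact_mod_cast hε)
  have hsK : MapsTo s K K := mapsTo_of_off hsb.1 hso Subset.rfl
  have hsc : Continuous s := (contDiff_of_LD hsl).continuous
  have hlds : ∀ x ∈ K, x ≠ w → LD k (s x) := fun x hx hxw =>
    hldk _ (hsK hx) fun he => hxw (hsb.1 (he.trans hsw.symm))
  classical
  set h' : E → E := fun x => if x ∈ K then k (s x) else h x with hh'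
  have heq : EqOn h' (fun x => k (s x)) Ω := by
    intro x hx
    by_cases hxK : x ∈ K
    · simp only [hh', if_pos hxK]
    · simp only [hh', if_neg hxK]
      rw [hso x hxK, hkh x hx fun hc => hxK (hAK (hWA hc))]
  have hwK : w ∈ K := hAK (hWA hwW)
  refine ⟨h', K, hKV, ⟨hKc, fun x hx => if_neg hx, ?_, hvol, ?_, hEK.trans (min_le_left _ _)⟩,
    ?_, fun x hx hxP hxw => ?_⟩
  · exact homeo_congr (homeo_comp hkH (homeo_self hINV hsb hsl hso hKΩ)) heq
  · rw [En_congr p hKc.measurableSet hΩ hKΩ heq]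
    have hm : MeasurableSet (s ⁻¹' A) := (hAc.preimage hsc).measurableSet
    have h1 := hCV p ε s k (K ∩ s ⁻¹' A) {w} hp0 ε.2 (hKc.measurableSet.inter hm) hsb.1.injOn
      (fun x _ => (hsl x).differentiableAt) (countable_singleton w)
      (fun x hx hxw => (hlds x hx.1 hxw).differentiableAt) fun x hx => hsε x hx.2
    have h2 := hCV p C s k (K \ s ⁻¹' A) {w} hp0 hC.le (hKc.measurableSet.diff hm) hsb.1.injOn
      (fun x _ => (hsl x).differentiableAt) (countable_singleton w)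
      (fun x hx hxw => (hlds x hx.1 hxw).differentiableAt) fun x _ => hsC x
    have h3 : En p (s '' (K ∩ s ⁻¹' A)) k ≤ En p A k :=
      En_mono p ((image_mono inter_subset_right).trans (image_preimage_subset _ _)) k
    have h4 : En p (s '' (K \ s ⁻¹' A)) k ≤ En p K h := by
      have h5 : s '' (K \ s ⁻¹' A) ⊆ K \ A := by
        rintro _ ⟨x, hx, rfl⟩
        exact ⟨hsK hx.1, hx.2⟩
      refine (En_mono p h5 k).trans ?_
      rw [En_congr p (hKc.measurableSet.diff hAc.measurableSet) (hΩ.sdiff hAc)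
        (sdiff_subset_sdiff_left hKΩ) (fun x hx => hkh x hx.1 fun hc => hx.2 (hWA hc))]
      exact En_mono p sdiff_subset h
    have h6 : En p K (fun x => k (s x)) ≤ En p (K ∩ s ⁻¹' A) (fun x => k (s x)) +
        En p (K \ s ⁻¹' A) (fun x => k (s x)) :=
      (En_mono p (inter_union_sdiff K (s ⁻¹' A)).ge _).trans (lintegral_union_le _ _ _)
    refine h6.trans ?_
    rw [← ENNReal.add_halves δ]
    refine add_le_add (h1.trans ?_) (h2.trans ?_)
    · rw [ENNReal.ofReal_coe_nnreal]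
      exact (mul_le_mul_right h3 _).trans hεA.le
    · exact (mul_le_mul_right (h4.trans (hEK.trans (min_le_right _ _))) _).trans ENNReal.mul_div_le
  · simp only [hh', if_pos hwK, hsw, hk, hτw, hτv']
  · by_cases hxK : x ∈ K
    · exact ((hlds x hxK hxw).comp (hsl x)).congr (eventuallyEq_of_mem (hΩ.mem_nhds hx) heq)
    · have hxv : x ≠ v := fun he => hxK (he ▸ hAK (hWA hvW))
      refine (hld x hx hxP hxv).congr ?_
      filter_upwards [hKc.isClosed.isOpen_compl.mem_nhds hxK] with y hy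
      exact if_neg hy

end Vale.Agent.P073Z.Sm
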