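import Vale.Agent.P073Z.Sm.Sk

/-!
# P073, smoothing half: assembly
-/

open Set Metric MeasureTheory Topology Filter
open scoped ContDiff ENNReal NNReal RealInnerProductSpace

noncomputable section

namespace Vale.Agent.P073Z.Sm

namespace Main

theorem compl_nonempty {U : Set E} (hU : Bornology.IsBounded U) : Uᶜ.Nonempty := by
  rw [nonempty_compl]
  rintro rfl
  exact NormedSpace.unbounded_univ ℝ E hU

theorem infDist_compl_pos {U : Set E} (hU : IsOpen U) (hb : Bornology.IsBounded U) {x : E}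
    (hx : x ∈ U) : 0 < infDist x Uᶜ :=
  (hU.isClosed_compl.notMem_iff_infDist_pos (compl_nonempty hb)).1 (fun h => h hx)

theorem gauge (hMIN : StmtMIN) {k : E → E} {U Λ : Set E} {δ : ℝ} (hU : IsOpen U)
    (hbU : Bornology.IsBounded U) (hΛ : IsOpen Λ) (hbΛ : Bornology.IsBounded Λ)
    (hk : ContinuousOn k U) (hm : MapsTo k U Λ) (hδ : 0 < δ) :
    ∃ γ : E → ℝ, LipschitzWith 1 γ ∧ ∀ x ∈ U, 0 < γ x ∧ γ x ≤ δ ∧ γ x ≤ infDist x Uᶜ ∧
      γ x ≤ infDist (k x) Λᶜ / 2 := by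
  set γ0 : E → ℝ := fun x => min δ (min (infDist x Uᶜ) (infDist (k x) Λᶜ / 2)) with hγ0
  have hc : ContinuousOn γ0 U := by
    refine continuousOn_const.inf ((continuous_infDist_pt _).continuousOn.inf ?_)
    exact (((continuous_infDist_pt _).comp_continuousOn hk).div_const 2)
  have hpos : ∀ x ∈ U, 0 < γ0 x := fun x hx =>
    lt_min hδ (lt_min (infDist_compl_pos hU hbU hx)
      (half_pos (infDist_compl_pos hΛ hbΛ (hm hx))))
  obtain ⟨ρ, -, hl, -, hp, hle⟩ := hMIN E U γ0 1 hU one_pos (by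
    intro K hK hKU
    rcases K.eq_empty_or_nonempty with rfl | hne
    · exact ⟨1, one_pos, fun x hx => hx.elim⟩
    · obtain ⟨x0, hx0, hmin⟩ := hK.exists_isMinOn hne (hc.mono hKU)
      exact ⟨γ0 x0, hpos x0 (hKU hx0), fun x hx => hmin hx⟩)
  refine ⟨ρ, hl, fun x hx => ⟨(hp x).2 hx, (hle x hx).trans (min_le_left _ _),
    (hle x hx).trans ((min_le_right _ _).trans (min_le_left _ _)),
    (hle x hx).trans ((min_le_right _ _).trans (min_le_right _ _))⟩⟩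

theorem restr {h : E → E} {Ω Λ U : Set E} (hh : Homeo h Ω Λ) (hU : U ⊆ Ω) :
    Homeo h U (h '' U) :=
  ⟨hh.cont.mono hU, (hh.bij.injOn.mono hU).bijOn_image,
    fun V hV hVU => hh.opn V hV (hVU.trans hU)⟩

theorem image_diff {h : E → E} {Ω Λ P : Set E} (hh : Homeo h Ω Λ) (hP : P ⊆ Ω) :
    h '' (Ω \ P) = Λ \ h '' P := by
  rw [hh.bij.injOn.image_sdiff_subset hP, hh.bij.image_eq]

end Main

open Main in
theorem blockMAIN (hST : StmtST) (hLF : StmtLF) (hMIN : StmtMIN) (hFACE : StmtFACE)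
    (hTOP : StmtTOP) (hEDGE : StmtEDGE) (hD : StmtDIST) (hQ : StmtQ) (hSW : StmtSWINDLE)
    (hENDS : StmtENDS) (hINV : StmtINV) : StmtMAIN := by
  intro p g Ω Λ P ε hp1 hp2 hΩ hΛ hbΩ hbΛ hg hP hcone hE hε
  set e : ℝ≥0∞ := min ε 1 / 4 with he
  have he0 : 0 < e := ENNReal.div_pos (lt_min hε one_pos).ne' (by norm_num)
  have het : e < ⊤ := ENNReal.div_lt_top (ne_top_of_le_ne_top ENNReal.one_ne_top (min_le_right _ _))
    (by norm_num)
  have he4 : e + (e + (e + e)) ≤ ε := by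
    have : e + (e + (e + e)) = min ε 1 := by
      have h4 : e + (e + (e + e)) = 4 * e := by ring
      rw [h4, he, ENNReal.mul_div_cancel (by norm_num) (by norm_num)]
    rw [this]; exact min_le_left _ _
  obtain ⟨hPc, hPo⟩ := hLF P Ω hΩ hP
  have hΩ1 : IsOpen (Ω \ P) := hPo P subset_rfl
  have hcone1 : ∀ x ∈ Ω \ P, ConeAt g x := fun x hx => hcone x hx.1 hx.2
  set V0 : Set E := Sk g (Ω \ P) 0 with hV0
  have hV : LocFin V0 (Ω \ P) := hST.vert g _ hΩ1 hcone1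
  obtain ⟨hVc, hVo⟩ := hLF V0 _ hΩ1 hV
  set U : Set E := (Ω \ P) \ V0 with hUdef
  have hU : IsOpen U := hVo V0 subset_rfl
  have hUΩ : U ⊆ Ω := fun x hx => hx.1.1
  have hbU : Bornology.IsBounded U := hbΩ.subset hUΩ
  have hb1 : Bornology.IsBounded (Ω \ P) := hbΩ.subset sdiff_subset
  obtain ⟨δ, hδ, hde⟩ := hD.de p Ω e hp1 hbΩ he0
  have hnull : ∀ a b : E → E, Dist p U a b = Dist p Ω a b := fun a b =>
    (hD.null p (Ω \ P) V0 a b hVc).1.trans (hD.null p Ω P a b hPc).1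
  -- faces
  obtain ⟨γ, hγl, hγ⟩ := gauge hMIN hU hbU hΛ hbΛ (hg.cont.mono hUΩ)
    (hg.bij.mapsTo.mono_left hUΩ) hδ
  obtain ⟨h, S, hoff, hcont, hbij, hclose, hDE, hSU, hSo, hLD, hEC⟩ :=
    hFACE p g U γ (ENNReal.ofReal δ) hp1 hU hbU (hg.cont.mono hUΩ) (hg.bij.injOn.mono hUΩ)
      (fun x hx => hcone1 x hx.1)
      (fun x hx => by
        by_contra hlt
        exact hx.2 ⟨hx.1, by omega⟩)
      hγl (fun x hx => (hγ x hx).1) (ENNReal.ofReal_pos.2 hδ)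
  have hh : Homeo h Ω Λ := hTOP g h Ω Λ U hΩ hΛ hbΛ hU hUΩ hg hoff hcont hbij
    (fun x hx => ⟨(hclose x hx).trans (hγ x hx).2.2.1, (hclose x hx).trans (hγ x hx).2.2.2⟩)
  have d1 : Dist p Ω h g ≤ e := by
    rw [← hnull]
    exact hde U h g hU hUΩ hDE (fun x hx => (hclose x hx).trans (hγ x hx).2.1)
  -- edges
  obtain ⟨γ', hγl', hγ'⟩ := gauge hMIN hU hbU hΛ hbΛ (hh.cont.mono hUΩ)
    (hh.bij.mapsTo.mono_left hUΩ) hδ
  obtain ⟨h', hoff', hLD', hbij', hclose', hDE'⟩ :=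
    hEDGE p h U (h '' U) S γ' (ENNReal.ofReal δ) hp1 hU hbU (restr hh hUΩ) hSU hSo hLD hEC hγl'
      (fun x hx => (hγ' x hx).1) (ENNReal.ofReal_pos.2 hδ)
  have hh' : Homeo h' Ω Λ := hTOP h h' Ω Λ U hΩ hΛ hbΛ hU hUΩ hh hoff'
    (fun x hx => (hLD' x hx).continuousAt.continuousWithinAt) hbij'
    (fun x hx => ⟨(hclose' x hx).trans (hγ' x hx).2.2.1, (hclose' x hx).trans (hγ' x hx).2.2.2⟩)
  have d2 : Dist p Ω h' h ≤ e := by
    rw [← hnull]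
    exact hde U h' h hU hUΩ hDE' (fun x hx => (hclose' x hx).trans (hγ' x hx).2.1)
  have hEh : En p Ω h < ⊤ := hD.fin p Ω h g hp1 hE (d1.trans_lt het)
  have hEh' : En p Ω h' < ⊤ := hD.fin p Ω h' h hp1 hEh (d2.trans_lt het)
  -- vertices
  obtain ⟨Q, hQf, hQd, hQc⟩ := hQ Ω P V0 hΩ hP hVc
  have him := image_diff hh' hP.1
  have hΛ1 : IsOpen (Λ \ h' '' P) := by rw [← him]; exact hh'.opn _ hΩ1 sdiff_subset
  have hh1 : Homeo h' (Ω \ P) (Λ \ h' '' P) := by rw [← him]; exact restr hh' sdiff_subset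
  obtain ⟨F1, hF1, hF1L, hF1Q, hF1o, d3⟩ := hSW p h' (Ω \ P) (Λ \ h' '' P) V0 Q e hp1 hp2 hΩ1 hΛ1
    hb1 (hbΛ.subset sdiff_subset) hh1 hV hQf hQd (fun x hx hxV => hLD' x ⟨hx, hxV⟩)
    (by rw [(hD.null p Ω P h' h' hPc).2]; exact hEh') he0
  rw [(hD.null p Ω P F1 h' hPc).1] at d3
  have hF1' : Homeo F1 Ω Λ := hENDS h' F1 Ω Λ P Q hΩ hΛ hh' hP hF1
    (fun x hx => hF1o x (fun hx' => hx'.2 hx)) hQf.1 hF1Q hQc
  have hE1 : En p Ω F1 < ⊤ := hD.fin p Ω F1 h' hp1 hEh' (d3.trans_lt het)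
  -- the points of `P`
  obtain ⟨F, hF, hFL, -, -, d4⟩ := hSW p F1 Ω Λ P ∅ e hp1 hp2 hΩ hΛ hbΩ hbΛ hF1' hP
    ⟨empty_subset _, fun K _ _ => by simp⟩ (disjoint_empty _)
    (fun x hx hxP => hF1L x ⟨hx, hxP⟩) hE1 he0
  obtain ⟨-, hG⟩ := hINV E F Ω hΩ hF.bij.injOn hFL
  refine ⟨F, Function.invFunOn F Ω, fun x hx => (hFL x hx).1.contDiffWithinAt,
    fun y hy => (hG y (by rw [hF.bij.image_eq]; exact hy)).1.contDiffWithinAt, hF.bij,
    hF.bij.invOn_invFunOn, ?_⟩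
  have t1 := hD.tri p Ω F F1 g hp1 hΩ hF.cont hF1'.cont hg.cont
  have t2 := hD.tri p Ω F1 h' g hp1 hΩ hF1'.cont hh'.cont hg.cont
  have t3 := hD.tri p Ω h' h g hp1 hΩ hh'.cont hh.cont hg.cont
  calc Dist p Ω F g ≤ e + (e + (e + e)) :=
        t1.trans (add_le_add d4 (t2.trans (add_le_add d3 (t3.trans (add_le_add d2 d1)))))
    _ ≤ ε := he4

end Vale.Agent.P073Z.Sm
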