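import Vale.Agent.P073Z.Sm.LF

/-!
# P073, smoothing half: block Q
-/

open Set Metric MeasureTheory Topology Filter
open scoped ContDiff ENNReal NNReal RealInnerProductSpace

noncomputable section

namespace Vale.Agent.P073Z.Sm

theorem blockQ : StmtQ := by
  intro Ω P C hΩ hP hC
  obtain ⟨hPc, hop⟩ := blockLF P Ω hΩ hP
  rcases P.eq_empty_or_nonempty with rfl | hne
  · exact ⟨∅, ⟨empty_subset _, fun K _ _ => by simp⟩, by simp, by simp⟩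
  obtain ⟨p, rfl⟩ := hPc.exists_eq_range hne
  have hd : Dense (range p ∪ C)ᶜ := (hPc.union hC).dense_compl ℝ
  have h1 : ∀ a : ℕ × ℕ, ∃ q, q ∈ (range p ∪ C)ᶜ ∧
      q ∈ Ω ∩ ball (p a.1) (1 / ((a.1 + a.2 : ℕ) + 1 : ℝ)) := fun a =>
    hd.exists_mem_open (hΩ.inter isOpen_ball)
      ⟨p a.1, hP.1 ⟨a.1, rfl⟩, mem_ball_self (by positivity)⟩
  choose q hq1 hq2 using h1
  refine ⟨range q, ⟨?_, fun K hK hKΩ => ?_⟩, ?_, ?_⟩
  · rintro _ ⟨a, rfl⟩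
    exact ⟨(hq2 a).1, fun h => hq1 a (Or.inl h)⟩
  · obtain ⟨δ, hδ, hth⟩ := hK.exists_thickening_subset_open (hop _ subset_rfl) hKΩ
    obtain ⟨N, hN⟩ := exists_nat_one_div_lt hδ
    refine (((finite_le_nat N).prod (finite_le_nat N)).image q).subset ?_
    rintro _ ⟨⟨a, rfl⟩, ha⟩
    have h2 : a.1 + a.2 ≤ N := by
      by_contra h3
      have h4 : (1 / ((a.1 + a.2 : ℕ) + 1 : ℝ)) ≤ 1 / ((N : ℝ) + 1) :=
        Nat.one_div_le_one_div (not_le.mp h3).le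
      refine (hth (mem_thickening_iff.mpr ⟨q a, ha, ?_⟩)).2 ⟨a.1, rfl⟩
      rw [dist_comm]
      exact ((mem_ball.mp (hq2 a).2).trans_le h4).trans hN
    exact ⟨a, ⟨(by omega : a.1 ≤ N), (by omega : a.2 ≤ N)⟩, rfl⟩
  · rw [Set.disjoint_right]
    rintro _ ⟨a, rfl⟩ h
    exact hq1 a (Or.inr h)
  · rintro _ ⟨n, rfl⟩
    rw [Metric.mem_closure_iff]
    intro ε hε
    obtain ⟨N, hN⟩ := exists_nat_one_div_lt hε
    refine ⟨q (n, N), ⟨_, rfl⟩, ?_⟩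
    have h4 : (1 / ((n + N : ℕ) + 1 : ℝ)) ≤ 1 / ((N : ℝ) + 1) :=
      Nat.one_div_le_one_div (Nat.le_add_left N n)
    rw [dist_comm]
    exact ((mem_ball.mp (hq2 (n, N)).2).trans_le h4).trans hN

end Vale.Agent.P073Z.Sm
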