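import Vale.Agent.P073Z.Sm.Sk

/-!
# P073, smoothing half: blocks MOVEC and STAGE
-/

open Set Metric MeasureTheory Topology Filter
open scoped ContDiff ENNReal NNReal RealInnerProductSpace

noncomputable section

namespace Vale.Agent.P073Z.Sm

namespace Stage

theorem chg_refl {p : ℝ} {Ω Λ : Set E} {h : E → E} (hh : Homeo h Ω Λ) (δ : ℝ≥0∞) :
    Chg p Ω Λ h h ∅ δ :=
  ⟨isCompact_empty, fun _ _ => rfl, hh, by simp, by simp [En], by simp [En]⟩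

theorem chg_mono {p : ℝ} {Ω Λ K : Set E} {h h' : E → E} {δ δ' : ℝ≥0∞}
    (hc : Chg p Ω Λ h h' K δ) (hd : δ ≤ δ') : Chg p Ω Λ h h' K δ' :=
  ⟨hc.cpt, hc.off, hc.homeo, hc.vol.trans hd, hc.en'.trans hd, hc.en.trans hd⟩

theorem half {δ : ℝ≥0∞} (hδ : 0 < δ) : ∃ η : ℝ≥0∞, 0 < η ∧ η < ⊤ ∧ η + η ≤ δ := by
  refine ⟨min δ 1 / 2, ENNReal.half_pos (lt_min hδ one_pos).ne', ?_, ?_⟩
  · exact ENNReal.div_lt_top (ne_top_of_le_ne_top ENNReal.one_ne_top (min_le_right _ _))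
      (by norm_num)
  · rw [ENNReal.add_halves]
    exact min_le_left _ _

/-- moving without control of the value at the new point -/
def Mw (p : ℝ) (V : Set E) (v w : E) : Prop :=
  ∀ (h : E → E) (Ω Λ P : Set E) (δ : ℝ≥0∞), IsOpen Ω → IsOpen Λ → V ⊆ Ω → Homeo h Ω Λ →
    Disjoint V P → (∀ x ∈ Ω, x ∉ P → x ≠ v → LD h x) → En p Ω h < ⊤ → 0 < δ →
    ∃ (h' : E → E) (K : Set E), K ⊆ V ∧ Chg p Ω Λ h h' K δ ∧
      ∀ x ∈ Ω, x ∉ P → x ≠ w → LD h' x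

theorem mw_of {p : ℝ} {V : Set E} {v w : E} (h : Mv p V v w) : Mw p V v w := by
  intro g Ω Λ P δ h1 h2 h3 h4 h5 h6 h7 h8
  obtain ⟨g', K, a, b, _, c⟩ := h g Ω Λ P δ h1 h2 h3 h4 h5 h6 h7 h8
  exact ⟨g', K, a, b, c⟩

theorem mw_trans (hD : StmtDIST) {p : ℝ} {V : Set E} {u v w : E} (h : Mw p V u v)
    (k : Mw p V v w) : Mw p V u w := by
  intro g Ω Λ P δ h1 h2 h3 h4 h5 h6 h7 h8
  obtain ⟨η, e0, e1, e2⟩ := half h8
  obtain ⟨g1, K1, a1, b1, c1⟩ := h g Ω Λ P η h1 h2 h3 h4 h5 h6 h7 e0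
  obtain ⟨g2, K2, a2, b2, c2⟩ := k g1 Ω Λ P η h1 h2 h3 b1.homeo h5 c1
    (hD.chgfin _ _ _ _ _ _ _ h1 e1 b1 h7) e0
  exact ⟨g2, K1 ∪ K2, union_subset a1 a2, chg_mono (hD.trans _ _ _ _ _ _ _ _ _ _ b1 b2) e2, c2⟩

theorem mw_all (hM : StmtMOVE) (hD : StmtDIST) {p : ℝ} {V : Set E} (h1 : 1 ≤ p) (h2 : p < 2)
    (hV : IsOpen V) (hc : IsPreconnected V) {v w : E} (hv : v ∈ V) (hw : w ∈ V) : Mw p V v w := by
  refine hc.induction₂' (Mw p V) (fun x hx => ?_)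
    (fun _ _ _ _ _ _ a b => mw_trans hD a b) hv hw
  obtain ⟨r, hr, hb⟩ := Metric.isOpen_iff.1 hV x hx
  refine mem_nhdsWithin_of_mem_nhds ?_
  filter_upwards [ball_mem_nhds x hr] with y hy
  exact ⟨mw_of (hM p V x y h1 h2 hV
      (((convex_ball x r).segment_subset (mem_ball_self hr) hy).trans hb)),
    mw_of (hM p V y x h1 h2 hV
      (((convex_ball x r).segment_subset hy (mem_ball_self hr)).trans hb))⟩

end Stage

open Stage

/-- Block MOVEC. -/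
theorem blockMOVEC (hM : StmtMOVE) (hC : StmtCONN) (hD : StmtDIST) : StmtMOVEC := by
  intro p V v w h1 h2 hV hc hv hw g Ω Λ P δ k1 k2 k3 k4 k5 k6 k7 k8
  by_cases hvw : v = w
  · subst hvw
    exact ⟨g, ∅, empty_subset _, chg_refl k4 δ, rfl, k6⟩
  obtain ⟨r, hr, hb⟩ := Metric.isOpen_iff.1 hV w hw
  obtain ⟨w', hw'⟩ := ((countable_singleton w).dense_compl ℝ).inter_open_nonempty (ball w r)
    isOpen_ball ⟨w, mem_ball_self hr⟩
  have hV' : IsOpen (V \ {w}) := hV.sdiff isClosed_singleton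
  have hc' : IsPreconnected (V \ {w}) := hC V {w} hV hc (countable_singleton w)
  obtain ⟨η, e0, e1, e2⟩ := half k8
  obtain ⟨g1, K1, a1, b1, c1⟩ := mw_all hM hD h1 h2 hV' hc' (v := v) (w := w') ⟨hv, hvw⟩
    ⟨hb hw'.1, hw'.2⟩ g Ω Λ P η k1 k2 (sdiff_subset.trans k3) k4 (k5.mono_left sdiff_subset) k6 k7 e0
  obtain ⟨g2, K2, a2, b2, d2, c2⟩ := hM p V w' w h1 h2 hV
    (((convex_ball w r).segment_subset hw'.1 (mem_ball_self hr)).trans hb) g1 Ω Λ P η k1 k2 k3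
    b1.homeo k5 c1 (hD.chgfin _ _ _ _ _ _ _ k1 e1 b1 k7) e0
  refine ⟨g2, K1 ∪ K2, union_subset (a1.trans sdiff_subset) a2,
    chg_mono (hD.trans _ _ _ _ _ _ _ _ _ _ b1 b2) e2, ?_, c2⟩
  rw [d2]
  exact b1.off w fun hK => (a1 hK).2 rfl

/-- Block STAGE. -/
theorem blockSTAGE (hM : StmtMOVEC) (hC : StmtCONN) (hL : StmtLF) (hD : StmtDIST)
    (hE : StmtEXH) : StmtSTAGE := by
  intro p h Ω Λ P Q D D' K' δ h1 h2 hΩ hΛ hh hP hQ hPQ hDc hDΩ hF hPD hD'c hD'Ω hK'c hK'Λ hld hen hδ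
  have main : ∀ B : Set E, B.Finite → ∀ (h : E → E) (P : Set E) (δ : ℝ≥0∞), Homeo h Ω Λ →
      LocFin P Ω → Disjoint P Q → Disjoint P D → (∀ x ∈ Ω, x ∉ P → LD h x) → En p Ω h < ⊤ →
      0 < δ → (∀ x ∈ P, x ∉ B → x ∉ D' ∧ h x ∉ K') →
      ∃ (h' : E → E) (P' K : Set E), Chg p Ω Λ h h' K δ ∧ K ⊆ Ω ∧ Disjoint K D ∧ Disjoint K Q ∧
        LocFin P' Ω ∧ Disjoint P' Q ∧ (∀ x ∈ P', x ∉ D' ∧ h' x ∉ K') ∧
          ∀ x ∈ Ω, x ∉ P' → LD h' x := by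
    intro B hB
    induction B, hB using Set.Finite.induction_on with
    | empty =>
      intro h P δ hh hP hPQ _ hld _ _ hb
      exact ⟨h, P, ∅, chg_refl hh δ, empty_subset _, empty_disjoint _, empty_disjoint _, hP, hPQ,
        fun x hx => hb x hx (notMem_empty x), hld⟩
    | @insert v B _ _ ih =>
      intro h P δ hh hP hPQ hPD hld hen hδ hb
      by_cases hv : v ∈ P
      swap
      · refine ih h P δ hh hP hPQ hPD hld hen hδ fun x hx hxB => hb x hx ?_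
        rintro (rfl | h')
        exacts [hv hx, hxB h']
      have hvD : v ∈ Ω \ D := ⟨hP.1 hv, fun h' => disjoint_left.1 hPD hv h'⟩
      set W := connectedComponentIn (Ω \ D) v with hW
      have hWo : IsOpen W := (hΩ.sdiff hDc.isClosed).connectedComponentIn
      have hWs : W ⊆ Ω \ D := connectedComponentIn_subset _ _
      have hCc : ((P \ {v}) ∪ Q).Countable :=
        ((hL P Ω hΩ hP).1.mono sdiff_subset).union (hL Q Ω hΩ hQ).1
      have hVo : IsOpen (W \ ((P \ {v}) ∪ Q)) := by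
        have e : W \ ((P \ {v}) ∪ Q) = W ∩ ((Ω \ (P \ {v})) ∩ (Ω \ Q)) := by
          ext x
          constructor
          · rintro ⟨a, b⟩
            exact ⟨a, ⟨(hWs a).1, fun c => b (Or.inl c)⟩, (hWs a).1, fun c => b (Or.inr c)⟩
          · rintro ⟨a, b, c⟩
            exact ⟨a, fun d => d.elim b.2 c.2⟩
        rw [e]
        exact hWo.inter (((hL P Ω hΩ hP).2 _ sdiff_subset).inter ((hL Q Ω hΩ hQ).2 _ subset_rfl))
      have hVc : IsPreconnected (W \ ((P \ {v}) ∪ Q)) :=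
        hC W _ hWo isPreconnected_connectedComponentIn hCc
      have hvV : v ∈ W \ ((P \ {v}) ∪ Q) := by
        refine ⟨mem_connectedComponentIn hvD, ?_⟩
        rintro (a | a)
        exacts [a.2 rfl, disjoint_left.1 hPQ hv a]
      have hA : IsCompact (D' ∪ (Ω ∩ h ⁻¹' K')) :=
        hD'c.union (hE.pre h Ω Λ K' hΩ hΛ hh hK'c hK'Λ).1
      obtain ⟨y, hy, hyA⟩ := hF v hvD _ hA (union_subset hD'Ω inter_subset_left)
      obtain ⟨w, ⟨hwW, hwA⟩, hwC⟩ := (hCc.dense_compl ℝ).inter_open_nonempty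
        (W \ (D' ∪ (Ω ∩ h ⁻¹' K'))) (hWo.sdiff hA.isClosed) ⟨y, hy, hyA⟩
      obtain ⟨η, e0, e1, e2⟩ := half hδ
      obtain ⟨h1, K1, a1, b1, d1, c1⟩ := hM p _ v w h1 h2 hVo hVc hvV ⟨hwW, hwC⟩ h Ω Λ (P \ {v}) η
        hΩ hΛ (fun x hx => (hWs hx.1).1) hh
        (disjoint_left.2 fun x hx hx' => hx.2 (Or.inl hx'))
        (fun x hx hx' hxv => hld x hx fun hxP => hx' ⟨hxP, hxv⟩) hen e0
      obtain ⟨h2, P', K2, b2, s2, u2, v2, r⟩ := ih h1 (insert w (P \ {v})) η b1.homeo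
        ⟨insert_subset (hWs hwW).1 (sdiff_subset.trans hP.1), fun K hK hKΩ =>
          ((hP.2 K hK hKΩ).insert w).subset fun x hx =>
            hx.1.elim Or.inl fun a => Or.inr ⟨a.1, hx.2⟩⟩
        (disjoint_left.2 fun x hx hx' => hx.elim (fun a => hwC (Or.inr (a ▸ hx')))
          fun a => disjoint_left.1 hPQ a.1 hx')
        (disjoint_left.2 fun x hx hx' => hx.elim (fun a => (hWs hwW).2 (a ▸ hx'))
          fun a => disjoint_left.1 hPD a.1 hx')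
        (fun x hx hx' => c1 x hx (fun a => hx' (Or.inr a)) fun a => hx' (Or.inl a))
        (hD.chgfin _ _ _ _ _ _ _ hΩ e1 b1 hen) e0 (by
          rintro x (rfl | hx) hxB
          · rw [d1]
            exact ⟨fun a => hwA (Or.inl a), fun a => hwA (Or.inr ⟨(hWs hwW).1, a⟩)⟩
          · rw [b1.off x fun a => (a1 a).2 (Or.inl hx)]
            refine hb x hx.1 ?_
            rintro (a | a)
            exacts [hx.2 a, hxB a])
      refine ⟨h2, P', K1 ∪ K2, chg_mono (hD.trans _ _ _ _ _ _ _ _ _ _ b1 b2) e2,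
        union_subset (fun x hx => (hWs (a1 hx).1).1) s2, ?_, ?_, r⟩
      · exact disjoint_union_left.2 ⟨disjoint_left.2 fun x hx => (hWs (a1 hx).1).2, u2⟩
      · exact disjoint_union_left.2
          ⟨disjoint_left.2 fun x hx hx' => (a1 hx).2 (Or.inr hx'), v2⟩
  refine main _ (hP.2 _ (hD'c.union (hE.pre h Ω Λ K' hΩ hΛ hh hK'c hK'Λ).1)
    (union_subset hD'Ω inter_subset_left)) h P δ hh hP hPQ hPD hld hen hδ fun x hx hxB => ?_
  exact ⟨fun a => hxB ⟨hx, Or.inl a⟩, fun a => hxB ⟨hx, Or.inr ⟨hP.1 hx, a⟩⟩⟩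

end Vale.Agent.P073Z.Sm
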