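import Vale.Agent.P073Z.Sm.Sk

/-!
# P073, smoothing half: block SWINDLE (the back-and-forth limit)
-/

open Set Metric MeasureTheory Topology Filter
open scoped ContDiff ENNReal NNReal

noncomputable section

namespace Vale.Agent.P073Z.Sm

namespace Swindle

/-- the map `h` with singular set `P` is an admissible modification of `g` -/
structure Ad (p : ℝ) (Ω Λ Q : Set E) (g h : E → E) (P : Set E) : Prop where
  homeo : Homeo h Ω Λ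
  lf : LocFin P Ω
  dq : Disjoint P Q
  ld : ∀ x ∈ Ω, x ∉ P → LD h x
  en : En p Ω h < ⊤
  onQ : ∀ x ∈ Q, h x = g x
  off : ∀ x, x ∉ Ω → h x = g x

/-- the frozen set -/
structure Fz (Ω P D : Set E) : Prop where
  cpt : IsCompact D
  sub : D ⊆ Ω
  full : Full Ω D
  dis : Disjoint P D

variable {p : ℝ} {Ω Λ Q : Set E} {g : E → E}

theorem half (hS : StmtSTAGE) (hD : StmtDIST) (h1 : 1 ≤ p) (h2 : p < 2) (hΩ : IsOpen Ω)
    (hΛ : IsOpen Λ) (bΛ : Bornology.IsBounded Λ) (hQ : LocFin Q Ω) {h : E → E} {P D D' K' : Set E}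
    (a : Ad p Ω Λ Q g h P) (z : Fz Ω P D) (c1 : IsCompact D') (s1 : D' ⊆ Ω) (c2 : IsCompact K')
    (s2 : K' ⊆ Λ) {η : ℝ≥0∞} (hη : 0 < η) :
    ∃ (h' : E → E) (P' : Set E), Ad p Ω Λ Q g h' P' ∧ EqOn h' h D ∧ Dist p Ω h' h ≤ η ∧
      ∀ x ∈ P', x ∉ D' ∧ h' x ∉ K' := by
  obtain ⟨δ, hδ, H⟩ := hD.chg p Λ η h1 bΛ hη
  obtain ⟨h', P', K, c, kΩ, kD, kQ, lf, dq, out, ld⟩ := hS p h Ω Λ P Q D D' K' (min δ 1) h1 h2 hΩ
    hΛ a.homeo a.lf hQ a.dq z.cpt z.sub z.full z.dis c1 s1 c2 s2 a.ld a.en (lt_min hδ one_pos)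
  have m := min_le_left δ 1
  refine ⟨h', P', ⟨c.homeo, lf, dq, ld, hD.chgfin p Ω Λ K h h' _ hΩ
    ((min_le_right _ _).trans_lt ENNReal.one_lt_top) c a.en, fun x hx => ?_, fun x hx => ?_⟩,
    fun x hx => c.off x (disjoint_right.1 kD hx), H Ω K h h' hΩ a.homeo.bij.mapsTo
      ⟨c.cpt, c.off, c.homeo, c.vol.trans m, c.en'.trans m, c.en.trans m⟩, out⟩
  · rw [c.off x (disjoint_right.1 kQ hx), a.onQ x hx]
  · rw [c.off x fun hK => hx (kΩ hK), a.off x hx]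

theorem step (hS : StmtSTAGE) (hE : StmtEXH) (hD : StmtDIST) (h1 : 1 ≤ p) (h2 : p < 2)
    (hΩ : IsOpen Ω) (hΛ : IsOpen Λ) (bΩ : Bornology.IsBounded Ω) (bΛ : Bornology.IsBounded Λ)
    (hQ : LocFin Q Ω) {h : E → E} {P D A B : Set E} (a : Ad p Ω Λ Q g h P) (z : Fz Ω P D)
    (c1 : IsCompact A) (s1 : A ⊆ Ω) (c2 : IsCompact B) (s2 : B ⊆ Λ) {η : ℝ≥0∞} (hη : 0 < η) :
    ∃ (h' : E → E) (P' D' : Set E), Ad p Ω Λ Q g h' P' ∧ Fz Ω P' D' ∧ EqOn h' h D ∧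
      Dist p Ω h' h ≤ η ∧ D ⊆ D' ∧ A ⊆ D' ∧ B ⊆ h' '' D' := by
  have hη' : 0 < η / 2 := ENNReal.half_pos hη.ne'
  obtain ⟨K, -, k1, k2, -⟩ := hE.exh Ω hΩ bΩ
  obtain ⟨L, -, l1, l2, -⟩ := hE.exh Λ hΛ bΛ
  obtain ⟨m, hm⟩ := k2 (D ∪ A) (z.cpt.union c1) (union_subset z.sub s1)
  obtain ⟨f, R, a1, e1, d1, o1⟩ := half hS hD h1 h2 hΩ hΛ bΛ hQ a z (k1 m).1 (k1 m).2.1
    isCompact_empty (empty_subset _) hη'
  obtain ⟨n, hn⟩ := l2 (f '' K m ∪ B)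
    (((k1 m).1.image_of_continuousOn (a1.homeo.cont.mono (k1 m).2.1)).union c2)
    (union_subset (image_subset_iff.2 fun x hx => a1.homeo.bij.mapsTo ((k1 m).2.1 hx)) s2)
  obtain ⟨h', P', a2, e2, d2, o2⟩ := half hS hD h1 h2 hΩ hΛ bΛ hQ a1
    ⟨(k1 m).1, (k1 m).2.1, (k1 m).2.2, disjoint_left.2 fun x hx => (o1 x hx).1⟩ isCompact_empty
    (empty_subset _) (l1 n).1 (l1 n).2.1 hη'
  have pre := hE.pre h' Ω Λ (L n) hΩ hΛ a2.homeo (l1 n).1 (l1 n).2.1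
  have sub : K m ⊆ Ω ∩ h' ⁻¹' L n := fun x hx =>
    ⟨(k1 m).2.1 hx, by rw [mem_preimage, e2 hx]; exact hn (Or.inl (mem_image_of_mem f hx))⟩
  refine ⟨h', P', Ω ∩ h' ⁻¹' L n, a2, ⟨pre.1, inter_subset_left, pre.2 (l1 n).2.2,
    disjoint_left.2 fun x hx hx' => (o2 x hx).2 hx'.2⟩,
    fun x hx => (e2 (hm (Or.inl hx))).trans (e1 hx), ?_, fun x hx => sub (hm (Or.inl hx)),
    fun x hx => sub (hm (Or.inr hx)), fun y hy => ?_⟩
  · refine (hD.tri p Ω h' f h h1 hΩ a2.homeo.cont a1.homeo.cont a.homeo.cont).trans ?_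
    rw [← ENNReal.add_halves η]
    exact add_le_add d2 d1
  · obtain ⟨x, hx, rfl⟩ := a2.homeo.bij.surjOn (s2 hy)
    exact mem_image_of_mem _ ⟨hx, hn (Or.inr hy)⟩

end Swindle

open Swindle in
theorem blockSWINDLE (hS : StmtSTAGE) (hE : StmtEXH) (hD : StmtDIST) (hI : StmtINV) :
    StmtSWINDLE := by
  classical
  intro p g Ω Λ P Q ε h1 h2 hΩ hΛ bΩ bΛ hg hP hQ hPQ hld hen hε
  obtain ⟨η, η0, ηs⟩ := ENNReal.exists_pos_sum_of_countable hε.ne' ℕ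
  obtain ⟨K, -, k1, -, k3⟩ := hE.exh Ω hΩ bΩ
  obtain ⟨L, -, l1, -, l3⟩ := hE.exh Λ hΛ bΛ
  let T := {t : (E → E) × Set E × Set E // Ad p Ω Λ Q g t.1 t.2.1 ∧ Fz Ω t.2.1 t.2.2}
  have st : ∀ (j : ℕ) (s : T), ∃ s' : T, EqOn s'.1.1 s.1.1 s.1.2.2 ∧
      Dist p Ω s'.1.1 s.1.1 ≤ η j ∧ s.1.2.2 ⊆ s'.1.2.2 ∧ K j ⊆ s'.1.2.2 ∧
      L j ⊆ s'.1.1 '' s'.1.2.2 := fun j s => by
    obtain ⟨h', P', D', a, z, r⟩ := step hS hE hD h1 h2 hΩ hΛ bΩ bΛ hQ s.2.1 s.2.2 (k1 j).1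
      (k1 j).2.1 (l1 j).1 (l1 j).2.1 (η := η j) (ENNReal.coe_pos.2 (η0 j))
    exact ⟨⟨(h', P', D'), a, z⟩, r⟩
  choose f hf using st
  let s0 : T := ⟨(g, P, ∅), ⟨hg, hP, hPQ, hld, hen, fun _ _ => rfl, fun _ _ => rfl⟩,
    isCompact_empty, empty_subset _, hE.empty Ω hΩ bΩ, disjoint_empty _⟩
  let s : ℕ → T := fun j => Nat.rec s0 f j
  obtain ⟨h, R, D, a, z, e0, r⟩ : ∃ (h : ℕ → E → E) (R D : ℕ → Set E),
      (∀ j, Ad p Ω Λ Q g (h j) (R j)) ∧ (∀ j, Fz Ω (R j) (D j)) ∧ h 0 = g ∧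
      ∀ j, EqOn (h (j + 1)) (h j) (D j) ∧ Dist p Ω (h (j + 1)) (h j) ≤ η j ∧ D j ⊆ D (j + 1) ∧
        K j ⊆ D (j + 1) ∧ L j ⊆ h (j + 1) '' D (j + 1) :=
    ⟨fun j => (s j).1.1, fun j => (s j).1.2.1, fun j => (s j).1.2.2, fun j => (s j).2.1,
      fun j => (s j).2.2, rfl, fun j => hf j (s j)⟩
  have mono : Monotone D := monotone_nat_of_le_succ fun j => (r j).2.2.1
  have stab : ∀ i j, i ≤ j → EqOn (h j) (h i) (D i) := fun i j hij => by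
    induction j, hij using Nat.le_induction with
    | base => exact fun _ _ => rfl
    | succ j hij ih => exact fun x hx => ((r j).1 (mono hij hx)).trans (ih hx)
  obtain ⟨F, F1, F2⟩ : ∃ F : E → E, (∀ j, EqOn F (h j) (D j)) ∧ ∀ x, x ∉ Ω → F x = g x := by
    refine ⟨fun x => if hx : ∃ j, x ∈ D j then h hx.choose x else g x, fun j x hx => ?_,
      fun x hx => dif_neg fun ⟨j, hj⟩ => hx ((z j).sub hj)⟩
    have hx' : ∃ j, x ∈ D j := ⟨j, hx⟩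
    exact (dif_pos hx').trans ((stab _ _ (le_max_left _ j) hx'.choose_spec).symm.trans
      (stab _ _ (le_max_right _ j) hx))
  have nb : ∀ x ∈ Ω, ∀ᶠ j in atTop, D j ∈ 𝓝 x := fun x hx => by
    obtain ⟨j, hj⟩ := k3 x hx
    filter_upwards [eventually_ge_atTop (j + 1)] with i hi
    exact mem_of_superset hj ((r j).2.2.2.1.trans (mono hi))
  have ld : ∀ x ∈ Ω, LD F x := fun x hx => by
    obtain ⟨j, hj⟩ := (nb x hx).exists
    exact ((a j).ld x hx (disjoint_right.1 (z j).dis (mem_of_mem_nhds hj))).congr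
      (eventually_of_mem hj (F1 j))
  have inj : InjOn F Ω := fun x hx y hy e => by
    obtain ⟨j, j1, j2⟩ := ((nb x hx).and (nb y hy)).exists
    rw [F1 j (mem_of_mem_nhds j1), F1 j (mem_of_mem_nhds j2)] at e
    exact (a j).homeo.bij.injOn hx hy e
  refine ⟨F, ⟨fun x hx => (ld x hx).continuousAt.continuousWithinAt,
    ⟨fun x hx => ?_, inj, fun y hy => ?_⟩, (hI E F Ω hΩ inj ld).1⟩, ld, fun x hx => ?_, F2, ?_⟩
  · obtain ⟨j, hj⟩ := (nb x hx).exists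
    rw [F1 j (mem_of_mem_nhds hj)]
    exact (a j).homeo.bij.mapsTo hx
  · obtain ⟨j, hj⟩ := l3 y hy
    obtain ⟨x, hx, rfl⟩ := (r j).2.2.2.2 (mem_of_mem_nhds hj)
    exact ⟨x, (z _).sub hx, F1 _ hx⟩
  · obtain ⟨j, hj⟩ := (nb x (hQ.1 hx)).exists
    rw [F1 j (mem_of_mem_nhds hj), (a j).onQ x hx]
  · refine hD.lim p Ω h F g ε h1 hΩ (fun j => (a j).homeo.cont) hg.cont
      (fun x hx => (nb x hx).mono fun j hj => eventually_of_mem hj fun y hy => (F1 j hy).symm)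
      fun j => le_trans ?_ ((ENNReal.sum_le_tsum (Finset.range j)).trans ηs.le)
    induction j with
    | zero => rw [e0, hD.self]; exact zero_le
    | succ j ih =>
      rw [Finset.sum_range_succ_comm]
      exact (hD.tri p Ω _ (h j) g h1 hΩ (a _).homeo.cont (a j).homeo.cont hg.cont).trans
        (add_le_add (r j).2.1 ih)

end Vale.Agent.P073Z.Sm
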