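import Vale.Agent.P073Z.Sm.Sk

/-!
# P073, smoothing half: block TAU
-/

open Set Metric MeasureTheory Topology Filter Function
open scoped ContDiff ENNReal NNReal

noncomputable section

namespace Vale.Agent.P073Z.Sm

namespace TAU

/-- `y0` can be moved to `y1` inside `W`. -/
def Rel (W : Set E) (y0 y1 : E) : Prop :=
  ∃ (τ : E → E) (K : Set E), Bijective τ ∧ (∀ x, LD τ x) ∧ IsCompact K ∧ K ⊆ W ∧
    (∀ x, x ∉ K → τ x = x) ∧ τ y0 = y1

theorem Rel.trans {W : Set E} {x y z : E} (h : Rel W x y) (h' : Rel W y z) : Rel W x z := by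
  obtain ⟨τ, K, h1, h2, h3, h4, h5, h6⟩ := h
  obtain ⟨τ', K', h1', h2', h3', h4', h5', h6'⟩ := h'
  refine ⟨fun w => τ' (τ w), K ∪ K', h1'.comp h1, fun w => (h2' _).comp (h2 w), h3.union h3',
    union_subset h4 h4', fun w hw => ?_, (congrArg τ' h6).trans h6'⟩
  exact (congrArg τ' (h5 w fun h => hw (Or.inl h))).trans (h5' w fun h => hw (Or.inr h))

theorem near (hSH : StmtSHEAR) {W : Set E} (hW : IsOpen W) {y : E} (hy : y ∈ W) :
    ∃ s : ℝ, 0 < s ∧ ∀ y0 ∈ ball y s, ∀ y1 ∈ ball y s, Rel W y0 y1 := by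
  obtain ⟨r, hr, hrW⟩ := nhds_basis_closedBall.mem_iff.mp (hW.mem_nhds hy)
  let φ : ContDiffBump y := ⟨r / 2, r, half_pos hr, half_lt_self hr⟩
  have hφ : ContDiff ℝ ∞ φ := φ.contDiff
  obtain ⟨L, hL⟩ := ContDiff.lipschitzWith_of_hasCompactSupport φ.hasCompactSupport hφ (by simp)
  have hL0 : (0 : ℝ) ≤ L := L.2
  refine ⟨min (r / 2) (1 / (4 * (L + 1))), lt_min (half_pos hr) (by positivity),
    fun y0 h0 y1 h1 => ?_⟩
  have ha : ‖y1 - y0‖ ≤ 1 / (2 * (L + 1)) := by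
    have h2 : dist y1 y0 ≤ dist y1 y + dist y0 y := dist_triangle_right y1 y0 y
    have h3 := (mem_ball.mp h0).le.trans (min_le_right _ _)
    have h4 := (mem_ball.mp h1).le.trans (min_le_right _ _)
    have h5 : (1 : ℝ) / (2 * (L + 1)) = 1 / (4 * (L + 1)) + 1 / (4 * (L + 1)) := by
      field_simp
      norm_num
    rw [← dist_eq_norm, h5]
    linarith
  obtain ⟨hb, hld⟩ := hSH E φ (y1 - y0) (1 / 2) (by norm_num) hφ.continuous (fun x t ht => by
    have h2 := hL.dist_le_mul (x + t • (y1 - y0)) x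
    rw [Real.dist_eq, dist_eq_norm, add_sub_cancel_left, norm_smul, Real.norm_of_nonneg ht] at h2
    have h3 : (L : ℝ) * ‖y1 - y0‖ ≤ 1 / 2 := by
      calc (L : ℝ) * ‖y1 - y0‖ ≤ (L + 1) * (1 / (2 * (L + 1))) :=
            mul_le_mul (by linarith) ha (norm_nonneg _) (by positivity)
        _ = 1 / 2 := by field_simp
    have h4 := (abs_le.mp h2).1
    nlinarith)
  refine ⟨_, closedBall y r, hb, fun x => hld x hφ.contDiffAt, isCompact_closedBall y r, hrW,
    fun x hx => ?_, ?_⟩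
  · have h2 : φ x = 0 := φ.zero_of_le_dist (not_le.mp fun h => hx (mem_closedBall.mpr h)).le
    change x + φ x • (y1 - y0) = x
    rw [h2, zero_smul, add_zero]
  · have h2 : φ y0 = 1 :=
      φ.one_of_mem_closedBall (mem_closedBall.mpr ((mem_ball.mp h0).le.trans (min_le_left _ _)))
    change y0 + φ y0 • (y1 - y0) = y1
    rw [h2, one_smul, add_sub_cancel]

end TAU

theorem blockTAU (hSH : StmtSHEAR) : StmtTAU := by
  intro W y0 y1 hW hc h0 h1
  refine hc.induction₂' (TAU.Rel W) (fun y hy => ?_) (fun _ _ _ _ _ _ h h' => h.trans h') h0 h1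
  obtain ⟨s, hs, h⟩ := TAU.near hSH hW hy
  filter_upwards [mem_nhdsWithin_of_mem_nhds (ball_mem_nhds y hs)] with z hz
  exact ⟨h y (mem_ball_self hs) z hz, h z hz y (mem_ball_self hs)⟩

end Vale.Agent.P073Z.Sm
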