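import Vale.Agent.P073Z.Sm.Sk

/-!
# P073, smoothing half: block TOP
-/

open Set Metric MeasureTheory Topology Filter
open scoped ContDiff ENNReal NNReal RealInnerProductSpace

noncomputable section

namespace Vale.Agent.P073Z.Sm

namespace TOP

/-- Preimages of compact sets under a homeomorphism. -/
theorem compact_pre {g : E → E} {Ω Λ K : Set E} (hΩ : IsOpen Ω) (hg : Homeo g Ω Λ)
    (hK : IsCompact K) (hKΛ : K ⊆ Λ) : IsCompact (Ω ∩ g ⁻¹' K) := by
  rw [isCompact_iff_ultrafilter_le_nhds']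
  intro F hF
  obtain ⟨y, hy, h1⟩ := isCompact_iff_ultrafilter_le_nhds'.mp hK (F.map g)
    (Ultrafilter.mem_map.mpr (mem_of_superset hF inter_subset_right))
  obtain ⟨x, hx, rfl⟩ := hg.bij.surjOn (hKΛ hy)
  refine ⟨x, ⟨hx, hy⟩, fun V hV => ?_⟩
  obtain ⟨V', h2, h3, h4⟩ := _root_.mem_nhds_iff.mp (inter_mem hV (hΩ.mem_nhds hx))
  have h5 : g '' V' ∈ 𝓝 (g x) :=
    (hg.opn V' h3 (h2.trans inter_subset_right)).mem_nhds ⟨x, h4, rfl⟩
  have h6 : g ⁻¹' (g '' V') ∈ (F : Filter E) := h1 h5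
  have h7 : Ω ∩ g ⁻¹' K ∈ (F : Filter E) := hF
  filter_upwards [h6, h7] with z hz hz'
  obtain ⟨w, hw, h8⟩ := hz
  rw [← hg.bij.injOn (h2 hw).2 hz'.1 h8]
  exact (h2 hw).1

end TOP

theorem blockTOP : StmtTOP := by
  intro g h Ω Λ U hΩ hΛ hb hU hUΩ hg ho hc hbij hle
  have hcont : ContinuousOn h Ω := by
    intro x hx
    apply ContinuousAt.continuousWithinAt
    by_cases hxU : x ∈ U
    · exact hc.continuousAt (hU.mem_nhds hxU)
    · have h1 : ∀ y, ‖h y - g y‖ ≤ dist y x := by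
        intro y
        by_cases hy : y ∈ U
        · exact (hle y hy).1.trans (infDist_le_dist_of_mem hxU)
        · rw [ho y hy, sub_self, norm_zero]
          exact dist_nonneg
      have h2 : Tendsto (fun y => h y - g y) (𝓝 x) (𝓝 0) :=
        squeeze_zero_norm h1 (tendsto_iff_dist_tendsto_zero.mp tendsto_id)
      have h3 := h2.add (hg.cont.continuousAt (hΩ.mem_nhds hx))
      simp only [sub_add_cancel, zero_add] at h3
      rw [ContinuousAt, ho x hxU]
      exact h3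
  have hB : BijOn h Ω Λ := by
    refine ⟨fun x hx => ?_, fun x hx x' hx' hxx => ?_, fun y hy => ?_⟩
    · by_cases hxU : x ∈ U
      · obtain ⟨z, hz, h1⟩ := hbij.mapsTo hxU
        rw [← h1]
        exact hg.bij.mapsTo (hUΩ hz)
      · rw [ho x hxU]
        exact hg.bij.mapsTo hx
    · have key : ∀ a ∈ U, ∀ b ∈ Ω, b ∉ U → h a ≠ h b := by
        intro a ha b hb1 hb2 hab
        obtain ⟨z, hz, h1⟩ := hbij.mapsTo ha
        rw [hab, ho b hb2] at h1
        exact hb2 (hg.bij.injOn (hUΩ hz) hb1 h1 ▸ hz)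
      by_cases hxU : x ∈ U
      · by_cases hxU' : x' ∈ U
        · exact hbij.injOn hxU hxU' hxx
        · exact absurd hxx (key x hxU x' hx' hxU')
      · by_cases hxU' : x' ∈ U
        · exact absurd hxx.symm (key x' hxU' x hx hxU)
        · rw [ho x hxU, ho x' hxU'] at hxx
          exact hg.bij.injOn hx hx' hxx
    · obtain ⟨x, hx, rfl⟩ := hg.bij.surjOn hy
      by_cases hxU : x ∈ U
      · obtain ⟨z, hz, h1⟩ := hbij.surjOn ⟨x, hxU, rfl⟩
        exact ⟨z, hUΩ hz, h1⟩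
      · exact ⟨x, hx, ho x hxU⟩
  refine ⟨hcont, hB, fun V hV hVΩ => ?_⟩
  rw [isOpen_iff_mem_nhds]
  rintro _ ⟨x0, hx0, rfl⟩
  have hne : Λᶜ.Nonempty := by
    rw [nonempty_compl]
    rintro rfl
    exact NormedSpace.unbounded_univ ℝ E hb
  have hin : ∀ y, 0 < infDist y Λᶜ → y ∈ Λ := by
    intro y hy
    by_contra h1
    rw [infDist_zero_of_mem h1] at hy
    exact lt_irrefl _ hy
  have hpos : 0 < infDist (h x0) Λᶜ :=
    (hΛ.isClosed_compl.notMem_iff_infDist_pos hne).mp fun h1 => h1 (hB.mapsTo (hVΩ hx0))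
  set c := infDist (h x0) Λᶜ / 2 with hcd
  have hc0 : 0 < c := by positivity
  have hKΛ : {y : E | c ≤ infDist y Λᶜ} ⊆ Λ := fun y hy => hin y (hc0.trans_le hy)
  have hK : IsCompact {y : E | c ≤ infDist y Λᶜ} :=
    isCompact_of_isClosed_isBounded (isClosed_le continuous_const (continuous_infDist_pt _))
      (hb.subset hKΛ)
  have hT := (TOP.compact_pre hΩ hg hK hKΛ).diff hV
  have hI := (hT.image_of_continuousOn (hcont.mono fun x hx => hx.1.1)).isClosed.isOpen_compl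
  have h1 : (h '' ((Ω ∩ g ⁻¹' {y : E | c ≤ infDist y Λᶜ}) \ V))ᶜ ∈ 𝓝 (h x0) := by
    refine hI.mem_nhds ?_
    rintro ⟨z, hz, h2⟩
    exact hz.2 (hB.injOn hz.1.1 (hVΩ hx0) h2 ▸ hx0)
  have h2 : {y : E | 3 / 2 * c < infDist y Λᶜ} ∈ 𝓝 (h x0) :=
    (isOpen_lt continuous_const (continuous_infDist_pt _)).mem_nhds (by
      change 3 / 2 * c < infDist (h x0) Λᶜ
      linarith)
  filter_upwards [h1, h2] with y hy1 hy2
  obtain ⟨x, hx, rfl⟩ := hB.surjOn (hin y (lt_trans (by positivity) hy2))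
  refine ⟨x, ?_, rfl⟩
  by_contra hxV
  refine hy1 ⟨x, ⟨⟨hx, ?_⟩, hxV⟩, rfl⟩
  have h3 : dist (h x) (g x) ≤ infDist (g x) Λᶜ / 2 := by
    by_cases hxU : x ∈ U
    · rw [dist_eq_norm]
      exact (hle x hxU).2
    · rw [ho x hxU, dist_self]
      exact div_nonneg infDist_nonneg zero_le_two
  have h4 : infDist (h x) Λᶜ ≤ infDist (g x) Λᶜ + dist (h x) (g x) := infDist_le_infDist_add_dist
  have h5 : 3 / 2 * c < infDist (h x) Λᶜ := hy2
  change c ≤ infDist (g x) Λᶜ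
  linarith

end Vale.Agent.P073Z.Sm
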