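import Vale.Agent.P073Z.Sm.CONN
import Vale.Agent.P073Z.Sm.DIST
import Vale.Agent.P073Z.Sm.E2
import Vale.Agent.P073Z.Sm.EDGE
import Vale.Agent.P073Z.Sm.EM
import Vale.Agent.P073Z.Sm.EM0
import Vale.Agent.P073Z.Sm.ENDS
import Vale.Agent.P073Z.Sm.EXH
import Vale.Agent.P073Z.Sm.FD
import Vale.Agent.P073Z.Sm.FM
import Vale.Agent.P073Z.Sm.Face
import Vale.Agent.P073Z.Sm.HOMLIP
import Vale.Agent.P073Z.Sm.INV
import Vale.Agent.P073Z.Sm.LF
import Vale.Agent.P073Z.Sm.M
import Vale.Agent.P073Z.Sm.MIN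
import Vale.Agent.P073Z.Sm.MOVE
import Vale.Agent.P073Z.Sm.Main
import Vale.Agent.P073Z.Sm.PATCH
import Vale.Agent.P073Z.Sm.PERSP
import Vale.Agent.P073Z.Sm.Q
import Vale.Agent.P073Z.Sm.SHEAR
import Vale.Agent.P073Z.Sm.ST
import Vale.Agent.P073Z.Sm.Stage
import Vale.Agent.P073Z.Sm.Swindle
import Vale.Agent.P073Z.Sm.T
import Vale.Agent.P073Z.Sm.TAU
import Vale.Agent.P073Z.Sm.TOP

/-!
# P073, smoothing half: all blocks together
-/

namespace Vale.Agent.P073Z.Sm

theorem thmT : StmtT := blockT blockMIN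
theorem thmTAU : StmtTAU := blockTAU blockSHEAR
theorem thmFD : StmtFD := blockFD blockST blockMIN blockPERSP
theorem thmFM : StmtFM := blockFM blockSHEAR
theorem thmFACE : StmtFACE := blockFACE blockM blockST thmT thmFD thmFM blockPATCH
theorem thmE2 : StmtE2 := blockE2 blockSHEAR
theorem thmEM0 : StmtEM0 := blockEM0 thmE2 blockSHEAR blockPERSP blockHOMLIP
theorem thmEM : StmtEM := blockEM thmEM0
theorem thmEDGE : StmtEDGE := blockEDGE blockST thmT thmEM blockPATCH
theorem thmENDS : StmtENDS := blockENDS blockCONN blockLF blockEXH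

theorem swindle_of (hSQ : StmtSQ) : StmtSWINDLE :=
  blockSWINDLE (blockSTAGE (blockMOVEC (blockMOVE hSQ blockCV thmTAU blockINV) blockCONN blockDIST)
    blockCONN blockLF blockDIST blockEXH) blockEXH blockDIST blockINV

theorem main_of (hSQ : StmtSQ) : StmtMAIN :=
  blockMAIN blockST blockLF blockMIN thmFACE blockTOP thmEDGE blockDIST blockQ (swindle_of hSQ)
    thmENDS blockINV

end Vale.Agent.P073Z.Sm
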