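import Vale.Agent.P073Z.Sm.Sk

/-!
# The squeeze map of a cylinder
-/

open Set Topology Filter
open scoped ContDiff

noncomputable section

namespace Vale.Agent.P073Z.Sm

namespace SQ

/-- A smooth step with a bounded derivative. -/
theorem exists_step : ∃ (χ χ' : ℝ → ℝ) (D : ℝ), ContDiff ℝ ∞ χ ∧ (∀ s, HasDerivAt χ (χ' s) s) ∧
    (∀ s, 0 ≤ χ' s ∧ χ' s ≤ D) ∧ (∀ s, 0 ≤ χ s ∧ χ s ≤ 1) ∧ (∀ s, s ≤ 0 → χ s = 0) ∧
    (∀ s, 1 ≤ s → χ s = 1) ∧ (∀ s, s < 0 ∨ 1 < s → χ' s = 0) := by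
  have h1 : ContDiff ℝ ∞ Real.smoothTransition := Real.smoothTransition.contDiff
  have h2 : Continuous (deriv Real.smoothTransition) := h1.continuous_deriv (by simp)
  obtain ⟨D, hD⟩ := (isCompact_Icc (a := (0 : ℝ)) (b := 1)).exists_bound_of_continuousOn
    h2.continuousOn
  have h3 : ∀ s, s < 0 ∨ 1 < s → deriv Real.smoothTransition s = 0 := by
    rintro s (hs | hs)
    · have : Real.smoothTransition =ᶠ[𝓝 s] fun _ => 0 :=
        (eventually_lt_nhds hs).mono fun t ht => Real.smoothTransition.zero_of_nonpos ht.le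
      rw [this.deriv_eq, deriv_const]
    · have : Real.smoothTransition =ᶠ[𝓝 s] fun _ => 1 :=
        (eventually_gt_nhds hs).mono fun t ht => Real.smoothTransition.one_of_one_le ht.le
      rw [this.deriv_eq, deriv_const]
  refine ⟨_, deriv Real.smoothTransition, D, h1,
    fun s => (h1.differentiable (by simp) s).hasDerivAt,
    fun s => ⟨Real.smoothTransition.monotone.deriv_nonneg, ?_⟩,
    fun s => ⟨Real.smoothTransition.nonneg s, Real.smoothTransition.le_one s⟩,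
    fun s => Real.smoothTransition.zero_of_nonpos, fun s => Real.smoothTransition.one_of_one_le, h3⟩
  by_cases hs : s < 0 ∨ 1 < s
  · rw [h3 s hs]
    exact (norm_nonneg _).trans (hD 0 ⟨le_rfl, zero_le_one⟩)
  · push Not at hs
    exact (le_abs_self _).trans (hD s hs)

/-- The profile along the axis. -/
theorem exists_k : ∃ D : ℝ, 0 ≤ D ∧ ∀ L : ℝ, ∃ k k' : ℝ → ℝ, ContDiff ℝ ∞ k ∧
    (∀ s, HasDerivAt k (k' s) s) ∧ (∀ s, |k' s| ≤ D) ∧ (∀ s, s ≤ -1 ∨ L + 1 ≤ s → 1 ≤ k s) ∧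
    ∀ s, -(1 / 2) ≤ s → s ≤ L + 1 / 2 → k s = 0 := by
  obtain ⟨χ, χ', D, h1, h2, h3, h4, h5, h6, -⟩ := exists_step
  refine ⟨4 * D, by linarith [h3 0], fun L => ⟨fun s => χ (-2 * s - 1) + χ (2 * (s - L) - 1),
    fun s => χ' (-2 * s - 1) * (-2) + χ' (2 * (s - L) - 1) * 2,
    (h1.comp (by fun_prop)).add (h1.comp (by fun_prop)), fun s => ?_, fun s => ?_, ?_,
    fun s a b => ?_⟩⟩
  · refine ((h2 _).comp s (h := fun s => -2 * s - 1) ?_).add
      ((h2 _).comp s (h := fun s => 2 * (s - L) - 1) ?_)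
    · simpa using ((hasDerivAt_id s).const_mul (-2)).sub_const 1
    · simpa using (((hasDerivAt_id s).sub_const L).const_mul 2).sub_const 1
  · rw [abs_le]
    constructor <;> linarith [h3 (-2 * s - 1), h3 (2 * (s - L) - 1)]
  · rintro s (hs | hs)
    · linarith [h6 (-2 * s - 1) (by linarith), h4 (2 * (s - L) - 1)]
    · linarith [h6 (2 * (s - L) - 1) (by linarith), h4 (-2 * s - 1)]
  · linarith [h5 (-2 * s - 1) (by linarith), h5 (2 * (s - L) - 1) (by linarith)]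

/-- The inverse square root. -/
def A (v : ℝ) : ℝ := v ^ (-(1 / 2) : ℝ)

theorem A_pos {v : ℝ} (hv : 0 < v) : 0 < A v := Real.rpow_pos_of_pos hv _

theorem A_sq {v : ℝ} (hv : 0 < v) : v * (A v * A v) = 1 := by
  rw [A, ← Real.rpow_add hv, show (-(1 / 2) + -(1 / 2) : ℝ) = -1 by norm_num, Real.rpow_neg_one,
    mul_inv_cancel₀ hv.ne']

theorem rpow_le_two {v e : ℝ} (hv : 1 / 4 ≤ v) (h1 : -(1 / 2) ≤ e) (h2 : e ≤ 0) : v ^ e ≤ 2 := by
  refine (Real.rpow_le_rpow_of_nonpos (by norm_num) hv h2).trans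
    ((Real.rpow_le_rpow_of_exponent_ge (by norm_num) (by norm_num) h1).trans ?_)
  have h3 := A_sq (v := 1 / 4) (by norm_num)
  have h4 := A_pos (v := 1 / 4) (by norm_num)
  change A _ ≤ 2
  nlinarith

/-- The radial profile. -/
theorem exists_G {p : ℝ} (hp : 1 ≤ p) (hp2 : p < 2) : ∃ (G G' : ℝ → ℝ) (C : ℝ), 0 ≤ C ∧
    (∀ v, 1 ≤ v → G v = 1) ∧ (∀ v, 1 < v → G' v = 0) ∧ ∀ v, 0 < v → ContDiffAt ℝ ∞ G v ∧
      HasDerivAt G (G' v) v ∧ A v / 4 ≤ G v ∧ (v ≤ 1 → G v ≤ C * A v ∧ v * |G' v| ≤ C * A v) ∧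
      ∀ ρ, 0 ≤ ρ → ρ ≤ v → (2 - p) / 4 * v ^ ((1 - p) / 2) ≤ G v + 2 * ρ * G' v ∧
        (v < 1 / 4 → (1 - ρ / v) * A v / 4 ≤ G v + 2 * ρ * G' v) := by
  obtain ⟨χ, χ', D, h1, h2, h3, h4, h5, h6, h7⟩ := exists_step
  have hD : 0 ≤ D := by linarith [h3 0]
  refine ⟨fun v => (1 - χ ((4 * v - 1) / 3)) * (A v / 4 + v ^ ((1 - p) / 2) / 4) +
      χ ((4 * v - 1) / 3),
    fun v => (1 - χ ((4 * v - 1) / 3)) * (-(A v / v) / 8 - (p - 1) * (v ^ ((1 - p) / 2) / v) / 8) +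
      χ' ((4 * v - 1) / 3) * (4 / 3) * (1 - (A v / 4 + v ^ ((1 - p) / 2) / 4)), 2 + 2 * D,
    by positivity, fun v hv => ?_, fun v hv => ?_, fun v hv => ?_⟩
  · simp [h6 ((4 * v - 1) / 3) (by linarith)]
  · simp [h6 ((4 * v - 1) / 3) (by linarith), h7 ((4 * v - 1) / 3) (Or.inr (by linarith))]
  have d1 : HasDerivAt (fun v => χ ((4 * v - 1) / 3)) (χ' ((4 * v - 1) / 3) * (4 / 3)) v := by
    refine (h2 _).comp v (h := fun v => (4 * v - 1) / 3) ?_
    simpa using (((hasDerivAt_id v).const_mul 4).sub_const 1).div_const 3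
  have d2 : ∀ e : ℝ, HasDerivAt (fun v : ℝ => v ^ e) (e * (v ^ e / v)) v := fun e => by
    rw [← Real.rpow_sub_one hv.ne']
    exact Real.hasDerivAt_rpow_const (Or.inl hv.ne')
  have c1 : ContDiffAt ℝ ∞ (fun v => χ ((4 * v - 1) / 3)) v :=
    (h1.comp (f := fun v : ℝ => (4 * v - 1) / 3) (by fun_prop)).contDiffAt
  have hA := A_pos hv
  have hB : 0 < v ^ ((1 - p) / 2) := Real.rpow_pos_of_pos hv _
  obtain ⟨x0, x1⟩ := h4 ((4 * v - 1) / 3)
  obtain ⟨y0, y1⟩ := h3 ((4 * v - 1) / 3)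
  have hc : (χ ((4 * v - 1) / 3) = 0 ∧ χ' ((4 * v - 1) / 3) = 0) ∨
      (1 / 4 ≤ v ∧ A v ≤ 2 ∧ v ^ ((1 - p) / 2) ≤ 2) := by
    rcases lt_or_ge v (1 / 4) with h | h
    · exact Or.inl ⟨h5 _ (by linarith), h7 _ (Or.inl (by linarith))⟩
    · exact Or.inr ⟨h, rpow_le_two h le_rfl (by norm_num),
        rpow_le_two h (by linarith) (by linarith)⟩
  have hBA : v ≤ 1 → 1 ≤ A v ∧ v ^ ((1 - p) / 2) ≤ A v := fun h =>
    ⟨Real.one_le_rpow_of_pos_of_le_one_of_nonpos hv h (by norm_num),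
      Real.rpow_le_rpow_of_exponent_ge hv h (by linarith)⟩
  refine ⟨((contDiffAt_const.sub c1).mul (((Real.contDiffAt_rpow_const_of_ne hv.ne').div_const
    4).add ((Real.contDiffAt_rpow_const_of_ne hv.ne').div_const 4))).add c1, ?_, ?_⟩
  · refine (((d1.const_sub 1).mul (((d2 _).div_const 4).add ((d2 _).div_const 4))).add
      d1).congr_deriv ?_
    simp only [A, Pi.add_apply]
    ring
  beta_reduce
  generalize χ ((4 * v - 1) / 3) = x at *
  generalize χ' ((4 * v - 1) / 3) = y at *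
  generalize v ^ ((1 - p) / 2) = B at *
  generalize A v = a at *
  have hx : 0 ≤ 1 - x := by linarith
  refine ⟨?_, fun h => ⟨?_, ?_⟩, fun ρ r0 r1 => ?_⟩
  · rcases hc with ⟨rfl, -⟩ | ⟨-, h8, -⟩
    · linarith
    · nlinarith [mul_nonneg hx hB.le]
  · obtain ⟨h8, h9⟩ := hBA h
    nlinarith [mul_nonneg x0 hA.le, mul_nonneg x0 hB.le, mul_nonneg hD hA.le]
  · obtain ⟨h8, h9⟩ := hBA h
    have e1 : v * ((1 - x) * (-(a / v) / 8 - (p - 1) * (B / v) / 8) +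
        y * (4 / 3) * (1 - (a / 4 + B / 4))) =
        -((1 - x) * (a / 8 + (p - 1) * B / 8)) + v * y * (4 / 3) * (1 - (a / 4 + B / 4)) := by
      field_simp
      ring
    have e2 : 0 ≤ (p - 1) * B ∧ (p - 1) * B ≤ B := ⟨by positivity, by nlinarith⟩
    have e3 : 0 ≤ v * y ∧ v * y ≤ D := ⟨by positivity, by nlinarith⟩
    have e4 : (1 - x) * (a / 8 + (p - 1) * B / 8) ≤ a / 4 := by
      nlinarith [mul_nonneg x0 hA.le, mul_nonneg x0 e2.1]
    have e5 : 0 ≤ (1 - x) * (a / 8 + (p - 1) * B / 8) := mul_nonneg hx (by linarith)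
    rw [← abs_of_pos hv, ← abs_mul, abs_of_pos hv, e1, abs_le]
    constructor <;> nlinarith [mul_nonneg e3.1 hA.le, mul_nonneg e3.1 hB.le,
      mul_nonneg (sub_nonneg.2 e3.2) hA.le, mul_nonneg hD hA.le]
  · obtain ⟨t, rfl⟩ : ∃ t, ρ = t * v := ⟨ρ / v, by field_simp⟩
    have t0 : 0 ≤ t := nonneg_of_mul_nonneg_left r0 hv
    have t1 : t ≤ 1 := by nlinarith
    have e1 : (1 - x) * (a / 4 + B / 4) + x + 2 * (t * v) * ((1 - x) * (-(a / v) / 8 -
        (p - 1) * (B / v) / 8) + y * (4 / 3) * (1 - (a / 4 + B / 4))) =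
        (1 - x) * ((1 - t) * a / 4 + (1 - (p - 1) * t) * B / 4) + x +
          2 * (t * v) * (y * (4 / 3) * (1 - (a / 4 + B / 4))) := by
      field_simp
      ring
    have e2 : (2 - p) * B ≤ (1 - (p - 1) * t) * B :=
      mul_le_mul_of_nonneg_right (by nlinarith) hB.le
    have e3 : 0 ≤ (1 - t) * a := mul_nonneg (by linarith) hA.le
    have e4 : 0 < (2 - p) * B := mul_pos (by linarith) hB
    rw [e1, mul_div_cancel_right₀ _ hv.ne']
    rcases hc with ⟨rfl, rfl⟩ | ⟨h8, h9, h10⟩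
    · exact ⟨by linarith, fun _ => by linarith⟩
    · refine ⟨?_, fun h => absurd h (not_lt.2 h8)⟩
      have e5 : 0 ≤ 2 * (t * v) * (y * (4 / 3) * (1 - (a / 4 + B / 4))) :=
        mul_nonneg (by linarith) (mul_nonneg (by linarith) (by linarith))
      have e6 : (2 - p) * B ≤ 2 := by nlinarith
      nlinarith [mul_nonneg hx e3, mul_nonneg hx (sub_nonneg.2 e2)]

/-- The projection to the plane of the first two coordinates. -/
def P : E →L[ℝ] E :=
  ContinuousLinearMap.id ℝ E - (EuclideanSpace.proj 2).smulRight (EuclideanSpace.single 2 1)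

theorem P0 (x : E) : P x 0 = x 0 := by simp [P]

theorem P1 (x : E) : P x 1 = x 1 := by simp [P]

theorem P2 (x : E) : P x 2 = 0 := by simp [P]

theorem norm_P (x : E) : ‖P x‖ ^ 2 = x 0 ^ 2 + x 1 ^ 2 := by
  rw [EuclideanSpace.real_norm_sq_eq, Fin.sum_univ_three, P0, P1, P2]
  ring

theorem norm_P_le (x : E) : ‖P x‖ ≤ ‖x‖ := by
  refine le_of_sq_le_sq₀' ?_
  rw [norm_P, EuclideanSpace.real_norm_sq_eq, Fin.sum_univ_three]
  nlinarith [sq_nonneg (x 2)]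
where le_of_sq_le_sq₀' {a b : E} (h : ‖a‖ ^ 2 ≤ ‖b‖ ^ 2) : ‖a‖ ≤ ‖b‖ :=
  (pow_le_pow_iff_left₀ (norm_nonneg a) (norm_nonneg b) two_ne_zero).1 h

/-- The derivative of the squeeze map. -/
def M (x : E) (g g' κ : ℝ) : E →L[ℝ] E :=
  ContinuousLinearMap.id ℝ E + ((g - 1) • P + (g' • ((2 * x 0) • EuclideanSpace.proj 0 +
    (2 * x 1) • EuclideanSpace.proj 1 + (2 * κ) • EuclideanSpace.proj 2) :
      E →L[ℝ] ℝ).smulRight (P x))

theorem M_apply (x : E) (g g' κ : ℝ) (w : E) : M x g g' κ w =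
    w + ((g - 1) • P w + (g' * (2 * x 0 * w 0 + 2 * x 1 * w 1 + 2 * κ * w 2)) • P x) := by
  simp [M, mul_add]

theorem det_M (x : E) (g g' κ : ℝ) :
    (M x g g' κ).det = g * (g + 2 * (x 0 ^ 2 + x 1 ^ 2) * g') := by
  rw [ContinuousLinearMap.det, ← LinearMap.det_toMatrix (EuclideanSpace.basisFun (Fin 3) ℝ).toBasis,
    Matrix.det_fin_three]
  simp [LinearMap.toMatrix_apply, M_apply, P0, P1, P2]
  ring

theorem norm_M {x : E} {g g' k k' v D : ℝ} (hv : x 0 ^ 2 + x 1 ^ 2 + k ^ 2 ≤ v) (hk : |k'| ≤ D) :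
    ‖M x g g' (k * k')‖ ≤ 1 + |g - 1| + (4 + 2 * D) * (v * |g'|) := by
  have hD : 0 ≤ D := (abs_nonneg _).trans hk
  have hv0 : 0 ≤ v := le_trans (by positivity) hv
  refine ContinuousLinearMap.opNorm_le_bound _ (by positivity) fun w => ?_
  have a0 : |x 0| ≤ √v := Real.abs_le_sqrt (by nlinarith)
  have a1 : |x 1| ≤ √v := Real.abs_le_sqrt (by nlinarith)
  have a2 : |k| ≤ √v := Real.abs_le_sqrt (by nlinarith)
  have a3 : ‖P x‖ ≤ √v := Real.le_sqrt_of_sq_le (by rw [norm_P]; nlinarith)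
  have b : ∀ i, |w i| ≤ ‖w‖ := fun i => PiLp.norm_apply_le w i
  have hs := Real.sqrt_nonneg v
  have a4 : |2 * x 0 * w 0 + 2 * x 1 * w 1 + 2 * (k * k') * w 2| ≤ (4 + 2 * D) * √v * ‖w‖ := by
    refine (abs_add_three _ _ _).trans ?_
    simp only [abs_mul, abs_two]
    have c0 := mul_le_mul a0 (b 0) (abs_nonneg _) hs
    have c1 := mul_le_mul a1 (b 1) (abs_nonneg _) hs
    have c2 := mul_le_mul (mul_le_mul a2 hk (abs_nonneg _) hs) (b 2) (abs_nonneg _) (by positivity)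
    linarith
  rw [M_apply]
  refine (norm_add_le _ _).trans ((add_le_add le_rfl (norm_add_le _ _)).trans ?_)
  rw [norm_smul, norm_smul, Real.norm_eq_abs, Real.norm_eq_abs, abs_mul]
  have c3 := mul_le_mul_of_nonneg_left (norm_P_le w) (abs_nonneg (g - 1))
  have c4 := mul_le_mul (mul_le_mul_of_nonneg_left a4 (abs_nonneg g')) a3 (norm_nonneg _)
    (by positivity)
  have c5 : |g'| * ((4 + 2 * D) * √v * ‖w‖) * √v = (4 + 2 * D) * ((√v * √v) * |g'|) * ‖w‖ := by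
    ring
  rw [c5, Real.mul_self_sqrt hv0] at c4
  linarith

theorem bij {G G' k : ℝ → ℝ} {l : ℝ} (hl : 0 < l) (h1 : ∀ v, 1 ≤ v → G v = 1)
    (h2 : ∀ v, 0 < v → HasDerivAt G (G' v) v) (h3 : ∀ v, 0 < v → 0 < G v)
    (h4 : ∀ v, 0 < v → ∀ ρ, 0 ≤ ρ → ρ ≤ v → 0 < G v + 2 * ρ * G' v) :
    Function.Bijective fun x : E => x + (G (x 0 ^ 2 + x 1 ^ 2 + (l + k (x 2) ^ 2)) - 1) • P x := by
  have d : ∀ m ρ : ℝ, 0 < m → 0 ≤ ρ → HasDerivAt (fun ρ => ρ * G (ρ + m) ^ 2)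
      (G (ρ + m) * (G (ρ + m) + 2 * ρ * G' (ρ + m))) ρ := by
    intro m ρ hm hρ
    refine ((hasDerivAt_id ρ).mul (((h2 _ (by linarith)).comp_add_const ρ m).pow 2)).congr_deriv ?_
    simp only [id, Pi.pow_apply]
    norm_num
    ring
  have c : ∀ m : ℝ, 0 < m → ContinuousOn (fun ρ => ρ * G (ρ + m) ^ 2) (Ici 0) :=
    fun m hm ρ hρ => (d m ρ hm hρ).continuousAt.continuousWithinAt
  have hm : ∀ s, 0 < l + k s ^ 2 := fun s => by positivity
  constructor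
  · intro x y hxy
    have e0 := congrArg (fun z : E => z 0) hxy
    have e1 := congrArg (fun z : E => z 1) hxy
    have e2 := congrArg (fun z : E => z 2) hxy
    simp only [PiLp.add_apply, PiLp.smul_apply, smul_eq_mul, P0, P1, P2, mul_zero,
      add_zero] at e0 e1 e2
    rw [e2] at e0 e1
    have e3 : x 0 ^ 2 + x 1 ^ 2 = y 0 ^ 2 + y 1 ^ 2 := by
      refine (strictMonoOn_of_deriv_pos (convex_Ici 0) (c _ (hm (y 2))) fun ρ hρ => ?_).injOn
        (mem_Ici.2 (by positivity)) (mem_Ici.2 (by positivity)) ?_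
      · rw [interior_Ici] at hρ
        have h5 := hm (y 2)
        have h6 : 0 < ρ := hρ
        rw [(d _ ρ h5 h6.le).deriv]
        exact mul_pos (h3 _ (by linarith)) (h4 _ (by linarith) ρ h6.le (by linarith))
      · linear_combination (x 0 + y 0 + (G (x 0 ^ 2 + x 1 ^ 2 + (l + k (y 2) ^ 2)) - 1) * x 0 +
          (G (y 0 ^ 2 + y 1 ^ 2 + (l + k (y 2) ^ 2)) - 1) * y 0) * e0 + (x 1 + y 1 +
          (G (x 0 ^ 2 + x 1 ^ 2 + (l + k (y 2) ^ 2)) - 1) * x 1 +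
          (G (y 0 ^ 2 + y 1 ^ 2 + (l + k (y 2) ^ 2)) - 1) * y 1) * e1
    rw [e3] at e0 e1
    have e4 := h3 (y 0 ^ 2 + y 1 ^ 2 + (l + k (y 2) ^ 2)) (by positivity)
    ext i
    fin_cases i
    · exact mul_left_cancel₀ e4.ne' (by simp only [Fin.zero_eta]; linarith)
    · exact mul_left_cancel₀ e4.ne' (by simp only [Fin.mk_one]; linarith)
    · exact e2
  · intro y
    have h5 := hm (y 2)
    obtain ⟨ρ, hρ, e⟩ : y 0 ^ 2 + y 1 ^ 2 ∈ (fun ρ => ρ * G (ρ + (l + k (y 2) ^ 2)) ^ 2) ''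
        Icc 0 (1 + (y 0 ^ 2 + y 1 ^ 2)) := by
      refine intermediate_value_Icc (by positivity) ((c _ h5).mono Icc_subset_Ici_self) ⟨?_, ?_⟩
      · rw [zero_mul]; positivity
      · rw [h1 _ (by nlinarith)]; linarith
    have h6 := (h3 (ρ + (l + k (y 2) ^ 2)) (by linarith [hρ.1])).ne'
    beta_reduce at e
    obtain ⟨g, hg⟩ : ∃ g, g = G (ρ + (l + k (y 2) ^ 2)) := ⟨_, rfl⟩
    rw [← hg] at e h6
    have e1 : (y 0 / g) ^ 2 + (y 1 / g) ^ 2 = ρ := by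
      field_simp
      linarith
    refine ⟨!₂[y 0 / g, y 1 / g, y 2], ?_⟩
    ext i
    fin_cases i <;> simp [P0, P1, P2, e1, ← hg] <;> field_simp <;> ring

end SQ

open SQ

theorem blockSQ : StmtSQ := by
  intro p hp hp2
  obtain ⟨D, hD, hk⟩ := exists_k
  obtain ⟨G, G', C, hC, g1, g2, g3⟩ := exists_G hp hp2
  obtain ⟨C1, c1, c2⟩ : ∃ C1 : ℝ, 1 ≤ C1 ∧ 2 + C + (4 + 2 * D) * C ≤ C1 :=
    ⟨_, by nlinarith, le_rfl⟩
  have c3 : 1 ≤ C1 ^ p := Real.one_le_rpow c1 (by linarith)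
  have hq : 0 < 2 - p := by linarith
  refine ⟨1 / 16, C1 ^ p * (16 / (2 - p)), by norm_num, by norm_num, by positivity,
    fun L ε _ hε => ?_⟩
  obtain ⟨k, k', k1, k2, k3, k4, k5⟩ := hk L
  obtain ⟨l, l0, l1, l2⟩ : ∃ l : ℝ, 0 < l ∧ l ≤ 1 / 10 ∧
      C1 ^ p * (2 * l) ^ ((2 - p) / 2) ≤ ε / 32 := by
    have h1 : Tendsto (fun l : ℝ => C1 ^ p * (2 * l) ^ ((2 - p) / 2)) (𝓝 0) (𝓝 0) := by
      have h2 : Continuous fun l : ℝ => C1 ^ p * (2 * l) ^ ((2 - p) / 2) :=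
        continuous_const.mul ((Real.continuous_rpow_const (by positivity)).comp (by fun_prop))
      simpa [Real.zero_rpow (by positivity : (2 - p) / 2 ≠ 0)] using h2.tendsto 0
    obtain ⟨l, hl⟩ := ((((h1.eventually_le_const (by positivity : 0 < ε / 32)).and
      (eventually_le_nhds (by norm_num : (0 : ℝ) < 1 / 10))).filter_mono
      (nhdsWithin_le_nhds (s := Ioi 0))).and self_mem_nhdsWithin).exists
    exact ⟨l, hl.2, hl.1.2, hl.1.1⟩
  obtain ⟨v, hv⟩ : ∃ v : E → ℝ, v = fun x => x 0 ^ 2 + x 1 ^ 2 + (l + k (x 2) ^ 2) := ⟨_, rfl⟩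
  have v0 : ∀ x, 0 < v x := fun x => by rw [hv]; positivity
  have v1 : ∀ x : E, x 0 ^ 2 + x 1 ^ 2 + k (x 2) ^ 2 ≤ v x := fun x => by rw [hv]; linarith
  have v2 : ∀ x : E, x 0 ^ 2 + x 1 ^ 2 ≤ v x := fun x => by linarith [v1 x, sq_nonneg (k (x 2))]
  have gp : ∀ u, 0 < u → 0 < G u := fun u hu => by linarith [(g3 u hu).2.2.1, A_pos hu]
  have gq : ∀ u, 0 < u → ∀ ρ, 0 ≤ ρ → ρ ≤ u → 0 < G u + 2 * ρ * G' u := fun u hu ρ a b =>
    lt_of_lt_of_le (by positivity) ((g3 u hu).2.2.2.2 ρ a b).1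
  have hd : ∀ x : E, fderiv ℝ (fun x => x + (G (v x) - 1) • P x) x =
      M x (G (v x)) (G' (v x)) (k (x 2) * k' (x 2)) := by
    intro x
    have d : ∀ i, HasFDerivAt (fun x : E => x i) (EuclideanSpace.proj i : E →L[ℝ] ℝ) x :=
      fun i => (EuclideanSpace.proj i : E →L[ℝ] ℝ).hasFDerivAt
    have d1 : HasFDerivAt v ((2 * x 0) • EuclideanSpace.proj 0 + (2 * x 1) • EuclideanSpace.proj 1 +
        (2 * (k (x 2) * k' (x 2))) • EuclideanSpace.proj 2 : E →L[ℝ] ℝ) x := by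
      rw [hv]
      refine ((((d 0).pow 2).add ((d 1).pow 2)).add
        ((((k2 _).comp_hasFDerivAt x (d 2)).pow 2).const_add l)).congr_fderiv ?_
      ext w
      simp
      ring
    exact ((hasFDerivAt_id x).add ((((g3 _ (v0 x)).2.1.comp_hasFDerivAt x d1).sub_const 1).smul
      P.hasFDerivAt)).fderiv
  have hdet : ∀ x : E, 0 < G (v x) * (G (v x) + 2 * (x 0 ^ 2 + x 1 ^ 2) * G' (v x)) := fun x =>
    mul_pos (gp _ (v0 x)) (gq _ (v0 x) _ (by positivity) (v2 x))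
  have hn : ∀ x : E, v x ≤ 1 →
      ‖M x (G (v x)) (G' (v x)) (k (x 2) * k' (x 2))‖ ^ p ≤ C1 ^ p * A (v x) ^ p := by
    intro x h
    obtain ⟨a1, a2⟩ := (g3 _ (v0 x)).2.2.2.1 h
    have a3 : 1 ≤ A (v x) := Real.one_le_rpow_of_pos_of_le_one_of_nonpos (v0 x) h (by norm_num)
    have a4 : |G (v x) - 1| ≤ G (v x) + 1 := abs_le.2 ⟨by linarith [gp _ (v0 x)], by linarith⟩
    rw [← Real.mul_rpow (by linarith) (by linarith)]
    refine Real.rpow_le_rpow (norm_nonneg _) ((norm_M (v1 x) (k3 _)).trans ?_) (by linarith)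
    nlinarith [mul_le_mul_of_nonneg_left a2 (by positivity : 0 ≤ 4 + 2 * D),
      mul_le_mul_of_nonneg_right c2 (by linarith : 0 ≤ A (v x))]
  refine ⟨fun x => x + (G (v x) - 1) • P x, ?_, fun x => ⟨?_, ?_⟩, fun x hx => ?_,
    fun x h0 h1 => ?_, fun x => ?_, fun x hx => ?_⟩
  · rw [hv]
    exact bij l0 g1 (fun u hu => (g3 u hu).2.1) gp gq
  · have d1 : ContDiff ℝ ∞ v := by rw [hv]; fun_prop
    exact contDiffAt_id.add ((((g3 _ (v0 x)).1.comp x d1.contDiffAt).sub contDiffAt_const).smul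
      P.contDiff.contDiffAt)
  · rw [hd]
    refine LinearMap.ker_eq_bot.1 (not_not.1 fun h => (hdet x).ne' ?_)
    rw [← det_M]
    exact LinearMap.det_eq_zero_iff_ker_ne_bot.2 h
  · have h1 : 1 ≤ v x := by
      by_contra h
      refine hx ⟨by linarith [v2 x], ?_, ?_⟩
      · by_contra h2
        nlinarith [k4 (x 2) (Or.inl (by linarith)), v1 x]
      · by_contra h2
        nlinarith [k4 (x 2) (Or.inr (by linarith)), v1 x]
    simp [g1 _ h1]
  · have h2 : P x = 0 := norm_eq_zero.1 (pow_eq_zero_iff two_ne_zero |>.1 (by simp [norm_P, h0, h1]))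
    simp [h2]
  · rw [hd, det_M, abs_of_pos (hdet x)]
    rcases le_or_gt (v x) 1 with h | h
    · refine (hn x h).trans ?_
      have a1 : A (v x) ^ p = A (v x) * v x ^ ((1 - p) / 2) := by
        rw [A, ← Real.rpow_mul (v0 x).le, ← Real.rpow_add (v0 x)]
        congr 1
        ring
      have a2 := mul_le_mul (g3 _ (v0 x)).2.2.1 ((g3 _ (v0 x)).2.2.2.2 _ (by positivity) (v2 x)).1
        (by have := v0 x; positivity) (gp _ (v0 x)).le
      rw [mul_assoc, a1]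
      refine mul_le_mul_of_nonneg_left ?_ (by linarith)
      rw [div_mul_eq_mul_div, le_div_iff₀ hq]
      linarith
    · have a1 := norm_M (g := G (v x)) (g' := G' (v x)) (v1 x) (k3 (x 2))
      rw [g1 _ h.le, g2 _ h] at *
      have a2 : (1 : ℝ) ≤ 16 / (2 - p) := (le_div_iff₀ hq).2 (by linarith)
      refine (Real.rpow_le_one (norm_nonneg _) (by simpa using a1) (by linarith)).trans ?_
      nlinarith
  · obtain ⟨b1, b2, b3⟩ := hx
    simp only [PiLp.add_apply, PiLp.smul_apply, smul_eq_mul, P0, P1, P2, mul_zero,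
      add_zero] at b1 b2 b3
    have a1 : v x = x 0 ^ 2 + x 1 ^ 2 + l := by
      rw [hv]
      simp [k5 (x 2) (by linarith) (by linarith)]
    have a2 := A_sq (v0 x)
    have a3 := A_pos (v0 x)
    have a4 := (g3 _ (v0 x)).2.2.1
    have a5 : (x 0 ^ 2 + x 1 ^ 2) * (A (v x) * A (v x)) ≤ 1 / 16 := by
      have a6 := mul_le_mul a4 a4 (by positivity) (gp _ (v0 x)).le
      nlinarith [mul_le_mul_of_nonneg_left a6 (by positivity : 0 ≤ x 0 ^ 2 + x 1 ^ 2)]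
    have a6 : x 0 ^ 2 + x 1 ^ 2 ≤ v x / 16 := by
      nlinarith [mul_le_mul_of_nonneg_left a5 (v0 x).le]
    have a7 : v x ≤ 2 * l := by linarith
    have a8 := ((g3 _ (v0 x)).2.2.2.2 _ (by positivity) (v2 x)).2 (by linarith)
    have a9 : (x 0 ^ 2 + x 1 ^ 2) / v x ≤ 1 / 2 := (div_le_iff₀ (v0 x)).2 (by linarith [v0 x])
    have a10 := mul_le_mul a4 (show A (v x) / 8 ≤ _ from le_trans (by nlinarith) a8) (by positivity)
      (gp _ (v0 x)).le
    have a11 : A (v x) ^ p = v x ^ ((2 - p) / 2) * (A (v x) * A (v x)) := by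
      rw [A, ← Real.rpow_mul (v0 x).le, ← Real.rpow_add (v0 x), ← Real.rpow_add (v0 x)]
      congr 1
      ring
    have a12 : C1 ^ p * v x ^ ((2 - p) / 2) ≤ ε / 32 := le_trans (mul_le_mul_of_nonneg_left
      (Real.rpow_le_rpow (v0 x).le a7 (by positivity)) (by linarith)) l2
    rw [hd, det_M, abs_of_pos (hdet x)]
    refine (hn x (by linarith)).trans ?_
    rw [a11, ← mul_assoc]
    nlinarith [mul_le_mul_of_nonneg_right a12 (mul_pos a3 a3).le, mul_le_mul_of_nonneg_left a10 hε.le]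

end Vale.Agent.P073Z.Sm
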