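import Vale.Agent.P073Z.Sm.Defs

/-!
# P073, smoothing half: statements of the blocks

Every block is a proposition `StmtX`. A block file proves `StmtX` from the blocks listed in its
docstring, taken as hypotheses.
-/

open Set Metric MeasureTheory Topology Filter
open scoped ContDiff ENNReal NNReal RealInnerProductSpace

noncomputable section

namespace Vale.Agent.P073Z.Sm

/-! ## General tools -/

/-- Block M (no input). -/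
def StmtM : Prop := ∃ M : ℝ → ℝ → ℝ, IsM M

/-- Block SHEAR (no input): shears along a fixed vector. -/
def StmtSHEAR : Prop :=
  ∀ (X : Type) [NormedAddCommGroup X] [NormedSpace ℝ X] (m : X → ℝ) (a : X) (c : ℝ), 0 < c →
    Continuous m → (∀ (x : X) (τ : ℝ), 0 ≤ τ → c * τ ≤ τ + m (x + τ • a) - m x) →
    Function.Bijective (fun x => x + m x • a) ∧
      ∀ x, ContDiffAt ℝ ∞ m x → LD (fun x => x + m x • a) x

/-- Block PERSP (no input): the perspective function is Lipschitz. -/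
def StmtPERSP : Prop :=
  ∀ (X Y : Type) [NormedAddCommGroup X] [NormedSpace ℝ X] [NormedAddCommGroup Y]
    [NormedSpace ℝ Y] (j : X → Y) (L : ℝ≥0), LipschitzWith L j → (∀ w, ‖j w‖ ≤ L) →
    (∀ w, 1 ≤ ‖w‖ → j w = 0) →
    ∀ (z z' : X) (ρ ρ' : ℝ), ‖persp j z ρ - persp j z' ρ'‖ ≤ L * ‖z - z'‖ + 2 * L * |ρ - ρ'|

/-- Block HOMLIP (no input): homogeneous and smooth off the origin implies Lipschitz. -/
def StmtHOMLIP : Prop :=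
  ∀ (X Y : Type) [NormedAddCommGroup X] [NormedSpace ℝ X] [FiniteDimensional ℝ X]
    [NormedAddCommGroup Y] [NormedSpace ℝ Y] (G : X → Y),
    (∀ (x : X) (t : ℝ), 0 ≤ t → G (t • x) = t • G x) → (∀ x, x ≠ 0 → ContDiffAt ℝ ∞ G x) →
    ∃ C : ℝ≥0, LipschitzWith C G

/-- Block MIN (no input): smooth Lipschitz minorants with prescribed support. -/
def StmtMIN : Prop :=
  ∀ (X : Type) [NormedAddCommGroup X] [NormedSpace ℝ X] [FiniteDimensional ℝ X] (V : Set X)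
    (γ : X → ℝ) (κ : ℝ≥0), IsOpen V → 0 < κ →
    (∀ K : Set X, IsCompact K → K ⊆ V → ∃ c : ℝ, 0 < c ∧ ∀ x ∈ K, c ≤ γ x) →
    ∃ ρ : X → ℝ, ContDiff ℝ ∞ ρ ∧ LipschitzWith κ ρ ∧ (∀ x, 0 ≤ ρ x) ∧ (∀ x, 0 < ρ x ↔ x ∈ V) ∧
      ∀ x ∈ V, ρ x ≤ γ x

/-- Block INV (no input): inverse function theorem for injective local diffeomorphisms. -/
def StmtINV : Prop :=
  ∀ (X : Type) [NormedAddCommGroup X] [NormedSpace ℝ X] [FiniteDimensional ℝ X] (F : X → X)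
    (U : Set X), IsOpen U → InjOn F U → (∀ x ∈ U, LD F x) →
    (∀ V : Set X, IsOpen V → V ⊆ U → IsOpen (F '' V)) ∧
      ∀ y ∈ F '' U, LD (Function.invFunOn F U) y

/-- Block TOP (no input): a small modification inside `U` of a homeomorphism. -/
def StmtTOP : Prop :=
  ∀ (g h : E → E) (Ω Λ U : Set E), IsOpen Ω → IsOpen Λ → Bornology.IsBounded Λ → IsOpen U →
    U ⊆ Ω → Homeo g Ω Λ → (∀ x, x ∉ U → h x = g x) → ContinuousOn h U → BijOn h U (g '' U) →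
    (∀ x ∈ U, ‖h x - g x‖ ≤ infDist x Uᶜ ∧ ‖h x - g x‖ ≤ infDist (g x) Λᶜ / 2) → Homeo h Ω Λ

/-- Block PATCH (no input): patching of bijections on disjoint sets. -/
def StmtPATCH : Prop :=
  ∀ (ι : Type) (U : Set E) (L : ι → Set E) (G H : ι → E → E) (g h : E → E),
    (Pairwise fun i j => Disjoint (L i) (L j)) → (∀ i, L i ⊆ U) →
    (∀ i, (L i).Nonempty → Function.Bijective (G i) ∧ Function.Bijective (H i) ∧
      ∀ x, x ∉ L i → H i x = G i x) →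
    (∀ i, ∀ x ∈ L i, g x = G i x ∧ h x = H i x) → (∀ x, (∀ i, x ∉ L i) → h x = g x) →
    InjOn g U → BijOn h U (g '' U)

/-- Block LF (no input): locally finite sets. -/
def StmtLF : Prop :=
  ∀ (P Ω : Set E), IsOpen Ω → LocFin P Ω → P.Countable ∧ ∀ P' ⊆ P, IsOpen (Ω \ P')

/-- Block DIST (no input): bookkeeping of the Sobolev distance. -/
structure StmtDIST : Prop where
  tri : ∀ (p : ℝ) (V : Set E) (h k g : E → E), 1 ≤ p → IsOpen V → ContinuousOn h V →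
    ContinuousOn k V → ContinuousOn g V → Dist p V h g ≤ Dist p V h k + Dist p V k g
  self : ∀ (p : ℝ) (V : Set E) (h : E → E), Dist p V h h = 0
  chg : ∀ (p : ℝ) (Λ : Set E) (ε : ℝ≥0∞), 1 ≤ p → Bornology.IsBounded Λ → 0 < ε →
    ∃ δ : ℝ≥0∞, 0 < δ ∧ ∀ (Ω K : Set E) (h h' : E → E), IsOpen Ω → MapsTo h Ω Λ →
      Chg p Ω Λ h h' K δ → Dist p Ω h' h ≤ ε
  de : ∀ (p : ℝ) (Ω : Set E) (ε : ℝ≥0∞), 1 ≤ p → Bornology.IsBounded Ω → 0 < ε →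
    ∃ δ : ℝ, 0 < δ ∧ ∀ (U : Set E) (h g : E → E), IsOpen U → U ⊆ Ω →
      DE p U h g ≤ ENNReal.ofReal δ → (∀ x ∈ U, ‖h x - g x‖ ≤ δ) → Dist p U h g ≤ ε
  fin : ∀ (p : ℝ) (V : Set E) (h g : E → E), 1 ≤ p → En p V g < ⊤ → Dist p V h g < ⊤ →
    En p V h < ⊤
  lim : ∀ (p : ℝ) (V : Set E) (h : ℕ → E → E) (F g : E → E) (ε : ℝ≥0∞), 1 ≤ p → IsOpen V →
    (∀ j, ContinuousOn (h j) V) → ContinuousOn g V →
    (∀ x ∈ V, ∀ᶠ j in atTop, h j =ᶠ[𝓝 x] F) → (∀ j, Dist p V (h j) g ≤ ε) → Dist p V F g ≤ ε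
  null : ∀ (p : ℝ) (V P : Set E) (h g : E → E), P.Countable →
    Dist p (V \ P) h g = Dist p V h g ∧ En p (V \ P) h = En p V h
  trans : ∀ (p : ℝ) (Ω Λ K K' : Set E) (h h' h'' : E → E) (δ δ' : ℝ≥0∞),
    Chg p Ω Λ h h' K δ → Chg p Ω Λ h' h'' K' δ' → Chg p Ω Λ h h'' (K ∪ K') (δ + δ')
  chgfin : ∀ (p : ℝ) (Ω Λ K : Set E) (h h' : E → E) (δ : ℝ≥0∞), IsOpen Ω → δ < ⊤ →
    Chg p Ω Λ h h' K δ → En p Ω h < ⊤ → En p Ω h' < ⊤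

/-! ## Structure of conical maps -/

/-- Block ST (no input): local structure of conical maps. -/
structure StmtST : Prop where
  isTan : ∀ (g : E → E) (x : E), ConeAt g x → IsTan g x (tanM g x)
  uniq : ∀ (g : E → E) (x : E) (G G' : E → E), IsTan g x G → IsTan g x G' → G = G'
  germ : ∀ (g g' : E → E) (x : E), g =ᶠ[𝓝 x] g' →
    tanM g x = tanM g' x ∧ Lin g x = Lin g' x ∧ rk g x = rk g' x ∧ lab g x = lab g' x ∧
      (ConeAt g x → ConeAt g' x)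
  /-- a translation direction is a global translation direction of the tangent cone map -/
  transl : ∀ (g : E → E) (x w c : E), ConeAt g x →
    (∀ᶠ q : E × ℝ in 𝓝 (x, (0 : ℝ)), g (q.1 + q.2 • w) = g q.1 + q.2 • c) →
    (∀ (y : E) (t : ℝ), tanM g x (y + t • w) = tanM g x y + t • c) ∧
      ∀ᶠ t : ℝ in 𝓝 0, ConeAt g (x + t • w) ∧ tanM g (x + t • w) = tanM g x
  near : ∀ (g : E → E) (x : E), (∀ᶠ y in 𝓝 x, ConeAt g y) → ∀ᶠ y in 𝓝 x,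
    Lin g x ≤ Lin g y ∧ y - x ∈ Lin g y ∧ tanM g y x = g x ∧
      (y - x ∈ Lin g x → lab g y = lab g x ∧ Lin g y = Lin g x)
  /-- global version for the tangent cone map -/
  glob : ∀ (g : E → E) (x : E), (∀ᶠ y in 𝓝 x, ConeAt g y) → ∀ y : E,
    ConeAt (tanM g x) y ∧ Lin g x ≤ Lin (tanM g x) y ∧ y - x ∈ Lin (tanM g x) y ∧
      ∀ (t : ℝ) (w : E), 0 < t → w ∈ Lin g x →
        Lin (tanM g x) (x + t • (y - x) + w) = Lin (tanM g x) y ∧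
          lab (tanM g x) (x + t • (y - x) + w) = lab (tanM g x) y
  inj : ∀ (g : E → E) (x : E) (V : Set E), ConeAt g x → V ∈ 𝓝 x → InjOn g V →
    Function.Injective (tanM g x)
  surj : ∀ (g : E → E) (x : E), ConeAt g x → (∀ V ∈ 𝓝 x, g '' V ∈ 𝓝 (g x)) →
    Function.Surjective (tanM g x)
  rk3 : ∀ (g : E → E) (x : E) (V : Set E), ConeAt g x → V ∈ 𝓝 x → InjOn g V → 3 ≤ rk g x →
    ∃ A : E ≃L[ℝ] E, ∀ y, tanM g x y = g x + A (y - x)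
  rk2 : ∀ (g : E → E) (x : E) (V : Set E), ConeAt g x → V ∈ 𝓝 x → InjOn g V → rk g x = 2 →
    ∃ (A : E ≃L[ℝ] E) (n a : E), ‖n‖ = 1 ∧ 0 < 1 + ⟪n, a⟫ ∧ (∀ w, w ∈ Lin g x ↔ ⟪n, w⟫ = 0) ∧
      ∀ y, tanM g x y = g x + A (y - x + max ⟪n, y - x⟫ 0 • a)
  rk1 : ∀ (g : E → E) (x : E), rk g x = 1 →
    ∃ e : E, ‖e‖ = 1 ∧ e ∈ Lin g x ∧ ∀ y, y - x ∈ Lin g x ↔ rc x e y = 0
  ball : ∀ (g : E → E) (y : E) (r : ℝ), (∀ z ∈ ball y r, ConeAt g z) →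
    ContinuousOn g (ball y r) → InjOn g (ball y r) → rk g y = 2 →
    (∀ z ∈ ball y r, rk g z ≤ 2 → lab g z = lab g y) → ∀ z ∈ ball y r, g z = tanM g y z
  vert : ∀ (g : E → E) (U : Set E), IsOpen U → (∀ x ∈ U, ConeAt g x) → LocFin (Sk g U 0) U
  lines : ∀ (g : E → E) (U : Set E), IsOpen U → (∀ x ∈ U, ConeAt g x) → (∀ x ∈ U, 1 ≤ rk g x) →
    ∃ x0 e : Lab → E, Lines U (Sk g U 1) (lab g) x0 e
  count : ∀ (g : E → E) (U : Set E), IsOpen U → (∀ x ∈ U, ConeAt g x) → (lab g '' U).Countable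

/-- Block T (input MIN): thin tubes around lines. -/
def StmtT : Prop :=
  ∀ (ι : Type) (U S : Set E) (cls : E → ι) (x0 e : ι → E), Lines U S cls x0 e →
    Bornology.IsBounded U →
    (cls '' S).Countable ∧ volume S = 0 ∧
      ∀ (κ : ι → ℝ≥0) (O : ι → Set E) (β : ι → E → ℝ), (∀ i, 0 < κ i) → (∀ i, IsOpen (O i)) →
        (∀ x ∈ S, x ∈ O (cls x)) → (∀ i, ContinuousOn (β i) U) → (∀ i, ∀ x ∈ U, 0 < β i x) →
        ∃ ρ : ι → ℝ → ℝ, Tubes U S cls x0 e κ O ρ ∧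
          ∀ (i : ι) (s : ℝ), 0 < ρ i s → ρ i s ≤ β i (x0 i + s • e i)

/-! ## Faces -/

/-- Block FD (input ST, MIN, PERSP): the half width of the lens around a face. -/
def StmtFD : Prop :=
  ∀ (g : E → E) (U : Set E) (x0 e : Lab → E) (κt : Lab → ℝ≥0) (O : Lab → Set E)
    (ρ : Lab → ℝ → ℝ) (γ : E → ℝ) (xf n : E) (κ : ℝ≥0),
    IsOpen U → Bornology.IsBounded U → (∀ x ∈ U, ConeAt g x) → (∀ x ∈ U, 1 ≤ rk g x) →
    Lines U (Sk g U 1) (lab g) x0 e → Tubes U (Sk g U 1) (lab g) x0 e κt O ρ → (∀ i, κt i ≤ 1) →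
    (∀ i, ∀ y ∈ O i, g =ᶠ[𝓝 y] i.1) → (∀ i, ∀ y ∈ O i, rc (x0 i) (e i) y ≤ γ y) →
    ContinuousOn γ U → (∀ x ∈ U, 0 < γ x) →
    xf ∈ U → rk g xf = 2 → ‖n‖ = 1 → (∀ w, w ∈ Lin g xf ↔ ⟪n, w⟫ = 0) → 0 < κ →
    ∃ d : E → ℝ, LipschitzWith κ d ∧ (∀ y, 0 ≤ d y) ∧ (∀ (y : E) (t : ℝ), d (y + t • n) = d y) ∧
      (∀ y, ⟪n, y - xf⟫ = 0 → (0 < d y ↔ y ∈ face g U (lab g xf))) ∧
      (∀ y, 0 < d y → ContDiffAt ℝ ∞ d y) ∧
      (∀ y ∈ face g U (lab g xf), d y ≤ κ ∧ d y ≤ κ * γ y ∧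
        d y ≤ κ * infDist y ((Sk g U 2 \ face g U (lab g xf)) ∪ Uᶜ)) ∧
      ∀ i, ∃ η : ℝ, ∀ y ∈ face g U (lab g xf), y ∈ tube (x0 i) (e i) (ρ i) (1 / 4) →
        d y = η * rc (x0 i) (e i) y

/-- the face model with half width `d` -/
def fm (M : ℝ → ℝ → ℝ) (b : E) (A : E ≃L[ℝ] E) (xf n a : E) (d : E → ℝ) (y : E) : E :=
  b + A (y - xf + M ⟪n, y - xf⟫ (d y) • a)

/-- Block FM (input SHEAR): the face model. The case `d = 0` is the folded affine map. -/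
def StmtFM : Prop :=
  ∀ (M : ℝ → ℝ → ℝ) (A : E ≃L[ℝ] E) (n a : E), IsM M → ‖n‖ = 1 → 0 < 1 + ⟪n, a⟫ →
    ∃ κ C : ℝ≥0, 0 < κ ∧ ∀ (b xf : E) (d : E → ℝ), LipschitzWith κ d → (∀ y, 0 ≤ d y) →
      Function.Bijective (fm M b A xf n a d) ∧ LipschitzWith C (fm M b A xf n a d) ∧
        (∀ y, 0 < d y → ContDiffAt ℝ ∞ d y → LD (fm M b A xf n a d) y) ∧
        ∀ y, ‖fm M b A xf n a d y - fm M b A xf n a (fun _ => 0) y‖ ≤ C * d y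

/-- Block FACE (input M, ST, T, FD, FM, PATCH): smoothing along all faces. -/
def StmtFACE : Prop :=
  ∀ (p : ℝ) (g : E → E) (U : Set E) (γ : E → ℝ) (ε : ℝ≥0∞), 1 ≤ p → IsOpen U →
    Bornology.IsBounded U → ContinuousOn g U → InjOn g U → (∀ x ∈ U, ConeAt g x) →
    (∀ x ∈ U, 1 ≤ rk g x) → LipschitzWith 1 γ → (∀ x ∈ U, 0 < γ x) → 0 < ε →
    ∃ (h : E → E) (S : Set E), (∀ x, x ∉ U → h x = g x) ∧ ContinuousOn h U ∧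
      BijOn h U (g '' U) ∧ (∀ x ∈ U, ‖h x - g x‖ ≤ γ x) ∧ DE p U h g ≤ ε ∧ S ⊆ U ∧
      IsOpen (U \ S) ∧ (∀ x ∈ U \ S, LD h x) ∧ EdgeCone h S

/-! ## Edges -/

/-- Block E2 (no input, INV and SHEAR may be used): smoothing of a planar cone map. -/
def StmtE2 : Prop :=
  ∀ Γ : ℂ → ℂ, (∀ (z : ℂ) (t : ℝ), 0 ≤ t → Γ (t • z) = t • Γ z) → Function.Bijective Γ →
    (∀ z, z ≠ 0 → LD Γ z) → (∀ᶠ z in 𝓝 (-1 : ℂ), Γ z = z) →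
    ∃ Γs : ℂ → ℂ, Function.Bijective Γs ∧ (∀ z, LD Γs z) ∧ ∀ z, 1 ≤ ‖z‖ → Γs z = Γ z

/-- Block EM0 (input E2, SHEAR, PERSP, HOMLIP): the edge model in coordinates. -/
def StmtEM0 : Prop :=
  ∀ (m : ℂ → ℝ) (Γ : ℂ → ℂ), (∀ (z : ℂ) (t : ℝ), 0 ≤ t → m (t • z) = t * m z) →
    (∀ z, z ≠ 0 → ContDiffAt ℝ ∞ m z) →
    (∀ (z : ℂ) (t : ℝ), 0 ≤ t → Γ (t • z) = t • Γ z) → Function.Bijective Γ →
    (∀ z, z ≠ 0 → LD Γ z) → (∀ᶠ z in 𝓝 (-1 : ℂ), Γ z = z) →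
    ∃ κ C : ℝ≥0, 0 < κ ∧ ∀ ρ : ℝ → ℝ, LipschitzWith κ ρ → (∀ s, 0 ≤ ρ s) →
      ContDiffOn ℝ ∞ ρ {s | 0 < ρ s} →
      ∃ H : ℝ × ℂ → ℝ × ℂ, Function.Bijective H ∧ LipschitzWith C H ∧
        (∀ q : ℝ × ℂ, ρ q.1 ≤ ‖q.2‖ → H q = (q.1 + m q.2, Γ q.2)) ∧
        (∀ q : ℝ × ℂ, 0 < ρ q.1 → LD H q) ∧
        ∀ q : ℝ × ℂ, ‖H q - (q.1 + m q.2, Γ q.2)‖ ≤ C * ρ q.1

/-- Block EM (input EM0): the edge model. The case `ρ = 0` shows that `G` is Lipschitz. -/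
def StmtEM : Prop :=
  ∀ (G : E → E) (x0 e c : E) (W : Set E) (A : E →L[ℝ] E) (b : E), ‖e‖ = 1 →
    (∀ (y : E) (t : ℝ), 0 ≤ t → G (x0 + t • (y - x0)) = G x0 + t • (G y - G x0)) →
    (∀ (y : E) (s : ℝ), G (y + s • e) = G y + s • c) → Function.Bijective G →
    (∀ y, rc x0 e y ≠ 0 → LD G y) → IsOpen W → W.Nonempty → (∀ y ∈ W, G y = b + A y) →
    ∃ κ C : ℝ≥0, 0 < κ ∧ LipschitzWith C G ∧ ∀ ρ : ℝ → ℝ, LipschitzWith κ ρ → (∀ s, 0 ≤ ρ s) →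
      ContDiffOn ℝ ∞ ρ {s | 0 < ρ s} →
      ∃ H : E → E, Function.Bijective H ∧ LipschitzWith C H ∧
        (∀ y, ρ (sc x0 e y) ≤ rc x0 e y → H y = G y) ∧ (∀ y, 0 < ρ (sc x0 e y) → LD H y) ∧
        ∀ y, ‖H y - G y‖ ≤ C * ρ (sc x0 e y)

/-- Block EDGE (input ST, T, EM, PATCH): smoothing along all edges. -/
def StmtEDGE : Prop :=
  ∀ (p : ℝ) (h : E → E) (U Λ S : Set E) (γ : E → ℝ) (ε : ℝ≥0∞), 1 ≤ p → IsOpen U →
    Bornology.IsBounded U → Homeo h U Λ → S ⊆ U → IsOpen (U \ S) → (∀ x ∈ U \ S, LD h x) →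
    EdgeCone h S → LipschitzWith 1 γ → (∀ x ∈ U, 0 < γ x) → 0 < ε →
    ∃ h' : E → E, (∀ x, x ∉ U → h' x = h x) ∧ (∀ x ∈ U, LD h' x) ∧ BijOn h' U (h '' U) ∧
      (∀ x ∈ U, ‖h' x - h x‖ ≤ γ x) ∧ DE p U h' h ≤ ε

/-! ## Points -/

/-- Block SQ (no input): the squeeze map of a cylinder. -/
def StmtSQ : Prop :=
  ∀ p : ℝ, 1 ≤ p → p < 2 → ∃ a C : ℝ, 0 < a ∧ a < 1 ∧ 0 < C ∧ ∀ L ε : ℝ, 0 ≤ L → 0 < ε →
    ∃ σ : E → E, Function.Bijective σ ∧ (∀ x, LD σ x) ∧ (∀ x, x ∉ cyl 1 L → σ x = x) ∧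
      (∀ x : E, x 0 = 0 → x 1 = 0 → σ x = x) ∧
      (∀ x, ‖fderiv ℝ σ x‖ ^ p ≤ C * |(fderiv ℝ σ x).det|) ∧
      ∀ x, σ x ∈ cyl a L → ‖fderiv ℝ σ x‖ ^ p ≤ ε * |(fderiv ℝ σ x).det|

/-- Block CV (no input): change of variables in the energy. -/
def StmtCV : Prop :=
  ∀ (p c : ℝ) (σ k : E → E) (K N : Set E), 0 ≤ p → 0 ≤ c → MeasurableSet K → InjOn σ K →
    (∀ x ∈ K, DifferentiableAt ℝ σ x) → N.Countable →
    (∀ x ∈ K, x ∉ N → DifferentiableAt ℝ k (σ x)) →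
    (∀ x ∈ K, ‖fderiv ℝ σ x‖ ^ p ≤ c * |(fderiv ℝ σ x).det|) →
    En p K (fun x => k (σ x)) ≤ ENNReal.ofReal c * En p (σ '' K) k

/-- Block TAU (input SHEAR): compactly supported diffeomorphisms act transitively. -/
def StmtTAU : Prop :=
  ∀ (W : Set E) (y0 y1 : E), IsOpen W → IsPreconnected W → y0 ∈ W → y1 ∈ W →
    ∃ (τ : E → E) (K : Set E), Function.Bijective τ ∧ (∀ x, LD τ x) ∧ IsCompact K ∧ K ⊆ W ∧
      (∀ x, x ∉ K → τ x = x) ∧ τ y0 = y1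

/-- Block CONN (no input): countable sets do not disconnect. -/
def StmtCONN : Prop :=
  ∀ W C : Set E, IsOpen W → IsPreconnected W → C.Countable → IsPreconnected (W \ C)

/-- the singular point `v` can be moved to `w` inside `V` at small cost -/
def Mv (p : ℝ) (V : Set E) (v w : E) : Prop :=
  ∀ (h : E → E) (Ω Λ P : Set E) (δ : ℝ≥0∞), IsOpen Ω → IsOpen Λ → V ⊆ Ω → Homeo h Ω Λ →
    Disjoint V P → (∀ x ∈ Ω, x ∉ P → x ≠ v → LD h x) → En p Ω h < ⊤ → 0 < δ →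
    ∃ (h' : E → E) (K : Set E), K ⊆ V ∧ Chg p Ω Λ h h' K δ ∧ h' w = h w ∧
      ∀ x ∈ Ω, x ∉ P → x ≠ w → LD h' x

/-- Block MOVE (input SQ, CV, TAU, INV): moving a singular point along a segment. -/
def StmtMOVE : Prop :=
  ∀ (p : ℝ) (V : Set E) (v w : E), 1 ≤ p → p < 2 → IsOpen V → segment ℝ v w ⊆ V → Mv p V v w

/-- Block MOVEC (input MOVE, CONN, DIST): moving a singular point inside a connected set. -/
def StmtMOVEC : Prop :=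
  ∀ (p : ℝ) (V : Set E) (v w : E), 1 ≤ p → p < 2 → IsOpen V → IsPreconnected V → v ∈ V →
    w ∈ V → Mv p V v w

/-- Block EXH (no input): exhaustion by full compact sets. -/
structure StmtEXH : Prop where
  empty : ∀ Ω : Set E, IsOpen Ω → Bornology.IsBounded Ω → Full Ω ∅
  exh : ∀ Ω : Set E, IsOpen Ω → Bornology.IsBounded Ω → ∃ K : ℕ → Set E, Monotone K ∧
    (∀ j, IsCompact (K j) ∧ K j ⊆ Ω ∧ Full Ω (K j)) ∧
      (∀ D : Set E, IsCompact D → D ⊆ Ω → ∃ j, D ⊆ K j) ∧ ∀ x ∈ Ω, ∃ j, K j ∈ 𝓝 x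
  pre : ∀ (h : E → E) (Ω Λ K : Set E), IsOpen Ω → IsOpen Λ → Homeo h Ω Λ → IsCompact K →
    K ⊆ Λ → IsCompact (Ω ∩ h ⁻¹' K) ∧ (Full Λ K → Full Ω (Ω ∩ h ⁻¹' K))

/-- Block STAGE (input MOVEC, CONN, LF, DIST, EXH): one stage of the swindle. -/
def StmtSTAGE : Prop :=
  ∀ (p : ℝ) (h : E → E) (Ω Λ P Q D D' K' : Set E) (δ : ℝ≥0∞), 1 ≤ p → p < 2 → IsOpen Ω →
    IsOpen Λ → Homeo h Ω Λ → LocFin P Ω → LocFin Q Ω → Disjoint P Q → IsCompact D → D ⊆ Ω →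
    Full Ω D → Disjoint P D → IsCompact D' → D' ⊆ Ω → IsCompact K' → K' ⊆ Λ →
    (∀ x ∈ Ω, x ∉ P → LD h x) → En p Ω h < ⊤ → 0 < δ →
    ∃ (h' : E → E) (P' K : Set E), Chg p Ω Λ h h' K δ ∧ K ⊆ Ω ∧ Disjoint K D ∧ Disjoint K Q ∧
      LocFin P' Ω ∧ Disjoint P' Q ∧ (∀ x ∈ P', x ∉ D' ∧ h' x ∉ K') ∧ ∀ x ∈ Ω, x ∉ P' → LD h' x

/-- Block SWINDLE (input STAGE, EXH, DIST, INV): all singular points are pushed to infinity. -/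
def StmtSWINDLE : Prop :=
  ∀ (p : ℝ) (h : E → E) (Ω Λ P Q : Set E) (ε : ℝ≥0∞), 1 ≤ p → p < 2 → IsOpen Ω → IsOpen Λ →
    Bornology.IsBounded Ω → Bornology.IsBounded Λ → Homeo h Ω Λ → LocFin P Ω → LocFin Q Ω →
    Disjoint P Q → (∀ x ∈ Ω, x ∉ P → LD h x) → En p Ω h < ⊤ → 0 < ε →
    ∃ F : E → E, Homeo F Ω Λ ∧ (∀ x ∈ Ω, LD F x) ∧ (∀ x ∈ Q, F x = h x) ∧
      (∀ x, x ∉ Ω → F x = h x) ∧ Dist p Ω F h ≤ ε

/-- Block Q (input LF): protected points accumulating at the points of `P`. -/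
def StmtQ : Prop :=
  ∀ Ω P C : Set E, IsOpen Ω → LocFin P Ω → C.Countable →
    ∃ Q : Set E, LocFin Q (Ω \ P) ∧ Disjoint C Q ∧ ∀ x ∈ P, x ∈ closure Q

/-- Block ENDS (input CONN, LF, EXH): filling in the punctures. -/
def StmtENDS : Prop :=
  ∀ (g F : E → E) (Ω Λ P Q : Set E), IsOpen Ω → IsOpen Λ → Homeo g Ω Λ → LocFin P Ω →
    Homeo F (Ω \ P) (Λ \ g '' P) → (∀ x ∈ P, F x = g x) → Q ⊆ Ω \ P → (∀ x ∈ Q, F x = g x) →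
    (∀ x ∈ P, x ∈ closure Q) → Homeo F Ω Λ

/-- The smoothing theorem. -/
def StmtMAIN : Prop :=
  ∀ (p : ℝ) (g : E → E) (Ω Λ P : Set E) (ε : ℝ≥0∞), 1 ≤ p → p < 2 → IsOpen Ω → IsOpen Λ →
    Bornology.IsBounded Ω → Bornology.IsBounded Λ → Homeo g Ω Λ → LocFin P Ω →
    (∀ x ∈ Ω, x ∉ P → ConeAt g x) → En p Ω g < ⊤ → 0 < ε →
    ∃ F G : E → E, ContDiffOn ℝ ∞ F Ω ∧ ContDiffOn ℝ ∞ G Λ ∧ BijOn F Ω Λ ∧ InvOn G F Ω Λ ∧
      Dist p Ω F g ≤ ε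

end Vale.Agent.P073Z.Sm
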