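import Vale.Agent.P073Z.Sm.Sk

/-!
# P073, smoothing half: block CONN
-/

open Set Metric MeasureTheory Topology Filter
open scoped ContDiff ENNReal NNReal RealInnerProductSpace

noncomputable section

namespace Vale.Agent.P073Z.Sm

namespace CONN

theorem ball_diff {C : Set E} (hC : C.Countable) (x : E) {r : ℝ} (hr : 0 < r) :
    IsPreconnected (ball x r \ C) := by
  let φ : OpenPartialHomeomorph E E := OpenPartialHomeomorph.univBall x r
  have hs : φ.source = univ := OpenPartialHomeomorph.univBall_source x r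
  have ht : φ.target = ball x r := OpenPartialHomeomorph.univBall_target x hr
  have hb : BijOn φ univ (ball x r) := by
    have h1 := φ.bijOn
    rwa [hs, ht] at h1
  have hc : ContinuousOn φ univ := by
    have h1 := φ.continuousOn
    rwa [hs] at h1
  have h1 : (φ ⁻¹' C).Countable := hC.preimage (injOn_univ.mp hb.injOn)
  have h2 : 1 < Module.rank ℝ E := by
    rw [← Module.finrank_eq_rank, finrank_euclideanSpace_fin]
    norm_num
  have h3 := (h1.isConnected_compl_of_one_lt_rank h2).isPreconnected.image φ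
    (hc.mono (subset_univ _))
  have h4 : φ '' (φ ⁻¹' C)ᶜ = ball x r \ C := by
    ext y
    constructor
    · rintro ⟨z, hz, rfl⟩
      exact ⟨hb.mapsTo (mem_univ z), hz⟩
    · rintro ⟨h5, h6⟩
      obtain ⟨z, -, rfl⟩ := hb.surjOn h5
      exact ⟨z, h6, rfl⟩
  rwa [h4] at h3

end CONN

theorem blockCONN : StmtCONN := by
  intro W C hW hc hC
  rw [isPreconnected_iff_subset_of_disjoint] at hc ⊢
  intro u v hu hv hcov hdis
  have h1 : W ⊆ interior (C ∪ u) ∪ interior (C ∪ v) := by
    intro x hx
    obtain ⟨r, hr, hb⟩ := Metric.isOpen_iff.mp hW x hx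
    have h2 : ball x r \ C ⊆ W \ C := sdiff_subset_sdiff_left hb
    rcases isPreconnected_iff_subset_of_disjoint.mp (CONN.ball_diff hC x hr) u v hu hv
      (h2.trans hcov) (eq_empty_of_subset_empty (hdis ▸ inter_subset_inter_left _ h2)) with h | h
    · refine Or.inl (mem_interior_iff_mem_nhds.mpr (mem_of_superset (ball_mem_nhds x hr) ?_))
      intro y hy
      by_cases h3 : y ∈ C
      · exact Or.inl h3
      · exact Or.inr (h ⟨hy, h3⟩)
    · refine Or.inr (mem_interior_iff_mem_nhds.mpr (mem_of_superset (ball_mem_nhds x hr) ?_))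
      intro y hy
      by_cases h3 : y ∈ C
      · exact Or.inl h3
      · exact Or.inr (h ⟨hy, h3⟩)
  have h2 : W ∩ (interior (C ∪ u) ∩ interior (C ∪ v)) = ∅ := by
    by_contra h3
    obtain ⟨y, hy, hyW, hyu, hyv⟩ := (hC.dense_compl ℝ).exists_mem_open
      (hW.inter (isOpen_interior.inter isOpen_interior)) (nonempty_iff_ne_empty.mpr h3)
    have h4 : y ∈ (W \ C) ∩ (u ∩ v) :=
      ⟨⟨hyW, hy⟩, (interior_subset hyu).resolve_left hy, (interior_subset hyv).resolve_left hy⟩
    rw [hdis] at h4
    exact h4
  rcases hc _ _ isOpen_interior isOpen_interior h1 h2 with h | h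
  · exact Or.inl fun y hy => (interior_subset (h hy.1)).resolve_left hy.2
  · exact Or.inr fun y hy => (interior_subset (h hy.1)).resolve_left hy.2

end Vale.Agent.P073Z.Sm
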