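import Mathlib

/-!
# P073, smoothing half: definitions

Smoothing of a homeomorphism of open sets of 3-space which is conical (piecewise affine) off a
locally finite set of points.
-/

open Set Metric MeasureTheory Topology Filter
open scoped ContDiff ENNReal NNReal RealInnerProductSpace

noncomputable section

namespace Vale.Agent.P073Z.Sm

/-- Euclidean 3-space. -/
abbrev E := EuclideanSpace ℝ (Fin 3)

/-- `h` is a homeomorphism of `Ω` onto `Λ` (open sets). -/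
structure Homeo (h : E → E) (Ω Λ : Set E) : Prop where
  cont : ContinuousOn h Ω
  bij : BijOn h Ω Λ
  opn : ∀ V : Set E, IsOpen V → V ⊆ Ω → IsOpen (h '' V)

/-- `g` is positively homogeneous of degree one around `x`, near `x`. -/
def ConeAt (g : E → E) (x : E) : Prop :=
  ∃ r : ℝ, 0 < r ∧ ∀ v : E, ‖v‖ ≤ r → ∀ t ∈ Icc (0 : ℝ) 1,
    g (x + t • v) = g x + t • (g (x + v) - g x)

/-- `P` is a locally finite subset of `Ω`. -/
def LocFin (P Ω : Set E) : Prop :=
  P ⊆ Ω ∧ ∀ K : Set E, IsCompact K → K ⊆ Ω → (P ∩ K).Finite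

/-- smooth at `x` with injective derivative -/
def LD {X Y : Type} [NormedAddCommGroup X] [NormedSpace ℝ X] [NormedAddCommGroup Y]
    [NormedSpace ℝ Y] (F : X → Y) (x : X) : Prop :=
  ContDiffAt ℝ ∞ F x ∧ Function.Injective (fderiv ℝ F x)

/-- energy of `h` on `V` -/
def En (p : ℝ) (V : Set E) (h : E → E) : ℝ≥0∞ := ∫⁻ x in V, ‖fderiv ℝ h x‖ₑ ^ p

/-- energy of the difference of the derivatives on `V` -/
def DE (p : ℝ) (V : Set E) (h g : E → E) : ℝ≥0∞ :=
  ∫⁻ x in V, ‖fderiv ℝ h x - fderiv ℝ g x‖ₑ ^ p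

/-- Sobolev distance, with classical derivatives -/
def Dist (p : ℝ) (V : Set E) (h g : E → E) : ℝ≥0∞ :=
  eLpNorm (fun x => fderiv ℝ h x - fderiv ℝ g x) (ENNReal.ofReal p) (volume.restrict V) +
    eLpNorm (fun x => h x - g x) (ENNReal.ofReal p) (volume.restrict V)

/-- smoothing of the positive part `max t 0` at scale `δ` -/
structure IsM (M : ℝ → ℝ → ℝ) : Prop where
  out : ∀ t δ : ℝ, 0 ≤ δ → δ ≤ |t| → M t δ = max t 0
  mono : ∀ t t' δ : ℝ, 0 ≤ δ → t ≤ t' → M t δ ≤ M t' δ ∧ M t' δ - M t δ ≤ t' - t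
  lip : ∀ t δ δ' : ℝ, 0 ≤ δ → 0 ≤ δ' → |M t δ - M t δ'| ≤ |δ - δ'|
  hom : ∀ c t δ : ℝ, 0 < c → M (c * t) (c * δ) = c * M t δ
  smooth : ContDiffOn ℝ ∞ (fun q : ℝ × ℝ => M q.1 q.2) (univ ×ˢ Ioi 0)

/-- perspective function of `j` -/
def persp {X Y : Type} [NormedAddCommGroup X] [NormedSpace ℝ X] [NormedAddCommGroup Y]
    [NormedSpace ℝ Y] (j : X → Y) (z : X) (ρ : ℝ) : Y :=
  if 0 < ρ then ρ • j (ρ⁻¹ • z) else 0

/-- coordinate along the line through `x0` with unit direction `e` -/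
def sc (x0 e y : E) : ℝ := ⟪e, y - x0⟫

/-- distance to the line through `x0` with unit direction `e` -/
def rc (x0 e y : E) : ℝ := ‖y - x0 - sc x0 e y • e‖

/-- tube of radius `c * ρ` around the part of the line where `ρ > 0` -/
def tube (x0 e : E) (ρ : ℝ → ℝ) (c : ℝ) : Set E :=
  {y | 0 < ρ (sc x0 e y) ∧ rc x0 e y ≤ c * ρ (sc x0 e y)}

/-- `S` is a closed subset of `U` which is locally a line; `cls` labels the pieces, the piece with
label `i` lies on the line `x0 i + ℝ e i`. -/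
structure Lines {ι : Type} (U S : Set E) (cls : E → ι) (x0 e : ι → E) : Prop where
  opn : IsOpen U
  sub : S ⊆ U
  cl : IsOpen (U \ S)
  unit : ∀ i, ‖e i‖ = 1
  loc : ∀ x ∈ S, ∀ᶠ y in 𝓝 x,
    (y ∈ S ↔ rc (x0 (cls x)) (e (cls x)) y = 0) ∧ (y ∈ S → cls y = cls x)

/-- a system of thin tubes around the pieces of `S` -/
structure Tubes {ι : Type} (U S : Set E) (cls : E → ι) (x0 e : ι → E) (κ : ι → ℝ≥0)
    (O : ι → Set E) (ρ : ι → ℝ → ℝ) : Prop where
  lip : ∀ i, LipschitzWith (κ i) (ρ i)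
  nonneg : ∀ i s, 0 ≤ ρ i s
  le_one : ∀ i s, ρ i s ≤ 1
  smooth : ∀ i, ContDiffOn ℝ ∞ (ρ i) {s | 0 < ρ i s}
  pos : ∀ i s, 0 < ρ i s ↔ (x0 i + s • e i ∈ S ∧ cls (x0 i + s • e i) = i)
  sub : ∀ i, tube (x0 i) (e i) (ρ i) 4 ⊆ O i ∩ U
  disj : Pairwise fun i j => Disjoint (tube (x0 i) (e i) (ρ i) 4) (tube (x0 j) (e j) (ρ j) 4)
  axis : ∀ i, ∀ y ∈ tube (x0 i) (e i) (ρ i) 4, y ∈ S → rc (x0 i) (e i) y = 0 ∧ cls y = i
  fin : ∀ y ∈ U, ∃ V ∈ 𝓝 y, {i | (V ∩ tube (x0 i) (e i) (ρ i) 4).Nonempty}.Finite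
  clos : ∀ i, ∀ y ∈ U, y ∈ closure (tube (x0 i) (e i) (ρ i) 4) → 0 < ρ i (sc (x0 i) (e i) y)

/-- `G` is the global cone map with apex `x` which agrees with `g` near `x` -/
def IsTan (g : E → E) (x : E) (G : E → E) : Prop :=
  (∀ᶠ y in 𝓝 x, G y = g y) ∧
    ∀ y : E, ∀ t : ℝ, 0 ≤ t → G (x + t • (y - x)) = G x + t • (G y - G x)

/-- the tangent cone map -/
def tanM (g : E → E) (x : E) : E → E := Classical.epsilon (IsTan g x)

/-- directions along which `g` is a translation near `x` -/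
def Lin (g : E → E) (x : E) : Submodule ℝ E where
  carrier := {w | ∃ c : E, ∀ᶠ q : E × ℝ in 𝓝 (x, (0 : ℝ)), g (q.1 + q.2 • w) = g q.1 + q.2 • c}
  zero_mem' := ⟨0, Eventually.of_forall fun q => by simp⟩
  add_mem' := by
    rintro w w' ⟨c, hc⟩ ⟨c', hc'⟩
    refine ⟨c + c', ?_⟩
    have ht : Tendsto (fun q : E × ℝ => (q.1 + q.2 • w, q.2)) (𝓝 (x, (0 : ℝ))) (𝓝 (x, (0 : ℝ))) := by
      have : Continuous (fun q : E × ℝ => (q.1 + q.2 • w, q.2)) := by fun_prop
      simpa using this.tendsto (x, (0 : ℝ))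
    filter_upwards [hc, ht.eventually hc'] with q h1 h2
    have : q.1 + q.2 • (w + w') = (q.1 + q.2 • w) + q.2 • w' := by rw [smul_add, add_assoc]
    rw [this, h2, h1, smul_add, add_assoc]
  smul_mem' := by
    rintro a w ⟨c, hc⟩
    refine ⟨a • c, ?_⟩
    have ht : Tendsto (fun q : E × ℝ => (q.1, q.2 * a)) (𝓝 (x, (0 : ℝ))) (𝓝 (x, (0 : ℝ))) := by
      have : Continuous (fun q : E × ℝ => (q.1, q.2 * a)) := by fun_prop
      simpa using this.tendsto (x, (0 : ℝ))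
    filter_upwards [ht.eventually hc] with q h1
    rw [smul_smul, h1, smul_smul]

/-- dimension of the space of translation directions -/
def rk (g : E → E) (x : E) : ℕ := Module.finrank ℝ (Lin g x)

/-- labels of strata: cone map and supporting affine subspace -/
abbrev Lab := (E → E) × Set E

/-- the label of the stratum of `x` -/
def lab (g : E → E) (x : E) : Lab := (tanM g x, {y | y - x ∈ Lin g x})

/-- points of `U` of rank at most `k` -/
def Sk (g : E → E) (U : Set E) (k : ℕ) : Set E := {x | x ∈ U ∧ rk g x ≤ k}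

/-- the face with label `l` -/
def face (g : E → E) (U : Set E) (l : Lab) : Set E := {x | x ∈ U ∧ rk g x = 2 ∧ lab g x = l}

/-- along `S` the map `h` is a cone, invariant in the direction of `S`, affine somewhere near -/
def EdgeCone (h : E → E) (S : Set E) : Prop :=
  ∀ x ∈ S, ∃ e c : E, ‖e‖ = 1 ∧ ConeAt h x ∧ (∀ᶠ y in 𝓝 x, y ∈ S ↔ rc x e y = 0) ∧
    (∀ᶠ q : E × ℝ in 𝓝 (x, (0 : ℝ)), h (q.1 + q.2 • e) = h q.1 + q.2 • c) ∧
    ∀ V ∈ 𝓝 x, ∃ W : Set E, IsOpen W ∧ W.Nonempty ∧ W ⊆ V ∧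
      ∃ (A : E →L[ℝ] E) (b : E), ∀ y ∈ W, h y = b + A y

/-- solid cylinder around the segment from `0` to `L e₂` -/
def cyl (a L : ℝ) : Set E := {x | x 0 ^ 2 + x 1 ^ 2 ≤ a ^ 2 ∧ -a ≤ x 2 ∧ x 2 ≤ L + a}

/-- no component of `Ω \ D` is relatively compact in `Ω` -/
def Full (Ω D : Set E) : Prop :=
  ∀ x ∈ Ω \ D, ∀ K : Set E, IsCompact K → K ⊆ Ω → ∃ y ∈ connectedComponentIn (Ω \ D) x, y ∉ K

/-- `h'` is obtained from `h` by a cheap change inside the compact set `K` -/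
structure Chg (p : ℝ) (Ω Λ : Set E) (h h' : E → E) (K : Set E) (δ : ℝ≥0∞) : Prop where
  cpt : IsCompact K
  off : ∀ x, x ∉ K → h' x = h x
  homeo : Homeo h' Ω Λ
  vol : volume K ≤ δ
  en' : En p K h' ≤ δ
  en : En p K h ≤ δ

section LD

variable {X Y Z : Type} [NormedAddCommGroup X] [NormedSpace ℝ X] [NormedAddCommGroup Y]
  [NormedSpace ℝ Y] [NormedAddCommGroup Z] [NormedSpace ℝ Z]

theorem LD.differentiableAt {F : X → Y} {x : X} (h : LD F x) : DifferentiableAt ℝ F x :=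
  h.1.differentiableAt (by simp)

theorem LD.continuousAt {F : X → Y} {x : X} (h : LD F x) : ContinuousAt F x := h.1.continuousAt

theorem LD.comp {G : Y → Z} {F : X → Y} {x : X} (hG : LD G (F x)) (hF : LD F x) :
    LD (fun y => G (F y)) x := by
  refine ⟨hG.1.comp x hF.1, ?_⟩
  have := fderiv_comp x hG.differentiableAt hF.differentiableAt
  have h2 : fderiv ℝ (fun y => G (F y)) x = (fderiv ℝ G (F x)).comp (fderiv ℝ F x) := this
  rw [h2]
  exact hG.2.comp hF.2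

theorem LD.congr {F F' : X → Y} {x : X} (h : LD F x) (he : F' =ᶠ[𝓝 x] F) : LD F' x :=
  ⟨h.1.congr_of_eventuallyEq he, by rw [he.fderiv_eq]; exact h.2⟩

theorem LD.id (x : X) : LD (fun y : X => y) x :=
  ⟨contDiffAt_id, by
    have : fderiv ℝ (fun y : X => y) x = ContinuousLinearMap.id ℝ X := fderiv_id
    rw [this]; exact fun _ _ h => h⟩

theorem LD.affine (A : X →L[ℝ] Y) (hA : Function.Injective A) (b : Y) (x0 x : X) :
    LD (fun y => b + A (y - x0)) x := by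
  have hd : HasFDerivAt (fun y => b + A (y - x0)) A x := by
    have h1 : HasFDerivAt (fun y : X => y - x0) (ContinuousLinearMap.id ℝ X) x :=
      (hasFDerivAt_id x).sub_const x0
    have h2 := (A.hasFDerivAt.comp x h1).const_add b
    simpa using h2
  refine ⟨?_, by rw [hd.fderiv]; exact hA⟩
  exact contDiffAt_const.add (A.contDiff.contDiffAt.comp x (contDiffAt_id.sub contDiffAt_const))

theorem LD.equiv (A : X ≃L[ℝ] Y) (x : X) : LD (fun y => A y) x := by
  have := LD.affine (A : X →L[ℝ] Y) A.injective 0 0 x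
  simpa using this

end LD

end Vale.Agent.P073Z.Sm
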