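import Vale.Agent.P073Z.Sm.Sk

/-!
# P073, smoothing half, block FD: geometric tools
-/

open Set Metric MeasureTheory Topology Filter
open scoped ContDiff ENNReal NNReal RealInnerProductSpace

noncomputable section

namespace Vale.Agent.P073Z.Sm.FD

theorem norm_proj_le {n : E} (hn : ‖n‖ = 1) (v : E) : ‖v - ⟪n, v⟫ • n‖ ≤ ‖v‖ := by
  have h : ‖v - ⟪n, v⟫ • n‖ ^ 2 = ‖v‖ ^ 2 - ⟪n, v⟫ ^ 2 := by
    rw [norm_sub_sq_real, inner_smul_right, norm_smul, hn, real_inner_comm n v, Real.norm_eq_abs,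
      mul_one, sq_abs]
    ring
  have h2 : ‖v - ⟪n, v⟫ • n‖ ^ 2 ≤ ‖v‖ ^ 2 := by rw [h]; nlinarith [sq_nonneg ⟪n, v⟫]
  exact (pow_le_pow_iff_left₀ (norm_nonneg _) (norm_nonneg _) two_ne_zero).1 h2

theorem abs_inner_le {n : E} (hn : ‖n‖ = 1) (v : E) : |⟪n, v⟫| ≤ ‖v‖ := by
  have := abs_real_inner_le_norm n v
  rwa [hn, one_mul] at this

theorem inner_self_one {n : E} (hn : ‖n‖ = 1) : ⟪n, n⟫ = 1 := by
  rw [real_inner_self_eq_norm_sq, hn]; norm_num

theorem sc_sub (x0 e y z : E) : sc x0 e y - sc x0 e z = ⟪e, y - z⟫ := by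
  unfold sc
  rw [← inner_sub_right]
  congr 1
  abel

theorem abs_sc_sub {x0 e : E} (he : ‖e‖ = 1) (y z : E) : |sc x0 e y - sc x0 e z| ≤ ‖y - z‖ := by
  rw [sc_sub]; exact abs_inner_le he _

theorem rc_le {x0 e : E} (he : ‖e‖ = 1) (y z : E) : rc x0 e y ≤ rc x0 e z + ‖y - z‖ := by
  have h : y - x0 - sc x0 e y • e =
      (z - x0 - sc x0 e z • e) + ((y - z) - ⟪e, y - z⟫ • e) := by
    rw [← sc_sub x0 e y z, sub_smul]; abel
  unfold rc
  rw [h]
  exact (norm_add_le _ _).trans (add_le_add le_rfl (norm_proj_le he _))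

theorem rc_nonneg (x0 e y : E) : 0 ≤ rc x0 e y := norm_nonneg _

theorem continuous_sc (x0 e : E) : Continuous (sc x0 e) := by
  unfold sc; fun_prop

theorem contDiff_sc (x0 e : E) : ContDiff ℝ ∞ (sc x0 e) := by
  unfold sc
  exact contDiff_const.inner ℝ (contDiff_id.sub contDiff_const)

theorem continuous_rc (x0 e : E) : Continuous (rc x0 e) := by
  have := continuous_sc x0 e
  unfold rc; fun_prop

theorem decomp {e n m : E} (he : ‖e‖ = 1) (hn : ‖n‖ = 1) (hm : ‖m‖ = 1) (hen : ⟪e, n⟫ = 0)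
    (hem : ⟪e, m⟫ = 0) (hnm : ⟪n, m⟫ = 0) (v : E) :
    v = ⟪e, v⟫ • e + ⟪n, v⟫ • n + ⟪m, v⟫ • m := by
  have hne : ⟪n, e⟫ = 0 := by rw [real_inner_comm]; exact hen
  have hme : ⟪m, e⟫ = 0 := by rw [real_inner_comm]; exact hem
  have hmn : ⟪m, n⟫ = 0 := by rw [real_inner_comm]; exact hnm
  have ho : Orthonormal ℝ ![e, n, m] := by
    constructor
    · intro i
      fin_cases i
      · exact he
      · exact hn
      · exact hm
    · intro i j hij
      fin_cases i <;> fin_cases j <;> first | exact absurd rfl hij | assumption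
  have hsp : ⊤ ≤ Submodule.span ℝ (Set.range ![e, n, m]) :=
    (ho.linearIndependent.span_eq_top_of_card_eq_finrank' (by simp)).ge
  have h := (OrthonormalBasis.mk ho hsp).sum_repr' v
  rw [Fin.sum_univ_three] at h
  simp only [OrthonormalBasis.coe_mk] at h
  exact h.symm

/-- the profile function -/
theorem profile (hPERSP : StmtPERSP) : ∃ (p : ℝ → ℝ → ℝ) (L : ℝ), 0 < L ∧
    (∀ z z' r r', |p z r - p z' r'| ≤ L * |z - z'| + L * |r - r'|) ∧
    (∀ z r, 0 ≤ z → 0 ≤ p z r ∧ p z r ≤ z) ∧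
    (∀ z r, 0 ≤ z → p z r ≠ 0 → 0 < r ∧ 0 < z ∧ z ≤ r) ∧
    (∀ z r, 0 < r → 0 ≤ z → z ≤ 1 / 4 * r → p z r = z) ∧
    ∀ z r, 0 < r → ContDiffAt ℝ ∞ (fun q : ℝ × ℝ => p q.1 q.2) (z, r) := by
  let χ : ContDiffBump (0 : ℝ) := ⟨1 / 2, 1, by norm_num, by norm_num⟩
  let j : ℝ → ℝ := fun u => χ u * u
  have hjs : ContDiff ℝ ∞ j := χ.contDiff.mul contDiff_id
  have hjc : HasCompactSupport j := χ.hasCompactSupport.mul_right
  obtain ⟨C, hC⟩ := hjs.lipschitzWith_of_hasCompactSupport hjc (by simp)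
  have hχ0 : ∀ u : ℝ, 1 ≤ |u| → χ u = 0 := fun u hu =>
    χ.zero_of_le_dist (by rw [Real.dist_eq, sub_zero]; exact hu)
  have hj0 : ∀ w : ℝ, 1 ≤ ‖w‖ → j w = 0 := fun w hw => by
    simp only [j]; rw [hχ0 w hw, zero_mul]
  have hjb : ∀ w, ‖j w‖ ≤ ((max C 1 : ℝ≥0) : ℝ) := fun w => by
    have h1 : (1 : ℝ) ≤ ((max C 1 : ℝ≥0) : ℝ) := by exact_mod_cast le_max_right C 1
    refine le_trans ?_ h1
    by_cases hw : 1 ≤ ‖w‖
    · rw [hj0 w hw]; simp
    · simp only [j]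
      rw [norm_mul, Real.norm_eq_abs, abs_of_nonneg (χ.nonneg' w)]
      exact mul_le_one₀ χ.le_one (norm_nonneg _) (le_of_lt (not_le.1 hw))
  have hP := hPERSP ℝ ℝ j (max C 1) (hC.weaken (le_max_left _ _)) hjb hj0
  have hval : ∀ z r : ℝ, 0 < r → persp j z r = χ (r⁻¹ * z) * z := fun z r hr => by
    unfold persp
    rw [if_pos hr]
    simp only [j, smul_eq_mul]
    field_simp
  have hL : (0 : ℝ) < ((max C 1 : ℝ≥0) : ℝ) := by
    have h1 : (1 : ℝ) ≤ ((max C 1 : ℝ≥0) : ℝ) := by exact_mod_cast le_max_right C 1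
    linarith
  refine ⟨persp j, 2 * ((max C 1 : ℝ≥0) : ℝ), by linarith, ?_, ?_, ?_, ?_, ?_⟩
  · intro z z' r r'
    have h := hP z z' r r'
    rw [Real.norm_eq_abs, Real.norm_eq_abs] at h
    nlinarith [abs_nonneg (z - z')]
  · intro z r hz
    by_cases hr : 0 < r
    · rw [hval z r hr]
      exact ⟨mul_nonneg (χ.nonneg' _) hz, mul_le_of_le_one_left hz χ.le_one⟩
    · unfold persp; rw [if_neg hr]; exact ⟨le_rfl, hz⟩
  · intro z r hz hne
    by_cases hr : 0 < r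
    · rw [hval z r hr] at hne
      refine ⟨hr, lt_of_le_of_ne hz fun h => hne (by rw [← h, mul_zero]), ?_⟩
      by_contra hlt
      push Not at hlt
      apply hne
      rw [hχ0, zero_mul]
      rw [abs_of_nonneg (by positivity), inv_mul_eq_div, le_div_iff₀ hr]
      linarith
    · exact absurd (by unfold persp; rw [if_neg hr]) hne
  · intro z r hr hz hzr
    rw [hval z r hr, χ.one_of_mem_closedBall, one_mul]
    rw [mem_closedBall, Real.dist_eq, sub_zero, abs_of_nonneg (by positivity), inv_mul_eq_div,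
      div_le_iff₀ hr]
    change z ≤ 1 / 2 * r
    linarith
  · intro z r hr
    have hev : (fun q : ℝ × ℝ => persp j q.1 q.2) =ᶠ[𝓝 (z, r)]
        fun q : ℝ × ℝ => χ (q.2⁻¹ * q.1) * q.1 := by
      have : ∀ᶠ q : ℝ × ℝ in 𝓝 (z, r), 0 < q.2 :=
        continuous_snd.continuousAt.eventually (lt_mem_nhds hr)
      filter_upwards [this] with q hq using hval q.1 q.2 hq
    refine ContDiffAt.congr_of_eventuallyEq ?_ hev
    refine ContDiffAt.mul ?_ contDiffAt_fst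
    exact χ.contDiffAt.comp (z, r) ((contDiffAt_snd.inv hr.ne').mul contDiffAt_fst)

/-- supremum of a bounded family of Lipschitz functions -/
theorem sup_lip {ι : Type} [Nonempty ι] (t : ι → E → ℝ) (K B : ℝ)
    (hl : ∀ i y z, t i y ≤ t i z + K * dist y z) (h0 : ∀ i y, 0 ≤ t i y) (hB : ∀ i y, t i y ≤ B) :
    ∃ D : E → ℝ, (∀ y z, D y ≤ D z + K * dist y z) ∧ (∀ i y, t i y ≤ D y) ∧
      (∀ y c, (∀ i, t i y ≤ c) → D y ≤ c) ∧ ∀ y i, (∀ j, j ≠ i → t j y = 0) → D y = t i y := by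
  have hb : ∀ y, BddAbove (range fun i => t i y) := fun y => ⟨B, by rintro _ ⟨i, rfl⟩; exact hB i y⟩
  have h1 : ∀ i y, t i y ≤ ⨆ i, t i y := fun i y => le_ciSup (hb y) i
  refine ⟨fun y => ⨆ i, t i y, fun y z => ciSup_le fun i => (hl i y z).trans ?_, h1,
    fun y c hc => ciSup_le hc, fun y i hi => le_antisymm (ciSup_le fun j => ?_) (h1 i y)⟩
  · linarith [h1 i z]
  · by_cases hj : j = i
    · rw [hj]
    · rw [hi j hj]; exact h0 i y

/-- one side of an invariant planar set -/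
theorem side {x e n m : E} (he : ‖e‖ = 1) (hn : ‖n‖ = 1) (hm : ‖m‖ = 1) (hen : ⟪e, n⟫ = 0)
    (hem : ⟪e, m⟫ = 0) (hnm : ⟪n, m⟫ = 0) {A B : Set E}
    (hA : ∀ (z : E) (t s : ℝ), 0 < t → (x + t • (z - x) + s • e ∈ A ↔ z ∈ A))
    (hB : ∀ (z : E) (t s : ℝ), 0 < t → (x + t • (z - x) + s • e ∈ B ↔ z ∈ B))
    (hAB : ∀ y ∈ A, ∀ᶠ z in 𝓝 y, z ∉ B) :
    ∃ (a : E → ℝ) (θ : ℝ), 0 < θ ∧ (∀ y z, |a y - a z| ≤ dist y z) ∧ (∀ y, 0 ≤ a y) ∧
      (∀ y, ⟪m, y - x⟫ ≤ 0 → a y = 0) ∧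
      ∀ y, ⟪n, y - x⟫ = 0 → 0 < ⟪m, y - x⟫ →
        (y ∈ A → (∀ z, 0 ≤ ⟪m, z - x⟫ → a z = ⟪m, z - x⟫) ∧
          ∀ z ∈ B, θ * ⟪m, y - x⟫ ≤ dist y z) ∧ (y ∉ A → a y = 0) := by
  have hrep : ∀ y, ⟪n, y - x⟫ = 0 →
      y = x + ⟪m, y - x⟫ • ((x + m) - x) + ⟪e, y - x⟫ • e := fun y hy => by
    have h := decomp he hn hm hen hem hnm (y - x)
    rw [hy, zero_smul, add_zero] at h
    rw [add_sub_cancel_left, add_assoc, add_comm (⟪m, y - x⟫ • m), ← h]
    abel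
  have hiff : ∀ y, ⟪n, y - x⟫ = 0 → 0 < ⟪m, y - x⟫ → (y ∈ A ↔ x + m ∈ A) := fun y hy hu => by
    rw [← hA (x + m) _ ⟪e, y - x⟫ hu, ← hrep y hy]
  by_cases hp : x + m ∈ A
  · obtain ⟨θ, hθ, hball⟩ := Metric.eventually_nhds_iff.1 (hAB _ hp)
    refine ⟨fun y => max ⟪m, y - x⟫ 0, θ, hθ, fun y z => ?_, fun y => le_max_right _ _,
      fun y hy => max_eq_right hy, fun y hy hu => ⟨fun _ => ⟨fun z hz => max_eq_left hz, ?_⟩,
        fun h => absurd ((hiff y hy hu).2 hp) h⟩⟩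
    · refine (abs_max_sub_max_le_abs _ _ _).trans ?_
      rw [← inner_sub_right, dist_eq_norm, sub_sub_sub_cancel_right]
      exact abs_inner_le hm _
    · intro z hz
      by_contra hlt
      push Not at hlt
      set u := ⟪m, y - x⟫ with hu'
      set s := ⟪e, y - x⟫ with hs'
      have hz' : x + u⁻¹ • (z - x) + (-(u⁻¹ * s)) • e ∈ B := (hB z _ _ (inv_pos.2 hu)).2 hz
      refine hball ?_ hz'
      have hy' := hrep y hy
      rw [← hu', ← hs', add_sub_cancel_left] at hy'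
      have hv : x + u⁻¹ • (z - x) + (-(u⁻¹ * s)) • e - (x + m) = u⁻¹ • (z - y) := by
        have hm' : m = u⁻¹ • (u • m) := by rw [smul_smul, inv_mul_cancel₀ hu.ne', one_smul]
        have hzy : z - y = (z - x) - u • m - s • e := by rw [hy']; abel
        rw [hzy, smul_sub u⁻¹ (z - x - u • m), smul_sub u⁻¹ (z - x), ← hm', smul_smul, neg_smul]
        abel
      rw [dist_eq_norm, hv, norm_smul, Real.norm_eq_abs, abs_of_pos (inv_pos.2 hu),
        inv_mul_eq_div, div_lt_iff₀ hu, ← dist_eq_norm, dist_comm]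
      exact hlt
  · exact ⟨fun _ => 0, 1, one_pos, fun y z => by simp, fun _ => le_rfl, fun _ _ => rfl,
      fun y hy hu => ⟨fun h => absurd ((hiff y hy hu).1 h) hp, fun _ => rfl⟩⟩

/-- both sides of an invariant planar set -/
theorem cone {x e n : E} (he : ‖e‖ = 1) (hn : ‖n‖ = 1) (hen : ⟪e, n⟫ = 0) {A B : Set E}
    (hA : ∀ (z : E) (t s : ℝ), 0 < t → (x + t • (z - x) + s • e ∈ A ↔ z ∈ A))
    (hB : ∀ (z : E) (t s : ℝ), 0 < t → (x + t • (z - x) + s • e ∈ B ↔ z ∈ B))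
    (hAB : ∀ y ∈ A, ∀ᶠ z in 𝓝 y, z ∉ B) (hx : x ∉ A) (hpl : ∀ y ∈ A, ⟪n, y - x⟫ = 0)
    (hne : A.Nonempty) :
    ∃ (a : E → ℝ) (θ : ℝ), 0 < θ ∧ (∀ y z, |a y - a z| ≤ 2 * dist y z) ∧ (∀ y, 0 ≤ a y) ∧
      (∀ y ∈ A, a y = rc x e y ∧ 0 < a y ∧ ContDiffAt ℝ ∞ a y ∧
        ∀ z ∈ B, θ * rc x e y ≤ dist y z) ∧
      ∀ y, ⟪n, y - x⟫ = 0 → y ∉ A → a y = 0 := by
  have hax : ∀ y ∈ A, rc x e y ≠ 0 := fun y hy h0 => by
    apply hx
    have h1 : y = x + (1 : ℝ) • (x - x) + sc x e y • e := by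
      have := norm_eq_zero.1 h0
      rw [sub_self, smul_zero, add_zero, ← sub_eq_zero, ← this]
      abel
    rw [← hA x 1 (sc x e y) one_pos, ← h1]
    exact hy
  obtain ⟨y0, hy0⟩ := hne
  have hr0 : 0 < rc x e y0 := lt_of_le_of_ne (rc_nonneg _ _ _) (hax y0 hy0).symm
  set m : E := (rc x e y0)⁻¹ • (y0 - x - sc x e y0 • e) with hmdef
  have hm : ‖m‖ = 1 := by
    rw [hmdef, norm_smul, Real.norm_eq_abs, abs_of_pos (inv_pos.2 hr0)]
    exact inv_mul_cancel₀ hr0.ne'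
  have hne' : ⟪n, e⟫ = 0 := by rw [real_inner_comm]; exact hen
  have hem : ⟪e, m⟫ = 0 := by
    rw [hmdef, inner_smul_right, inner_sub_right, inner_smul_right, inner_self_one he]
    unfold sc; ring
  have hnm : ⟪n, m⟫ = 0 := by
    rw [hmdef, inner_smul_right, inner_sub_right, inner_smul_right, hne', hpl y0 hy0]
    ring
  have hrc : ∀ y, ⟪n, y - x⟫ = 0 → rc x e y = |⟪m, y - x⟫| := fun y hy => by
    have h := decomp he hn hm hen hem hnm (y - x)
    rw [hy, zero_smul, add_zero] at h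
    have h2 : y - x - sc x e y • e = ⟪m, y - x⟫ • m := by
      unfold sc
      rw [sub_eq_iff_eq_add']
      exact h
    unfold rc
    rw [h2, norm_smul, hm, mul_one, Real.norm_eq_abs]
  obtain ⟨a1, θ1, hθ1, hl1, h01, hz1, hs1⟩ := side he hn hm hen hem hnm hA hB hAB
  obtain ⟨a2, θ2, hθ2, hl2, h02, hz2, hs2⟩ := side (m := -m) he hn (by rw [norm_neg, hm]) hen
    (by rw [inner_neg_right, hem, neg_zero]) (by rw [inner_neg_right, hnm, neg_zero]) hA hB hAB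
  simp only [inner_neg_left] at hz2 hs2
  have hcu : Continuous fun z : E => ⟪m, z - x⟫ := by fun_prop
  have hsu : ContDiff ℝ ∞ fun z : E => ⟪m, z - x⟫ :=
    contDiff_const.inner ℝ (contDiff_id.sub contDiff_const)
  refine ⟨fun y => a1 y + a2 y, min θ1 θ2, lt_min hθ1 hθ2, fun y z => ?_,
    fun y => add_nonneg (h01 y) (h02 y), fun y hy => ?_, fun y hy hyA => ?_⟩
  · have h1 := abs_le.1 (hl1 y z)
    have h2 := abs_le.1 (hl2 y z)
    rw [abs_le]
    constructor <;> linarith [h1.1, h1.2, h2.1, h2.2]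
  · have hy' := hpl y hy
    have hu : ⟪m, y - x⟫ ≠ 0 := fun h => hax y hy (by rw [hrc y hy', h, abs_zero])
    rcases lt_or_gt_of_ne hu with hu | hu
    · obtain ⟨h1, h2⟩ := (hs2 y hy' (by linarith)).1 hy
      have hev : (fun z => a1 z + a2 z) =ᶠ[𝓝 y] fun z => -⟪m, z - x⟫ := by
        filter_upwards [hcu.continuousAt.eventually (gt_mem_nhds hu)] with z hz
        rw [hz1 z hz.le, h1 z (by linarith), zero_add]
      have hv : a1 y + a2 y = -⟪m, y - x⟫ := hev.eq_of_nhds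
      refine ⟨by rw [hrc y hy', abs_of_neg hu]; exact hv, by
        change 0 < a1 y + a2 y; rw [hv]; linarith,
        hsu.neg.contDiffAt.congr_of_eventuallyEq hev, fun z hz => le_trans ?_ (h2 z hz)⟩
      rw [hrc y hy', abs_of_neg hu]
      exact mul_le_mul_of_nonneg_right (min_le_right _ _) (by linarith)
    · obtain ⟨h1, h2⟩ := (hs1 y hy' hu).1 hy
      have hev : (fun z => a1 z + a2 z) =ᶠ[𝓝 y] fun z => ⟪m, z - x⟫ := by
        filter_upwards [hcu.continuousAt.eventually (lt_mem_nhds hu)] with z hz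
        rw [hz2 z (by linarith), h1 z hz.le, add_zero]
      have hv : a1 y + a2 y = ⟪m, y - x⟫ := hev.eq_of_nhds
      refine ⟨by rw [hrc y hy', abs_of_pos hu]; exact hv, by
        change 0 < a1 y + a2 y; rw [hv]; exact hu,
        hsu.contDiffAt.congr_of_eventuallyEq hev, fun z hz => le_trans ?_ (h2 z hz)⟩
      rw [hrc y hy', abs_of_pos hu]
      exact mul_le_mul_of_nonneg_right (min_le_left _ _) hu.le
  · change a1 y + a2 y = 0
    rcases lt_trichotomy ⟪m, y - x⟫ 0 with hu | hu | hu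
    · rw [hz1 y hu.le, (hs2 y hy (by linarith)).2 hyA, add_zero]
    · rw [hz1 y hu.le, hz2 y (by linarith), add_zero]
    · rw [(hs1 y hy hu).2 hyA, hz2 y (by linarith), add_zero]

end Vale.Agent.P073Z.Sm.FD
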