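import Vale.Agent.P073Z.Sm.FD1

/-!
# P073, smoothing half, block FD: faces and tubes
-/

open Set Metric MeasureTheory Topology Filter
open scoped ContDiff ENNReal NNReal RealInnerProductSpace

noncomputable section

namespace Vale.Agent.P073Z.Sm.FD

theorem lab_plane {g G : E → E} {xf n y : E} (hn : ∀ w, w ∈ Lin g xf ↔ ⟪n, w⟫ = 0)
    (h : lab G y = lab g xf) : ⟪n, y - xf⟫ = 0 ∧ ∀ w, w ∈ Lin G y ↔ ⟪n, w⟫ = 0 := by
  have h2 : {z | z - y ∈ Lin G y} = {z | z - xf ∈ Lin g xf} := congrArg Prod.snd h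
  have h3 : ∀ z, z - y ∈ Lin G y ↔ ⟪n, z - xf⟫ = 0 := fun z => by
    rw [← hn]; exact Set.ext_iff.1 h2 z
  have h4 : ⟪n, y - xf⟫ = 0 := (h3 y).1 (by rw [sub_self]; exact Submodule.zero_mem _)
  refine ⟨h4, fun w => ?_⟩
  have h5 := h3 (y + w)
  rw [add_sub_cancel_left] at h5
  have h6 : y + w - xf = (y - xf) + w := by abel
  rw [h5, h6, inner_add_right, h4, zero_add]

theorem near_face (hST : StmtST) {g G : E → E} {xf n y : E}
    (hn : ∀ w, w ∈ Lin g xf ↔ ⟪n, w⟫ = 0) (hc : ∀ᶠ z in 𝓝 y, ConeAt G z) (hr : rk G y = 2)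
    (hl : lab G y = lab g xf) :
    ∀ᶠ z in 𝓝 y, (⟪n, z - xf⟫ = 0 ∨ rk G z ≤ 2) → rk G z = 2 ∧ lab G z = lab g xf := by
  obtain ⟨hy, hL⟩ := lab_plane hn hl
  filter_upwards [hST.near G y hc] with z hz hor
  obtain ⟨h1, h2, -, h4⟩ := hz
  have hm : z - y ∈ Lin G y := by
    rcases hor with h | h
    · rw [hL]
      have : z - y = (z - xf) - (y - xf) := by abel
      rw [this, inner_sub_right, h, hy, sub_zero]
    · have : Lin G y = Lin G z := Submodule.eq_of_le_of_finrank_le h1 (by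
        unfold rk at h hr; rw [hr]; exact h)
      rw [this]; exact h2
  obtain ⟨h5, h6⟩ := h4 hm
  refine ⟨?_, h5.trans hl⟩
  unfold rk at hr ⊢
  rw [h6]; exact hr

theorem tube_mono {x0 e : E} {ρ : ℝ → ℝ} {c c' : ℝ} (h : c ≤ c') :
    tube x0 e ρ c ⊆ tube x0 e ρ c' := fun _ hy =>
  ⟨hy.1, hy.2.trans (mul_le_mul_of_nonneg_right h hy.1.le)⟩

section Tubes

variable {ι : Type} {U S : Set E} {cls : E → ι} {x0 e : ι → E} {κ : ι → ℝ≥0}
  {O : ι → Set E} {ρ : ι → ℝ → ℝ}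

theorem tube_closed (hT : Tubes U S cls x0 e κ O ρ) {c : ℝ} (hc : c ≤ 4) {y : E} (hy : y ∈ U)
    (i : ι) (hi : y ∉ tube (x0 i) (e i) (ρ i) c) :
    ∀ᶠ z in 𝓝 y, z ∉ tube (x0 i) (e i) (ρ i) c := by
  by_cases hcl : y ∈ closure (tube (x0 i) (e i) (ρ i) 4)
  · have hpos := hT.clos i y hy hcl
    have hlt : c * ρ i (sc (x0 i) (e i) y) < rc (x0 i) (e i) y := by
      by_contra h
      exact hi ⟨hpos, not_lt.1 h⟩
    have h1 : Continuous fun z => c * ρ i (sc (x0 i) (e i) z) :=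
      continuous_const.mul ((hT.lip i).continuous.comp (continuous_sc _ _))
    filter_upwards [h1.continuousAt.eventually_lt (continuous_rc _ _).continuousAt hlt] with z hz h
    exact absurd h.2 (not_le.2 hz)
  · filter_upwards [isClosed_closure.isOpen_compl.mem_nhds hcl] with z hz h
    exact hz (subset_closure (tube_mono hc h))

theorem tubes_closed (hT : Tubes U S cls x0 e κ O ρ) {c : ℝ} (hc : c ≤ 4) {y : E} (hy : y ∈ U) :
    ∀ᶠ z in 𝓝 y, ∀ i, y ∉ tube (x0 i) (e i) (ρ i) c → z ∉ tube (x0 i) (e i) (ρ i) c := by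
  obtain ⟨V, hV, hfin⟩ := hT.fin y hy
  have h1 : ∀ᶠ z in 𝓝 y, ∀ i ∈ {i | (V ∩ tube (x0 i) (e i) (ρ i) 4).Nonempty},
      y ∉ tube (x0 i) (e i) (ρ i) c → z ∉ tube (x0 i) (e i) (ρ i) c := by
    rw [eventually_all_finite hfin]
    intro i _
    by_cases hi : y ∈ tube (x0 i) (e i) (ρ i) c
    · exact Eventually.of_forall fun z h => absurd hi h
    · filter_upwards [tube_closed hT hc hy i hi] with z hz _ using hz
  filter_upwards [h1, hV] with z hz hzV i hi h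
  exact hz i ⟨z, hzV, tube_mono hc h⟩ hi h

theorem ball_tube {x0 e : E} {ρ : ℝ → ℝ} {κ : ℝ≥0} (he : ‖e‖ = 1) (hl : LipschitzWith κ ρ)
    (hκ : κ ≤ 1) {y z : E} (hy : y ∈ tube x0 e ρ 1) (hz : dist y z ≤ 1 / 2 * rc x0 e y) :
    z ∈ tube x0 e ρ 4 := by
  have h1 := hl.dist_le_mul (sc x0 e y) (sc x0 e z)
  rw [Real.dist_eq, Real.dist_eq] at h1
  have hκ' : (κ : ℝ) ≤ 1 := by exact_mod_cast hκ
  have h2 := abs_sc_sub (x0 := x0) he y z
  have h3 := rc_le (x0 := x0) he z y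
  rw [← dist_eq_norm] at h2
  rw [← dist_eq_norm, dist_comm] at h3
  have h4 : |ρ (sc x0 e y) - ρ (sc x0 e z)| ≤ dist y z :=
    h1.trans ((mul_le_of_le_one_left (abs_nonneg _) hκ').trans h2)
  have h5 := (abs_le.1 h4).2
  obtain ⟨h6, h7⟩ := hy
  have h8 := rc_nonneg x0 e y
  constructor
  · linarith
  · linarith

end Tubes

/-- the data of the face `F` inside one tube -/
theorem tube_data (hST : StmtST) {g : E → E} {U : Set E} {x0 e : Lab → E} {κt : Lab → ℝ≥0}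
    {O : Lab → Set E} {ρ : Lab → ℝ → ℝ} {xf n : E} (hU : IsOpen U) (hZ : Uᶜ.Nonempty)
    (hc : ∀ x ∈ U, ConeAt g x) (hL : Lines U (Sk g U 1) (lab g) x0 e)
    (hT : Tubes U (Sk g U 1) (lab g) x0 e κt O ρ) (hκ : ∀ i, κt i ≤ 1)
    (hO : ∀ i, ∀ y ∈ O i, g =ᶠ[𝓝 y] i.1) (hn1 : ‖n‖ = 1)
    (hn : ∀ w, w ∈ Lin g xf ↔ ⟪n, w⟫ = 0) (i : Lab) :
    ∃ (a : E → ℝ) (θ : ℝ), 0 < θ ∧ (∀ y z, |a y - a z| ≤ 2 * dist y z) ∧ (∀ y, 0 ≤ a y) ∧
      (∀ y, ⟪n, y - xf⟫ = 0 → a y ≠ 0 → a y = rc (x0 i) (e i) y) ∧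
      (∀ y, ⟪n, y - xf⟫ = 0 → y ∈ tube (x0 i) (e i) (ρ i) 4 → a y ≠ 0 →
        y ∈ face g U (lab g xf)) ∧
      (∀ y ∈ face g U (lab g xf), y ∈ tube (x0 i) (e i) (ρ i) 4 →
        0 < a y ∧ ContDiffAt ℝ ∞ a y) ∧
      ∀ y ∈ face g U (lab g xf), y ∈ tube (x0 i) (e i) (ρ i) 1 →
        θ * rc (x0 i) (e i) y ≤ infDist y ((Sk g U 2 \ face g U (lab g xf)) ∪ Uᶜ) := by
  by_cases hne : ∃ y0 ∈ face g U (lab g xf), y0 ∈ tube (x0 i) (e i) (ρ i) 4
  swap
  · push Not at hne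
    exact ⟨fun _ => 0, 1, one_pos, fun y z => by simp, fun _ => le_rfl,
      fun _ _ h => absurd rfl h, fun _ _ _ h => absurd rfl h, fun y hy h => absurd h (hne y hy),
      fun y hy h => absurd (tube_mono (by norm_num) h) (hne y hy)⟩
  obtain ⟨y0, hy0F, hy0T⟩ := hne
  have he := hL.unit i
  set s0 := sc (x0 i) (e i) y0 with hs0
  set x := x0 i + s0 • e i with hx
  obtain ⟨hxS, hxi⟩ := (hT.pos i s0).1 hy0T.1
  rw [← hx] at hxS hxi
  have hG : i.1 = tanM g x := by rw [← hxi]; rfl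
  have hcx : ∀ᶠ y in 𝓝 x, ConeAt g y := by
    filter_upwards [hU.mem_nhds hxS.1] with y hy using hc y hy
  have hex : e i ∈ Lin g x := by
    have ht : Tendsto (fun t : ℝ => x + t • e i) (𝓝 0) (𝓝 x) := by
      have : Continuous fun t : ℝ => x + t • e i := by fun_prop
      simpa using this.tendsto 0
    have h1 := (ht.eventually (hL.loc x hxS)).filter_mono (nhdsWithin_le_nhds (s := Ioi 0))
    obtain ⟨t, ⟨h2, h3⟩, ht0⟩ := (h1.and self_mem_nhdsWithin).exists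
    have ht0' : (0 : ℝ) < t := ht0
    rw [hxi] at h2
    have hr : rc (x0 i) (e i) (x + t • e i) = 0 := by
      have h4 : x + t • e i - x0 i = (s0 + t) • e i := by rw [hx, add_smul]; abel
      unfold rc sc
      rw [h4, inner_smul_right, inner_self_one he, mul_one, sub_self, norm_zero]
    have h5 : {z | z - (x + t • e i) ∈ Lin g (x + t • e i)} = {z | z - x ∈ Lin g x} :=
      congrArg Prod.snd (h3 (h2.2 hr))
    have h6 : x + t • e i - x ∈ Lin g x :=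
      (Set.ext_iff.1 h5 (x + t • e i)).1 (by
        change (x + t • e i) - (x + t • e i) ∈ Lin g (x + t • e i)
        rw [sub_self]; exact Submodule.zero_mem _)
    rw [add_sub_cancel_left] at h6
    have h7 := Submodule.smul_mem _ t⁻¹ h6
    rwa [smul_smul, inv_mul_cancel₀ ht0'.ne', one_smul] at h7
  have hglob := hST.glob g x hcx
  rw [← hG] at hglob
  have hinv : ∀ (z : E) (t s : ℝ), 0 < t →
      rk i.1 (x0 i + t • (z - x0 i) + s • e i) = rk i.1 z ∧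
        lab i.1 (x0 i + t • (z - x0 i) + s • e i) = lab i.1 z := fun z t s ht => by
    have h1 : x0 i + t • (z - x0 i) + s • e i = x + t • (z - x) + (s - s0 + t * s0) • e i := by
      rw [hx]; module
    obtain ⟨h2, h3⟩ := (hglob z).2.2.2 t _ ht (Submodule.smul_mem _ (s - s0 + t * s0) hex)
    rw [h1]
    exact ⟨by unfold rk; rw [h2], h3⟩
  have hloc : ∀ y ∈ tube (x0 i) (e i) (ρ i) 4,
      y ∈ U ∧ rk g y = rk i.1 y ∧ lab g y = lab i.1 y := fun y hy => by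
    obtain ⟨h1, h2⟩ := hT.sub i hy
    obtain ⟨-, -, h3, h4, -⟩ := hST.germ g i.1 y (hO i y h1)
    exact ⟨h2, h3, h4⟩
  set A : Set E := {y | rk i.1 y = 2 ∧ lab i.1 y = lab g xf} with hAdef
  set B : Set E := {y | rk i.1 y ≤ 2 ∧ y ∉ A} with hBdef
  have hFA : ∀ y ∈ tube (x0 i) (e i) (ρ i) 4, y ∈ face g U (lab g xf) ↔ y ∈ A := fun y hy => by
    obtain ⟨h1, h2, h3⟩ := hloc y hy
    exact ⟨fun h => ⟨h2 ▸ h.2.1, h3 ▸ h.2.2⟩, fun h => ⟨h1, h2 ▸ h.1, h3 ▸ h.2⟩⟩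
  have hA : ∀ (z : E) (t s : ℝ), 0 < t → (x0 i + t • (z - x0 i) + s • e i ∈ A ↔ z ∈ A) :=
    fun z t s ht => by
      obtain ⟨h1, h2⟩ := hinv z t s ht
      simp only [hAdef, mem_ofPred_eq]
      rw [h1, h2]
  have hB : ∀ (z : E) (t s : ℝ), 0 < t → (x0 i + t • (z - x0 i) + s • e i ∈ B ↔ z ∈ B) :=
    fun z t s ht => by
      obtain ⟨h1, -⟩ := hinv z t s ht
      simp only [hBdef, mem_ofPred_eq]
      rw [h1, hA z t s ht]
  have hAB : ∀ y ∈ A, ∀ᶠ z in 𝓝 y, z ∉ B := fun y hy => by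
    filter_upwards [near_face hST hn (Eventually.of_forall fun z => (hglob z).1) hy.1 hy.2]
      with z hz h
    exact h.2 (hz (Or.inr h.1))
  have hy0A : y0 ∈ A := (hFA y0 hy0T).1 hy0F
  obtain ⟨hp0, hL0⟩ := lab_plane hn hy0A.2
  have hne : ⟪n, e i⟫ = 0 := (hL0 _).1 ((hglob y0).2.1 hex)
  have hnx : ⟪n, y0 - x⟫ = 0 := (hL0 _).1 (hglob y0).2.2.1
  have hsh : ∀ y, ⟪n, y - x0 i⟫ = ⟪n, y - xf⟫ := fun y => by
    have h1 : y - x0 i = (y - xf) - (y0 - xf) + (y0 - x) + s0 • e i := by rw [hx]; abel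
    rw [h1, inner_add_right, inner_add_right, inner_sub_right n (y - xf), hp0, hnx,
      inner_smul_right, hne]
    ring
  have hx0 : x0 i ∉ A := fun h => by
    have h1 := (hinv (x0 i) 1 s0 one_pos).1
    rw [sub_self, smul_zero, add_zero, ← hx, h.1] at h1
    have h2 : g =ᶠ[𝓝 x] i.1 := by
      rw [hG]
      filter_upwards [(hST.isTan g x (hc x hxS.1)).1] with y hy using hy.symm
    have h3 := (hST.germ g i.1 x h2).2.2.1
    have h4 := hxS.2
    omega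
  have hpl : ∀ y ∈ A, ⟪n, y - x0 i⟫ = 0 := fun y hy => by
    rw [hsh]; exact (lab_plane hn hy.2).1
  obtain ⟨a, θ, hθ, hl, h0, hin, hout⟩ := cone he hn1 (by rw [real_inner_comm]; exact hne)
    hA hB hAB hx0 hpl ⟨y0, hy0A⟩
  have hmem : ∀ y, ⟪n, y - xf⟫ = 0 → a y ≠ 0 → y ∈ A := fun y hy hay => by
    by_contra h
    exact hay (hout y (by rw [hsh]; exact hy) h)
  refine ⟨a, min θ (1 / 2), lt_min hθ (by norm_num), hl, h0,
    fun y hy hay => (hin y (hmem y hy hay)).1, fun y hy hyT hay => (hFA y hyT).2 (hmem y hy hay),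
    fun y hy hyT => ⟨(hin y ((hFA y hyT).1 hy)).2.1, (hin y ((hFA y hyT).1 hy)).2.2.1⟩,
    fun y hy hyT => ?_⟩
  have hyA : y ∈ A := (hFA y (tube_mono (by norm_num) hyT)).1 hy
  rw [le_infDist (hZ.mono subset_union_right)]
  intro z hz
  by_contra hlt
  push Not at hlt
  have hr := rc_nonneg (x0 i) (e i) y
  have hzT : z ∈ tube (x0 i) (e i) (ρ i) 4 := ball_tube he (hT.lip i) (hκ i) hyT
    (hlt.le.trans (mul_le_mul_of_nonneg_right (min_le_right _ _) hr))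
  obtain ⟨h1, h2, -⟩ := hloc z hzT
  rcases hz with hz | hz
  · have hzB : z ∈ B := ⟨h2 ▸ hz.1.2, fun h => hz.2 ((hFA z hzT).2 h)⟩
    have h3 := (hin y hyA).2.2.2 z hzB
    have h4 := mul_le_mul_of_nonneg_right (min_le_left θ (1 / 2)) hr
    linarith
  · exact hz h1

end Vale.Agent.P073Z.Sm.FD
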